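/-
The greedy superstring algorithm, as plain Lean functions over any alphabet with decidable equality,
with its elementary properties.  The machine side is in `Crest/Agent/SS/GreedyPT.lean`.
-/
import Mathlib

set_option autoImplicit false

namespace Crest.Agent.SS

variable {β : Type} [DecidableEq β]

/-- The longest suffix of `a` which is a prefix of `b`. -/
def ovl : List β → List β → List β
  | [], _ => []
  | x :: a, b => if x :: a <+: b then x :: a else ovl a b

/-- Merge with maximal overlap. -/
def merge (a b : List β) : List β := a ++ b.drop (ovl a b).length

/-- All ordered pairs of different strings. -/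
def pairs (L : List (List β)) : List (List β × List β) :=
  (L.flatMap fun a => L.map fun b => (a, b)).filter fun p => !decide (p.1 = p.2)

/-- Keep the pair of larger overlap (the earlier one on ties). -/
def better (p q : List β × List β) : List β × List β :=
  if (ovl p.1 p.2).length < (ovl q.1 q.2).length then q else p

/-- The first ordered pair of maximal overlap. -/
def bestPair (L : List (List β)) : List β × List β :=
  (pairs L).tail.foldl better ((pairs L).headD ([], []))

/-- One step of Greedy. -/
def gStep (L : List (List β)) : List (List β) :=
  if (pairs L).isEmpty then L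
  else merge (bestPair L).1 (bestPair L).2 :: ((L.erase (bestPair L).1).erase (bestPair L).2)

/-- Remove duplicates and strings that are proper substrings of others. -/
def reduce (L : List (List β)) : List (List β) :=
  L.dedup.filter fun a => !L.dedup.any fun b => !decide (a = b) && decide (a <:+: b)

/-- The Greedy algorithm. -/
def greedy (L : List (List β)) : List β :=
  (L.foldl (fun s _ => gStep s) (reduce L)).headD []

/-! ### Overlaps -/

lemma ovl_suffix (a b : List β) : ovl a b <:+ a := by
  induction a with
  | nil => simp [ovl]
  | cons x a ih =>
    rw [ovl]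
    split_ifs
    · exact List.suffix_refl _
    · exact ih.trans (List.suffix_cons _ _)

lemma ovl_prefix (a b : List β) : ovl a b <+: b := by
  induction a with
  | nil => simp [ovl]
  | cons x a ih =>
    rw [ovl]
    split_ifs with h
    · exact h
    · exact ih

lemma le_ovl_length {a b w : List β} (h1 : w <:+ a) (h2 : w <+: b) :
    w.length ≤ (ovl a b).length := by
  induction a with
  | nil =>
    have : w = [] := by simpa using h1
    simp [this]
  | cons x a ih =>
    rw [ovl]
    split_ifs with h
    · exact h1.length_le
    · rcases List.suffix_cons_iff.mp h1 with rfl | h3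
      · exact absurd h2 h
      · exact ih h3

/-- Any suffix of `a` which is a prefix of `b` and at least as long is the overlap. -/
lemma merge_length (a b : List β) :
    (merge a b).length + (ovl a b).length = a.length + b.length := by
  have := (ovl_prefix a b).length_le
  simp only [merge, List.length_append, List.length_drop]
  omega

lemma prefix_merge (a b : List β) : a <+: merge a b := List.prefix_append _ _

lemma suffix_merge (a b : List β) : b <:+ merge a b := by
  rw [merge]
  obtain ⟨u, hu⟩ := ovl_suffix a b
  obtain ⟨v, hv⟩ := ovl_prefix a b
  generalize ovl a b = w at *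
  subst hu hv
  refine ⟨u, ?_⟩
  simp

lemma infix_merge_left (a b : List β) : a <:+: merge a b := (prefix_merge a b).isInfix

lemma infix_merge_right (a b : List β) : b <:+: merge a b := (suffix_merge a b).isInfix

/-! ### Pairs -/

lemma mem_pairs {L : List (List β)} {p : List β × List β} :
    p ∈ pairs L ↔ p.1 ∈ L ∧ p.2 ∈ L ∧ p.1 ≠ p.2 := by
  rcases p with ⟨a, b⟩
  simp [pairs, List.mem_flatMap, and_assoc]

lemma better_eq (p q : List β × List β) : better p q = p ∨ better p q = q := by
  unfold better
  split_ifs
  · exact Or.inr rfl
  · exact Or.inl rfl

lemma le_better_left (p q : List β × List β) :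
    (ovl p.1 p.2).length ≤ (ovl (better p q).1 (better p q).2).length := by
  unfold better
  split_ifs with h
  · exact h.le
  · exact le_rfl

lemma le_better_right (p q : List β × List β) :
    (ovl q.1 q.2).length ≤ (ovl (better p q).1 (better p q).2).length := by
  unfold better
  split_ifs with h
  · exact le_rfl
  · exact Nat.le_of_not_lt h

lemma foldl_better_mem (r : List (List β × List β)) (s : List β × List β) :
    r.foldl better s = s ∨ r.foldl better s ∈ r := by
  induction r generalizing s with
  | nil => exact Or.inl rfl
  | cons x r ih =>
    simp only [List.foldl_cons]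
    rcases ih (better s x) with h | h
    · rcases better_eq s x with h2 | h2
      · exact Or.inl (h.trans h2)
      · right
        rw [h, h2]
        simp
    · right
      simp [h]

lemma foldl_better_le (r : List (List β × List β)) (s : List β × List β) :
    (ovl s.1 s.2).length ≤ (ovl (r.foldl better s).1 (r.foldl better s).2).length ∧
    ∀ q ∈ r, (ovl q.1 q.2).length ≤ (ovl (r.foldl better s).1 (r.foldl better s).2).length := by
  induction r generalizing s with
  | nil => simp
  | cons x r ih =>
    simp only [List.foldl_cons]
    obtain ⟨h1, h2⟩ := ih (better s x)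
    refine ⟨(le_better_left s x).trans h1, fun q hq => ?_⟩
    rcases List.mem_cons.mp hq with rfl | hq
    · exact (le_better_right s q).trans h1
    · exact h2 q hq

/-- The properties of the best pair, when there is a pair at all. -/
lemma bestPair_spec {L : List (List β)} (h : (pairs L).isEmpty = false) :
    bestPair L ∈ pairs L ∧ ∀ q ∈ pairs L,
      (ovl q.1 q.2).length ≤ (ovl (bestPair L).1 (bestPair L).2).length := by
  unfold bestPair
  cases hp : pairs L with
  | nil => simp [hp] at h
  | cons x r =>
    simp only [List.tail_cons, List.headD_cons]
    constructor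
    · rcases foldl_better_mem r x with h1 | h1
      · rw [h1]; simp
      · exact List.mem_cons_of_mem _ h1
    · intro q hq
      obtain ⟨h1, h2⟩ := foldl_better_le r x
      rcases List.mem_cons.mp hq with rfl | hq
      · exact h1
      · exact h2 q hq

/-- The specification of one step of Greedy. -/
theorem gStep_spec {L : List (List β)} (h : (pairs L).isEmpty = false) :
    ∃ a b, a ∈ L ∧ b ∈ L ∧ a ≠ b ∧
      (∀ c ∈ L, ∀ d ∈ L, c ≠ d → (ovl c d).length ≤ (ovl a b).length) ∧
      gStep L = merge a b :: (L.erase a).erase b := by
  obtain ⟨h1, h2⟩ := bestPair_spec h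
  obtain ⟨h3, h4, h5⟩ := mem_pairs.mp h1
  refine ⟨_, _, h3, h4, h5, fun c hc d hd hcd => h2 (c, d) (mem_pairs.mpr ⟨hc, hd, hcd⟩), ?_⟩
  simp [gStep, h]

lemma pairs_isEmpty_iff {L : List (List β)} :
    (pairs L).isEmpty = true ↔ ∀ a ∈ L, ∀ b ∈ L, a = b := by
  rw [List.isEmpty_iff, List.eq_nil_iff_forall_not_mem]
  constructor
  · intro h a ha b hb
    by_contra hab
    exact h (a, b) (mem_pairs.mpr ⟨ha, hb, hab⟩)
  · intro h p hp
    obtain ⟨h1, h2, h3⟩ := mem_pairs.mp hp
    exact h3 (h _ h1 _ h2)

/-- The length decreases while there is a pair. -/
lemma gStep_length {L : List (List β)} (h : (pairs L).isEmpty = false) :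
    (gStep L).length + 1 = L.length := by
  obtain ⟨a, b, ha, hb, hab, -, h4⟩ := gStep_spec h
  rw [h4]
  have h5 : b ∈ L.erase a := (List.mem_erase_of_ne hab.symm).mpr hb
  have h6 := List.length_erase_of_mem ha
  have h7 := List.length_erase_of_mem h5
  have h8 := List.length_pos_of_mem ha
  have h9 := List.length_pos_of_mem h5
  simp only [List.length_cons]
  omega

lemma foldl_gStep_of_isEmpty {γ : Type} (r : List γ) {L : List (List β)} (h : (pairs L).isEmpty = true) :
    r.foldl (fun s _ => gStep s) L = L := by
  induction r with
  | nil => rfl
  | cons x r ih =>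
    have : gStep L = L := by simp [gStep, h]
    simpa [this] using ih

/-- After enough steps no pair is left. -/
lemma foldl_gStep_pairs {γ : Type} (r : List γ) (L : List (List β)) (hn : L.length ≤ r.length) :
    (pairs (r.foldl (fun s _ => gStep s) L)).isEmpty = true := by
  induction r generalizing L with
  | nil =>
    have : L = [] := List.length_eq_zero_iff.mp (by simpa using hn)
    subst this
    rfl
  | cons x r ih =>
    cases hp : (pairs L).isEmpty with
    | true =>
      rw [foldl_gStep_of_isEmpty _ hp]
      exact hp
    | false =>
      simp only [List.foldl_cons]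
      apply ih
      have := gStep_length hp
      simp only [List.length_cons] at hn
      omega

/-- Containment is preserved by a step. -/
lemma gStep_contains {L : List (List β)} {s : List β} (h : ∃ t ∈ L, s <:+: t) :
    ∃ t ∈ gStep L, s <:+: t := by
  cases hp : (pairs L).isEmpty with
  | true =>
    have : gStep L = L := by simp [gStep, hp]
    rwa [this]
  | false =>
    obtain ⟨a, b, ha, hb, hab, -, h4⟩ := gStep_spec hp
    obtain ⟨t, ht, hst⟩ := h
    rw [h4]
    by_cases h1 : t = a
    · subst h1
      exact ⟨_, List.mem_cons_self, hst.trans (infix_merge_left _ _)⟩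
    by_cases h2 : t = b
    · subst h2
      exact ⟨_, List.mem_cons_self, hst.trans (infix_merge_right _ _)⟩
    · refine ⟨t, List.mem_cons_of_mem _ ?_, hst⟩
      exact (List.mem_erase_of_ne h2).mpr ((List.mem_erase_of_ne h1).mpr ht)

lemma foldl_gStep_contains {γ : Type} (r : List γ) {L : List (List β)} {s : List β}
    (h : ∃ t ∈ L, s <:+: t) : ∃ t ∈ r.foldl (fun s _ => gStep s) L, s <:+: t := by
  induction r generalizing L with
  | nil => exact h
  | cons x r ih => exact ih (gStep_contains h)

/-- `reduce` keeps the maximal strings. -/
lemma reduce_contains {L : List (List β)} {s : List β} (h : s ∈ L) : ∃ t ∈ reduce L, s <:+: t := by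
  classical
  have hne : (L.toFinset.filter (fun t => s <:+: t)).Nonempty :=
    ⟨s, by simp [h]⟩
  obtain ⟨t, ht, hmax⟩ := Finset.exists_max_image _ List.length hne
  simp only [Finset.mem_filter, List.mem_toFinset] at ht hmax
  refine ⟨t, ?_, ht.2⟩
  simp only [reduce, List.mem_filter, List.mem_dedup, ht.1, true_and, Bool.not_eq_true',
    List.any_eq_false, Bool.and_eq_true, Bool.not_eq_true', decide_eq_false_iff_not,
    decide_eq_true_eq, not_and]
  intro b hb htb hinf
  have h1 := hmax b ⟨hb, ht.2.trans hinf⟩
  exact htb (hinf.eq_of_length_le h1)

lemma length_reduce_le (L : List (List β)) : (reduce L).length ≤ L.length :=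
  (List.length_filter_le _ _).trans (List.dedup_sublist L).length_le

/-- Every string of the family is contained in the output of Greedy. -/
theorem infix_greedy {S : List (List β)} {s : List β} (h : s ∈ S) : s <:+: greedy S := by
  obtain ⟨t, ht, hst⟩ := foldl_gStep_contains S (reduce_contains h)
  have h1 := foldl_gStep_pairs S (reduce S) (length_reduce_le S)
  rw [pairs_isEmpty_iff] at h1
  unfold greedy
  cases hL : S.foldl (fun s _ => gStep s) (reduce S) with
  | nil =>
    rw [hL] at ht
    simp at ht
  | cons x l =>
    rw [hL] at ht h1
    simp only [List.headD_cons]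
    rwa [h1 x List.mem_cons_self t ht]

/-! ### Functoriality under injective maps of the alphabet -/

section map

variable {γ : Type} [DecidableEq γ] {φ : β → γ}

lemma ovl_map (hφ : Function.Injective φ) (a b : List β) :
    ovl (a.map φ) (b.map φ) = (ovl a b).map φ := by
  induction a with
  | nil => simp [ovl]
  | cons x a ih =>
    simp only [List.map_cons, ovl]
    have : (φ x :: a.map φ <+: b.map φ) ↔ (x :: a <+: b) := by
      have := List.prefix_map_iff_of_injective hφ (l₁ := x :: a) (l₂ := b)
      simpa using this
    by_cases h : x :: a <+: b
    · simp [h, this]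
    · simp [h, this, ih]

lemma merge_map (hφ : Function.Injective φ) (a b : List β) :
    merge (a.map φ) (b.map φ) = (merge a b).map φ := by
  simp [merge, ovl_map hφ, List.map_drop]

lemma map_map_injective (hφ : Function.Injective φ) :
    Function.Injective (List.map φ) := List.map_injective_iff.mpr hφ

/-- The map on pairs of strings. -/
def pm (φ : β → γ) (p : List β × List β) : List γ × List γ := (p.1.map φ, p.2.map φ)

lemma pairs_map (hφ : Function.Injective φ) (L : List (List β)) :
    pairs (L.map (List.map φ)) = (pairs L).map (pm φ) := by
  have hi := map_map_injective hφ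
  have h1 : ((L.map (List.map φ)).flatMap fun a => (L.map (List.map φ)).map fun b => (a, b)) =
      (L.flatMap fun a => L.map fun b => (a, b)).map (pm φ) := by
    simp [List.flatMap_map, List.map_flatMap, Function.comp_def, pm]
  unfold pairs
  rw [h1, List.filter_map]
  congr 1
  apply List.filter_congr
  intro p _
  simp [pm, hi.eq_iff]

lemma better_map (hφ : Function.Injective φ) (p q : List β × List β) :
    better (pm φ p) (pm φ q) = pm φ (better p q) := by
  unfold better
  simp only [pm, ovl_map hφ, List.length_map]
  split_ifs <;> rfl

lemma foldl_better_map (hφ : Function.Injective φ) (r : List (List β × List β))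
    (s : List β × List β) :
    (r.map (pm φ)).foldl better (pm φ s) = pm φ (r.foldl better s) := by
  induction r generalizing s with
  | nil => rfl
  | cons x r ih =>
    simp only [List.map_cons, List.foldl_cons, better_map hφ, ih]

lemma bestPair_map (hφ : Function.Injective φ) (L : List (List β)) :
    bestPair (L.map (List.map φ)) = pm φ (bestPair L) := by
  unfold bestPair
  rw [pairs_map hφ]
  cases pairs L with
  | nil => rfl
  | cons x r => exact foldl_better_map hφ r x

lemma gStep_map (hφ : Function.Injective φ) (L : List (List β)) :
    gStep (L.map (List.map φ)) = (gStep L).map (List.map φ) := by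
  have hi := map_map_injective hφ
  unfold gStep
  rw [pairs_map hφ, List.isEmpty_map, bestPair_map hφ]
  split_ifs with h
  · rfl
  · simp only [pm, merge_map hφ, List.map_cons, List.map_erase hi]

lemma infix_map_iff_of_injective (hφ : Function.Injective φ) {a b : List β} :
    a.map φ <:+: b.map φ ↔ a <:+: b := by
  constructor
  · intro h
    obtain ⟨l, h1, h2⟩ := List.infix_map_iff.mp h
    rwa [(List.map_injective_iff.mpr hφ) h2]
  · exact fun h => h.map φ

lemma reduce_map (hφ : Function.Injective φ) (L : List (List β)) :
    reduce (L.map (List.map φ)) = (reduce L).map (List.map φ) := by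
  have hi := map_map_injective hφ
  unfold reduce
  rw [List.dedup_map_of_injective hi, List.filter_map]
  congr 1
  apply List.filter_congr
  intro a _
  simp [List.any_map, Function.comp_def, hi.eq_iff, infix_map_iff_of_injective hφ]

lemma foldl_gStep_map (hφ : Function.Injective φ) {δ : Type} (r : List δ) (L : List (List β)) :
    r.foldl (fun s _ => gStep s) (L.map (List.map φ)) =
      (r.foldl (fun s _ => gStep s) L).map (List.map φ) := by
  induction r generalizing L with
  | nil => rfl
  | cons x r ih => simp only [List.foldl_cons, gStep_map hφ, ih]

/-- Functoriality of Greedy under injective maps of the alphabet. -/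
theorem greedy_map (hφ : Function.Injective φ) (S : List (List β)) :
    greedy (S.map (List.map φ)) = (greedy S).map φ := by
  unfold greedy
  rw [reduce_map hφ, List.foldl_map, foldl_gStep_map hφ]
  cases S.foldl (fun s _ => gStep s) (reduce S) <;> rfl

end map

end Crest.Agent.SS
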