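/-
Greedy is computed in polynomial time (in the sense of `PolyLib.PT`) over any alphabet with polynomial
time equality.
-/
import Crest.Agent.PolyLib.Lists
import Crest.Agent.SS.Greedy

set_option autoImplicit false

namespace Crest.Agent.SS

open Crest.Agent.PolyLib Polynomial Enc

variable {α β : Type} [Enc α] [Enc β] [DecidableEq β] [Inhabited β] [PTEq β]

/-- Paramorphic form of `ovl`. -/
def ovlStep (b : List β) (x : β) (s : List β × List β) : List β × List β :=
  (x :: s.1, if x :: s.1 <+: b then x :: s.1 else s.2)

omit [Enc β] [Inhabited β] [PTEq β] in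
lemma ovlStep_foldr (a b : List β) : a.foldr (ovlStep b) ([], []) = (a, ovl a b) := by
  induction a with
  | nil => rfl
  | cons x a ih => simp [ovlStep, ih, ovl]

lemma pt_ovl {f g : α → List β} (hf : PT f) (hg : PT g) : PT (fun a => ovl (f a) (g a)) := by
  have h : PT (fun a => (f a).foldr (ovlStep (g a)) ([], [])) := by
    refine PT.foldr_glob (init := fun _ => ([], [])) hf (PT.const _) ?_ (C 2 * X + C 1) ?_
    · unfold ovlStep
      refine PT.pair (PT.cons (PT.fst' (PT.snd' PT.id)) (PT.fst' (PT.snd' (PT.snd' PT.id)))) ?_
      refine PT.ite' ?_ (PT.cons (PT.fst' (PT.snd' PT.id)) (PT.fst' (PT.snd' (PT.snd' PT.id))))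
        (PT.snd' (PT.snd' (PT.snd' PT.id)))
      exact PT.isPrefix (PT.cons (PT.fst' (PT.snd' PT.id)) (PT.fst' (PT.snd' (PT.snd' PT.id))))
        (hg.comp PT.fst)
    · intro a r
      rw [ovlStep_foldr, size_enc_pair]
      have := size_enc_suffix (ovl_suffix r (g a))
      simp only [eval_add, eval_mul, eval_C, eval_X]
      omega
  refine (PT.snd' h).congr fun a => ?_
  rw [ovlStep_foldr]

lemma pt_merge {f g : α → List β} (hf : PT f) (hg : PT g) : PT (fun a => merge (f a) (g a)) :=
  PT.append hf (PT.dropLen (pt_ovl hf hg) hg)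

lemma pt_pairs {f : α → List (List β)} (hf : PT f) : PT (fun a => pairs (f a)) := by
  refine PT.filter (l := fun a => (f a).flatMap fun x => (f a).map fun y => (x, y))
    (p := fun _ q => !decide (q.1 = q.2)) (PT.product hf hf) ?_
  exact PT.not (PT.decEq (PT.fst' PT.snd) (PT.snd' PT.snd))

lemma pt_better {f g : α → List β × List β} (hf : PT f) (hg : PT g) :
    PT (fun a => better (f a) (g a)) := by
  unfold better
  exact PT.ite' (PT.lengthLt (pt_ovl (PT.fst' hf) (PT.snd' hf)) (pt_ovl (PT.fst' hg) (PT.snd' hg)))
    hg hf

lemma pt_bestPair {f : α → List (List β)} (hf : PT f) : PT (fun a => bestPair (f a)) := by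
  have hp := pt_pairs (α := α) (β := β) hf
  obtain ⟨_, pP, hP⟩ := _root_.id hp
  unfold bestPair
  refine PT.foldl_inv (init := fun a => (pairs (f a)).headD ([], [])) (PT.tail.comp hp)
    ((PT.headD _).comp hp) (step := fun _ s b => better s b) ?_ (pP + C 3)
    (fun a s => size (enc s) ≤ size (enc (pairs (f a))) + 3) ?_ ?_ ?_
  · exact pt_better (PT.fst' PT.snd) (PT.snd' PT.snd)
  · intro a
    cases hh : pairs (f a) with
    | nil =>
      simp only [List.headD_nil]
      have : size (enc (([], []) : List β × List β)) = 3 := by
        simp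
      omega
    | cons x r =>
      have := size_enc_cons x r
      simp only [List.headD_cons]
      omega
  · intro a s b hb hs
    rcases better_eq s b with h | h
    · rw [h]; exact hs
    · rw [h]
      have h1 := size_enc_mem hb
      have h2 := size_enc_tail (pairs (f a))
      omega
  · intro a s hs
    have : size (enc (pairs (f a))) ≤ pP.eval (size (enc a)) := (hP a).1
    simp only [eval_add, eval_C]
    omega

/-- Paramorphic form of `erase`. -/
def eraseStep [BEq β] [LawfulBEq β] (x y : β) (s : List β × List β) : List β × List β :=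
  (y :: s.1, if y = x then s.1 else y :: s.2)

omit [Enc β] [Inhabited β] [PTEq β] in
lemma eraseStep_foldr [BEq β] [LawfulBEq β] (r : List β) (x : β) :
    r.foldr (eraseStep x) ([], []) = (r, r.erase x) := by
  induction r with
  | nil => rfl
  | cons y r ih =>
    simp only [List.foldr_cons, ih, eraseStep, List.erase_cons]
    by_cases h : y = x <;> simp [h]

lemma pt_erase [BEq β] [LawfulBEq β] {f : α → List β} {g : α → β} (hf : PT f) (hg : PT g) :
    PT (fun a => (f a).erase (g a)) := by
  have h : PT (fun a => (f a).foldr (eraseStep (g a)) ([], [])) := by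
    refine PT.foldr_glob (init := fun _ => ([], [])) hf (PT.const _) ?_ (C 2 * X + C 1) ?_
    · unfold eraseStep
      refine PT.pair (PT.cons (PT.fst' PT.snd) (PT.fst' (PT.snd' PT.snd))) ?_
      exact PT.ite' (PT.decEq (PT.fst' PT.snd) (hg.comp PT.fst)) (PT.fst' (PT.snd' PT.snd))
        (PT.cons (PT.fst' PT.snd) (PT.snd' (PT.snd' PT.snd)))
    · intro a r
      rw [eraseStep_foldr, size_enc_pair]
      have := size_enc_sublist (List.erase_sublist (a := g a) (l := r))
      simp only [eval_add, eval_mul, eval_C, eval_X]
      omega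
  refine (PT.snd' h).congr fun a => ?_
  rw [eraseStep_foldr]

omit [DecidableEq β] [Inhabited β] [PTEq β] in
lemma size_enc_drop' (l : List β) (k : ℕ) : size (enc (l.drop k)) ≤ size (enc l) :=
  size_enc_drop l k

lemma pt_gStep {f : α → List (List β)} (hf : PT f) : PT (fun a => gStep (f a)) := by
  unfold gStep
  have hb := pt_bestPair (α := α) (β := β) hf
  exact PT.ite (PT.isEmpty.comp (pt_pairs hf)) hf
    (PT.cons (pt_merge (PT.fst' hb) (PT.snd' hb))
      (pt_erase (pt_erase hf (PT.fst' hb)) (PT.snd' hb)))

omit [DecidableEq β] [Inhabited β] [PTEq β] in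
lemma size_enc_erase [BEq β] [LawfulBEq β] {L : List β} {x : β} (h : x ∈ L) :
    size (enc (L.erase x)) + size (enc x) + 1 = size (enc L) := by
  induction L with
  | nil => simp at h
  | cons y L ih =>
    rw [List.erase_cons]
    by_cases hy : y = x
    · subst hy
      simp
      omega
    · have hx : x ∈ L := by
        rcases List.mem_cons.mp h with h | h
        · exact absurd h.symm hy
        · exact h
      have := ih hx
      simp only [beq_iff_eq, hy, if_false, size_enc_cons]
      omega

omit [Inhabited β] [PTEq β] in
lemma size_enc_merge (a b : List β) : size (enc (merge a b)) + 1 ≤ size (enc a) + size (enc b) := by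
  unfold merge
  have h1 := size_enc_append a (b.drop (ovl a b).length)
  have h2 := size_enc_drop b (ovl a b).length
  omega

omit [Inhabited β] [PTEq β] in
lemma size_gStep_le (L : List (List β)) : size (enc (gStep L)) ≤ size (enc L) := by
  cases hp : (pairs L).isEmpty with
  | true =>
    have : gStep L = L := by simp [gStep, hp]
    rw [this]
  | false =>
    obtain ⟨a, b, ha, hb, hab, -, h4⟩ := gStep_spec hp
    rw [h4, size_enc_cons]
    have h5 : b ∈ L.erase a := (List.mem_erase_of_ne hab.symm).mpr hb
    have h6 := size_enc_erase ha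
    have h7 := size_enc_erase h5
    have h8 := size_enc_merge a b
    omega

/-- Membership test. -/
lemma pt_mem {f : α → β} {g : α → List β} (hf : PT f) (hg : PT g) :
    PT (fun a => decide (f a ∈ g a)) := by
  have h : PT (fun a => (g a).any (fun y => decide (y = f a))) :=
    PT.any hg (PT.decEq PT.snd (hf.comp PT.fst))
  refine h.congr fun a => ?_
  rw [Bool.eq_iff_iff]
  simp

omit [Enc β] [Inhabited β] [PTEq β] in
lemma dedup_eq_foldr (r : List β) :
    r.foldr (fun x s => if x ∈ s then s else x :: s) [] = r.dedup := by
  induction r with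
  | nil => rfl
  | cons x r ih =>
    simp only [List.foldr_cons, ih]
    by_cases h : x ∈ r
    · simp [h, List.dedup_cons_of_mem]
    · simp [h, List.dedup_cons_of_notMem]

lemma pt_dedup {f : α → List β} (hf : PT f) : PT (fun a => (f a).dedup) := by
  have h : PT (fun a => (f a).foldr (fun x s => if x ∈ s then s else x :: s) []) := by
    refine PT.foldr_glob (init := fun _ => []) (step := fun _ x s => if x ∈ s then s else x :: s)
      hf (PT.const _) ?_ X ?_
    · exact PT.ite' (pt_mem (PT.fst' PT.snd) (PT.snd' PT.snd)) (PT.snd' PT.snd)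
        (PT.cons (PT.fst' PT.snd) (PT.snd' PT.snd))
    · intro a r
      rw [dedup_eq_foldr]
      have := size_enc_sublist (List.dedup_sublist r)
      simp only [eval_X]
      omega
  exact h.congr fun a => dedup_eq_foldr _

/-- Paramorphic form of the substring test. -/
def infStep (a : List β) (x : β) (s : List β × Bool) : List β × Bool :=
  (x :: s.1, s.2 || decide (a <+: x :: s.1))

omit [Enc β] [Inhabited β] [PTEq β] in
lemma infStep_foldr (r a : List β) :
    r.foldr (infStep a) ([], decide (a <+: [])) = (r, decide (a <:+: r)) := by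
  induction r with
  | nil => simp [List.prefix_nil, List.infix_nil]
  | cons y r ih =>
    simp only [List.foldr_cons, ih, infStep, List.infix_cons_iff]
    by_cases h1 : a <:+: r <;> by_cases h2 : a <+: y :: r <;> simp [h1, h2]

lemma pt_infix {f g : α → List β} (hf : PT f) (hg : PT g) : PT (fun a => decide (f a <:+: g a)) := by
  have h : PT (fun a => (g a).foldr (infStep (f a)) ([], decide (f a <+: []))) := by
    refine PT.foldr_glob (init := fun a => ([], decide (f a <+: []))) hg
      (PT.pair (PT.const _) (PT.isPrefix hf (PT.const _))) ?_ (X + C 5) ?_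
    · unfold infStep
      refine PT.pair (PT.cons (PT.fst' PT.snd) (PT.fst' (PT.snd' PT.snd))) ?_
      exact PT.or (PT.snd' (PT.snd' PT.snd)) (PT.isPrefix (hf.comp PT.fst)
        (PT.cons (PT.fst' PT.snd) (PT.fst' (PT.snd' PT.snd))))
    · intro a r
      rw [infStep_foldr, size_enc_pair]
      have h2 : ∀ c : Bool, size (enc c) ≤ 3 := by intro c; cases c <;> decide
      have := h2 (decide (f a <:+: r))
      simp only [eval_add, eval_C, eval_X]
      omega
  refine (PT.snd' h).congr fun a => ?_
  rw [infStep_foldr]

lemma pt_reduce {f : α → List (List β)} (hf : PT f) : PT (fun a => reduce (f a)) := by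
  unfold reduce
  refine PT.filter (l := fun a => (f a).dedup)
    (p := fun a x => !(f a).dedup.any fun b => !decide (x = b) && decide (x <:+: b))
    (pt_dedup hf) ?_
  refine PT.not (PT.any (l := fun t : α × List β => (f t.1).dedup)
    (p := fun t b => !decide (t.2 = b) && decide (t.2 <:+: b)) (pt_dedup (hf.comp PT.fst)) ?_)
  exact PT.and (PT.not (PT.decEq (PT.snd' PT.fst) PT.snd)) (pt_infix (PT.snd' PT.fst) PT.snd)

/-- Greedy runs in polynomial time. -/
theorem pt_greedy : PT (fun L : List (List β) => greedy L) := by
  unfold greedy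
  refine (PT.headD []).comp ?_
  refine PT.foldl_add (step := fun _ s _ => gStep s) PT.id (pt_reduce PT.id) ?_ 0 ?_
  · exact pt_gStep (PT.fst' PT.snd)
  · intro a s b _
    have := size_gStep_le s
    simp only [eval_zero]
    omega

end Crest.Agent.SS
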