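/-
S0432: polynomial time tools for cycle cover based superstring algorithms, over any alphabet with
polynomial time equality: proper overlaps, chains glued with proper overlaps, minimum selection,
insertion sort, the greedy cycle cover `mgreedy` and the cycles of a cover.
-/
import Crest.Agent.SS.GreedyPT

set_option autoImplicit false

namespace Crest.Agent.SS.Alg

open Crest.Agent.SS Crest.Agent.PolyLib Polynomial Enc

section generic

variable {α γ κ : Type} [Enc α] [Enc γ] [Enc κ] [Inhabited γ] [Inhabited κ]

omit [Inhabited γ] in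
/-- The size of the encoding only depends on the multiset of entries. -/
lemma size_enc_perm {l m : List γ} (h : l.Perm m) : size (enc l) = size (enc m) := by
  induction h with
  | nil => rfl
  | cons x _ ih => simp only [size_enc_cons, ih]
  | swap x y l => simp only [size_enc_cons]; omega
  | trans _ _ ih1 ih2 => exact ih1.trans ih2

/-- The first element of minimal key, starting from a default element. -/
def minBy (key : γ → List κ) (d : γ) (L : List γ) : γ :=
  L.foldl (fun s b => if (key b).length < (key s).length then b else s) d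

omit [Enc γ] [Enc κ] [Inhabited γ] [Inhabited κ] in
lemma minBy_mem (key : γ → List κ) (d : γ) (L : List γ) : minBy key d L = d ∨ minBy key d L ∈ L := by
  induction L generalizing d with
  | nil => exact Or.inl rfl
  | cons x r ih =>
    simp only [minBy, List.foldl_cons] at ih ⊢
    by_cases h : (key x).length < (key d).length
    · simp only [h, if_true]
      rcases ih x with h1 | h1
      · right; rw [h1]; simp
      · right; simp [h1]
    · simp only [h, if_false]
      rcases ih d with h1 | h1
      · left; exact h1
      · right; simp [h1]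

omit [Enc γ] [Enc κ] [Inhabited γ] [Inhabited κ] in
lemma minBy_le_default (key : γ → List κ) (d : γ) (L : List γ) :
    (key (minBy key d L)).length ≤ (key d).length := by
  induction L generalizing d with
  | nil => exact le_rfl
  | cons x r ih =>
    simp only [minBy, List.foldl_cons] at ih ⊢
    by_cases h : (key x).length < (key d).length
    · simp only [h, if_true]
      exact (ih x).trans h.le
    · simp only [h, if_false]
      exact ih d

omit [Enc γ] [Enc κ] [Inhabited γ] [Inhabited κ] in
lemma minBy_le (key : γ → List κ) (d : γ) (L : List γ) {x : γ} (hx : x ∈ L) :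
    (key (minBy key d L)).length ≤ (key x).length := by
  induction L generalizing d with
  | nil => simp at hx
  | cons y r ih =>
    simp only [minBy, List.foldl_cons] at ih ⊢
    rcases List.mem_cons.mp hx with rfl | hx'
    · by_cases h : (key x).length < (key d).length
      · simp only [h, if_true]
        exact minBy_le_default key x r
      · simp only [h, if_false]
        exact (minBy_le_default key d r).trans (Nat.le_of_not_lt h)
    · by_cases h : (key y).length < (key d).length
      · simp only [h, if_true]
        exact ih y hx'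
      · simp only [h, if_false]
        exact ih d hx'

/-- `minBy` is polynomial time. The key may depend on the environment. -/
theorem pt_minBy {key : α → γ → List κ} {d : α → γ} {l : α → List γ}
    (hk : PT (fun t : α × γ => key t.1 t.2)) (hd : PT d) (hl : PT l) :
    PT (fun a => minBy (key a) (d a) (l a)) := by
  obtain ⟨_, pd, hd'⟩ := _root_.id hd
  obtain ⟨_, pl, hl'⟩ := _root_.id hl
  unfold minBy
  refine PT.foldl_inv (step := fun a s b => if (key a b).length < (key a s).length then b else s)
    hl hd ?_ (pd + pl) (fun a s => s = d a ∨ s ∈ l a) (fun _ => Or.inl rfl) ?_ ?_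
  · refine PT.ite' (PT.lengthLt ?_ ?_) (PT.snd' PT.snd) (PT.fst' PT.snd)
    · exact hk.comp (PT.pair PT.fst (PT.snd' PT.snd))
    · exact hk.comp (PT.pair PT.fst (PT.fst' PT.snd))
  · intro a s b hb hs
    split_ifs
    · exact Or.inr hb
    · exact hs
  · intro a s hs
    have h1 : size (enc (d a)) ≤ pd.eval (size (enc a)) := (hd' a).1
    have h2 : size (enc (l a)) ≤ pl.eval (size (enc a)) := (hl' a).1
    simp only [eval_add]
    rcases hs with rfl | hs
    · omega
    · have := size_enc_mem hs
      omega

/-- Paramorphic form of `orderedInsert`. -/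
def insStep (r : γ → γ → Bool) (x b : γ) (s : List γ × List γ) : List γ × List γ :=
  (b :: s.1, if r x b then x :: b :: s.1 else b :: s.2)

omit [Enc γ] [Inhabited γ] in
lemma insStep_foldr (r : γ → γ → Bool) (x : γ) (l : List γ) :
    l.foldr (insStep r x) ([], [x]) = (l, l.orderedInsert (fun u v => r u v = true) x) := by
  induction l with
  | nil => rfl
  | cons b l ih =>
    simp only [List.foldr_cons, ih, insStep, List.orderedInsert_cons]

theorem pt_orderedInsert {r : α → γ → γ → Bool} {x : α → γ} {l : α → List γ}
    (hr : PT (fun t : α × γ × γ => r t.1 t.2.1 t.2.2)) (hx : PT x) (hl : PT l) :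
    PT (fun a => (l a).orderedInsert (fun u v => r a u v = true) (x a)) := by
  obtain ⟨_, px, hx'⟩ := _root_.id hx
  have h : PT (fun a => (l a).foldr (insStep (r a) (x a)) ([], [x a])) := by
    refine PT.foldr_glob (step := fun a => insStep (r a) (x a)) (init := fun a => ([], [x a])) hl
      (PT.pair (PT.const _) (PT.cons hx (PT.const _))) ?_ (C 2 * X + C 2 * px + C 7) ?_
    · unfold insStep
      refine PT.pair (PT.cons (PT.fst' PT.snd) (PT.fst' (PT.snd' PT.snd))) ?_
      refine PT.ite ?_ (PT.cons (hx.comp PT.fst) (PT.cons (PT.fst' PT.snd) (PT.fst' (PT.snd' PT.snd))))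
        (PT.cons (PT.fst' PT.snd) (PT.snd' (PT.snd' PT.snd)))
      exact hr.comp (PT.pair PT.fst (PT.pair (hx.comp PT.fst) (PT.fst' PT.snd)))
    · intro a m
      rw [insStep_foldr, size_enc_pair]
      have h1 : size (enc (x a)) ≤ px.eval (size (enc a)) := (hx' a).1
      have h2 := size_enc_perm (List.perm_orderedInsert (fun u v => r a u v = true) (x a) m)
      rw [size_enc_cons] at h2
      have h3 := size_pos (enc a)
      simp only [eval_add, eval_mul, eval_C, eval_X]
      have h5 := peval_mono px (show size (enc a) ≤ size (enc a) + size (enc m) by omega)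
      omega
  refine (PT.snd' h).congr fun a => ?_
  rw [insStep_foldr]

theorem pt_insertionSort {r : α → γ → γ → Bool} {l : α → List γ}
    (hr : PT (fun t : α × γ × γ => r t.1 t.2.1 t.2.2)) (hl : PT l) :
    PT (fun a => (l a).insertionSort (fun u v => r a u v = true)) := by
  have h : PT (fun a => (l a).foldr
      (fun x s => s.orderedInsert (fun u v => r a u v = true) x) []) := by
    refine PT.foldr_glob (step := fun a x s => s.orderedInsert (fun u v => r a u v = true) x)
      (init := fun _ => []) hl (PT.const _) ?_ X ?_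
    · exact pt_orderedInsert (r := fun t => r t.1) (hr.comp (PT.pair (PT.fst' PT.fst) PT.snd))
        (PT.fst' PT.snd) (PT.snd' PT.snd)
    · intro a m
      have e : m.foldr (fun x s => s.orderedInsert (fun u v => r a u v = true) x) [] =
          m.insertionSort (fun u v => r a u v = true) := rfl
      rw [e, size_enc_perm (List.perm_insertionSort _ m)]
      simp only [eval_X]
      omega
  exact h

end generic

section overlaps

variable {α β : Type} [Enc α] [Enc β] [DecidableEq β] [Inhabited β] [PTEq β]

/-- The longest proper suffix of `a` which is a prefix of `b` (self-pairs allowed). -/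
def ovP (a b : List β) : List β := ovl a.tail b

lemma pt_ovP {f g : α → List β} (hf : PT f) (hg : PT g) : PT (fun a => ovP (f a) (g a)) :=
  pt_ovl (PT.tail.comp hf) hg

/-- The value of an arc. -/
def ovLen (p : List β × List β) : ℕ := (ovP p.1 p.2).length

/-- Comparison of arcs. -/
def geOv (p q : List β × List β) : Bool := decide (ovLen q ≤ ovLen p)

/-- All ordered pairs, self-pairs included. -/
def allPairs (L : List (List β)) : List (List β × List β) :=
  L.flatMap fun a => L.map fun b => (a, b)

/-- All ordered pairs, by nonincreasing overlap. -/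
def sortedPairs (L : List (List β)) : List (List β × List β) :=
  (allPairs L).insertionSort (fun p q => geOv p q = true)

/-- One step of the greedy cycle cover. -/
def mgStep (E : List (List β × List β)) (p : List β × List β) : List (List β × List β) :=
  if E.any (fun e => decide (e.1 = p.1) || decide (e.2 = p.2)) then E else p :: E

/-- The greedy cycle cover, as a list of arcs. -/
def mgreedy (L : List (List β)) : List (List β × List β) :=
  (sortedPairs L).foldl mgStep []

lemma pt_geOv {f g : α → List β × List β} (hf : PT f) (hg : PT g) :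
    PT (fun a => geOv (f a) (g a)) := by
  unfold geOv ovLen
  exact PT.lengthLe (pt_ovP (PT.fst' hg) (PT.snd' hg)) (pt_ovP (PT.fst' hf) (PT.snd' hf))

lemma pt_allPairs {f : α → List (List β)} (hf : PT f) : PT (fun a => allPairs (f a)) :=
  PT.product hf hf

lemma pt_sortedPairs {f : α → List (List β)} (hf : PT f) : PT (fun a => sortedPairs (f a)) := by
  unfold sortedPairs
  exact pt_insertionSort (r := fun _ p q => geOv p q)
    (pt_geOv (PT.fst' PT.snd) (PT.snd' PT.snd)) (pt_allPairs hf)

lemma pt_mgStep {f : α → List (List β × List β)} {g : α → List β × List β} (hf : PT f) (hg : PT g) :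
    PT (fun a => mgStep (f a) (g a)) := by
  unfold mgStep
  refine PT.ite (PT.any hf ?_) hf (PT.cons hg hf)
  exact PT.or (PT.decEq (PT.fst' PT.snd) (PT.fst' (hg.comp PT.fst)))
    (PT.decEq (PT.snd' PT.snd) (PT.snd' (hg.comp PT.fst)))

theorem pt_mgreedy {f : α → List (List β)} (hf : PT f) : PT (fun a => mgreedy (f a)) := by
  unfold mgreedy
  have hs := pt_sortedPairs (α := α) (β := β) hf
  obtain ⟨_, ps, hs'⟩ := _root_.id hs
  refine PT.foldl_add (step := fun _ E p => mgStep E p) hs (PT.const _) ?_ (ps + C 1) ?_
  · exact pt_mgStep (PT.fst' PT.snd) (PT.snd' PT.snd)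
  · intro a s b hb
    have h1 : size (enc (sortedPairs (f a))) ≤ ps.eval (size (enc a)) := (hs' a).1
    have h2 := size_enc_mem hb
    simp only [eval_add, eval_C]
    unfold mgStep
    split_ifs
    · omega
    · rw [size_enc_cons]
      omega

end overlaps

section mgspec

variable {β : Type} [DecidableEq β]

lemma mgStep_foldl_sub (S : List (List β × List β)) (E : List (List β × List β)) {e : List β × List β}
    (he : e ∈ E) : e ∈ S.foldl mgStep E := by
  induction S generalizing E with
  | nil => exact he
  | cons q S ih =>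
    simp only [List.foldl_cons]
    apply ih
    unfold mgStep
    split_ifs
    · exact he
    · exact List.mem_cons_of_mem _ he

lemma mgStep_foldl_mem (S : List (List β × List β)) (E : List (List β × List β)) {e : List β × List β}
    (he : e ∈ S.foldl mgStep E) : e ∈ E ∨ e ∈ S := by
  induction S generalizing E with
  | nil => exact Or.inl he
  | cons q S ih =>
    simp only [List.foldl_cons] at he
    rcases ih _ he with h | h
    · unfold mgStep at h
      split_ifs at h
      · exact Or.inl h
      · rcases List.mem_cons.mp h with rfl | h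
        · right; simp
        · exact Or.inl h
    · right; exact List.mem_cons_of_mem _ h

lemma mgStep_foldl_unique (S : List (List β × List β)) (E : List (List β × List β))
    (h1 : E.Pairwise fun e f => e.1 ≠ f.1 ∧ e.2 ≠ f.2) :
    (S.foldl mgStep E).Pairwise fun e f => e.1 ≠ f.1 ∧ e.2 ≠ f.2 := by
  induction S generalizing E with
  | nil => exact h1
  | cons q S ih =>
    simp only [List.foldl_cons]
    apply ih
    unfold mgStep
    split_ifs with h
    · exact h1
    · refine List.pairwise_cons.mpr ⟨?_, h1⟩
      intro f hf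
      have h2 : ∀ e ∈ E, ¬ (e.1 = q.1 ∨ e.2 = q.2) := by
        intro e he h3
        apply h
        rw [List.any_eq_true]
        refine ⟨e, he, ?_⟩
        simpa using h3
      have := h2 f hf
      constructor
      · intro h4; exact this (Or.inl h4.symm)
      · intro h4; exact this (Or.inr h4.symm)

lemma mgStep_foldl_blocked (S : List (List β × List β)) (E : List (List β × List β))
    (hS : S.Pairwise fun p q => ovLen q ≤ ovLen p)
    (hE : ∀ e ∈ E, ∀ p ∈ S, ovLen p ≤ ovLen e) :
    ∀ p ∈ S, ∃ e ∈ S.foldl mgStep E, (e.1 = p.1 ∨ e.2 = p.2) ∧ ovLen p ≤ ovLen e := by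
  induction S generalizing E with
  | nil => simp
  | cons q S ih =>
    obtain ⟨h1, h2⟩ := List.pairwise_cons.mp hS
    intro p hp
    simp only [List.foldl_cons]
    rcases List.mem_cons.mp hp with rfl | hp'
    · unfold mgStep
      split_ifs with h
      · rw [List.any_eq_true] at h
        obtain ⟨e, he, h3⟩ := h
        refine ⟨e, mgStep_foldl_sub S E he, ?_, hE e he p hp⟩
        simpa using h3
      · exact ⟨p, mgStep_foldl_sub S _ (List.mem_cons_self), Or.inl rfl, le_rfl⟩
    · refine ih (mgStep E q) h2 ?_ p hp'
      intro e he p' hp''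
      unfold mgStep at he
      split_ifs at he
      · exact hE e he p' (List.mem_cons_of_mem _ hp'')
      · rcases List.mem_cons.mp he with rfl | he
        · exact h1 p' hp''
        · exact hE e he p' (List.mem_cons_of_mem _ hp'')

lemma mem_sortedPairs {L : List (List β)} {p : List β × List β} :
    p ∈ sortedPairs L ↔ p.1 ∈ L ∧ p.2 ∈ L := by
  unfold sortedPairs
  rw [(List.perm_insertionSort _ _).mem_iff]
  rcases p with ⟨a, b⟩
  simp [allPairs, List.mem_flatMap]

lemma sortedPairs_pairwise (L : List (List β)) :
    (sortedPairs L).Pairwise fun p q => ovLen q ≤ ovLen p := by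
  unfold sortedPairs
  have : IsTotal (List β × List β) (fun p q => geOv p q = true) :=
    ⟨fun a b => by
      simp only [geOv, decide_eq_true_eq]
      exact Nat.le_total _ _⟩
  have : IsTrans (List β × List β) (fun p q => geOv p q = true) :=
    ⟨fun a b c h1 h2 => by
      simp only [geOv, decide_eq_true_eq] at h1 h2 ⊢
      omega⟩
  refine (List.pairwise_insertionSort _ _).imp ?_
  intro a b h
  simpa [geOv] using h

/-- All arcs of the cover join strings of `L`. -/
theorem mgreedy_mem {L : List (List β)} {e : List β × List β} (he : e ∈ mgreedy L) :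
    e.1 ∈ L ∧ e.2 ∈ L := by
  rcases mgStep_foldl_mem _ _ he with h | h
  · simp at h
  · exact mem_sortedPairs.mp h

/-- Tails are different, heads are different. -/
theorem mgreedy_pairwise (L : List (List β)) :
    (mgreedy L).Pairwise fun e f => e.1 ≠ f.1 ∧ e.2 ≠ f.2 :=
  mgStep_foldl_unique _ _ List.Pairwise.nil

/-- Stability: an arc from `x` to `y` is dominated by the arc out of `x` or the arc into `y`. -/
theorem mgreedy_stable {L : List (List β)} {x y : List β} (hx : x ∈ L) (hy : y ∈ L) :
    ∃ e ∈ mgreedy L, (e.1 = x ∨ e.2 = y) ∧ ovLen (x, y) ≤ ovLen e :=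
  mgStep_foldl_blocked _ [] (sortedPairs_pairwise L) (by simp) (x, y)
    (mem_sortedPairs.mpr ⟨hx, hy⟩)

/-- Each string is a tail and a head. -/
theorem mgreedy_perfect (L : List (List β)) :
    (∀ x ∈ L, ∃ e ∈ mgreedy L, e.1 = x) ∧ (∀ y ∈ L, ∃ e ∈ mgreedy L, e.2 = y) := by
  classical
  set M := mgreedy L with hM
  have hp := mgreedy_pairwise L
  have h1 : (M.map Prod.fst).Nodup := by
    rw [List.Nodup, List.pairwise_map]
    exact hp.imp fun h => h.1
  have h2 : (M.map Prod.snd).Nodup := by
    rw [List.Nodup, List.pairwise_map]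
    exact hp.imp fun h => h.2
  have hA : (M.map Prod.fst).toFinset.card = M.length := by
    rw [List.toFinset_card_of_nodup h1, List.length_map]
  have hB : (M.map Prod.snd).toFinset.card = M.length := by
    rw [List.toFinset_card_of_nodup h2, List.length_map]
  have hsubA : (M.map Prod.fst).toFinset ⊆ L.toFinset := by
    intro a ha
    simp only [List.mem_toFinset, List.mem_map] at ha ⊢
    obtain ⟨e, he, rfl⟩ := ha
    exact (mgreedy_mem he).1
  have hsubB : (M.map Prod.snd).toFinset ⊆ L.toFinset := by
    intro a ha
    simp only [List.mem_toFinset, List.mem_map] at ha ⊢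
    obtain ⟨e, he, rfl⟩ := ha
    exact (mgreedy_mem he).2
  have hno : ∀ x ∈ L, ∀ y ∈ L, (∃ e ∈ M, e.1 = x) ∨ (∃ e ∈ M, e.2 = y) := by
    intro x hx y hy
    obtain ⟨e, he, h3, -⟩ := mgreedy_stable hx hy
    rcases h3 with h3 | h3
    · exact Or.inl ⟨e, he, h3⟩
    · exact Or.inr ⟨e, he, h3⟩
  constructor
  · intro x hx
    by_contra hc
    have hc' : ∀ y ∈ L, ∃ e ∈ M, e.2 = y := by
      intro y hy
      rcases hno x hx y hy with h | h
      · exact absurd h hc
      · exact h
    have h3 : L.toFinset ⊆ (M.map Prod.snd).toFinset := by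
      intro y hy
      obtain ⟨e, he, rfl⟩ := hc' y (List.mem_toFinset.mp hy)
      simp only [List.mem_toFinset, List.mem_map]
      exact ⟨e, he, rfl⟩
    have h4 : x ∉ (M.map Prod.fst).toFinset := by
      simp only [List.mem_toFinset, List.mem_map, not_exists, not_and]
      intro e he h5
      exact hc ⟨e, he, h5⟩
    have h5 : (M.map Prod.fst).toFinset ⊂ L.toFinset :=
      ⟨hsubA, fun h => h4 (h (List.mem_toFinset.mpr hx))⟩
    have h6 := Finset.card_lt_card h5
    have h7 := Finset.card_le_card h3
    omega
  · intro y hy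
    by_contra hc
    have hc' : ∀ x ∈ L, ∃ e ∈ M, e.1 = x := by
      intro x hx
      rcases hno x hx y hy with h | h
      · exact h
      · exact absurd h hc
    have h3 : L.toFinset ⊆ (M.map Prod.fst).toFinset := by
      intro x hx
      obtain ⟨e, he, rfl⟩ := hc' x (List.mem_toFinset.mp hx)
      simp only [List.mem_toFinset, List.mem_map]
      exact ⟨e, he, rfl⟩
    have h4 : y ∉ (M.map Prod.snd).toFinset := by
      simp only [List.mem_toFinset, List.mem_map, not_exists, not_and]
      intro e he h5
      exact hc ⟨e, he, h5⟩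
    have h5 : (M.map Prod.snd).toFinset ⊂ L.toFinset :=
      ⟨hsubB, fun h => h4 (h (List.mem_toFinset.mpr hy))⟩
    have h6 := Finset.card_lt_card h5
    have h7 := Finset.card_le_card h3
    omega

end mgspec

section machine

variable {α β : Type} [Enc α] [Enc β] [DecidableEq β] [Inhabited β] [PTEq β]

/-- `ovP` agrees with the overlap when `a` is not a prefix of `b`. -/
lemma ovP_eq_ovl {a b : List β} (h : ¬ a <+: b) : ovP a b = ovl a b := by
  cases a with
  | nil => simp at h
  | cons x a =>
    simp only [ovP, List.tail_cons, ovl]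
    rw [if_neg h]

/-- Merge along a list. -/
def mergeL (L : List (List β)) : List β := match L with
  | [] => []
  | x :: l => l.foldl merge x

theorem pt_mergeFold {f : α → List (List β)} {g : α → List β} (hf : PT f) (hg : PT g) :
    PT (fun a => (f a).foldl merge (g a)) := by
  obtain ⟨_, pf, hf'⟩ := _root_.id hf
  refine PT.foldl_add (step := fun _ s b => merge s b) hf hg (pt_merge (PT.fst' PT.snd)
    (PT.snd' PT.snd)) pf ?_
  intro a s b hb
  have h1 : size (enc (f a)) ≤ pf.eval (size (enc a)) := (hf' a).1
  have h2 := size_enc_mem hb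
  have h3 := size_enc_merge s b
  omega

theorem pt_mergeL {f : α → List (List β)} (hf : PT f) : PT (fun a => mergeL (f a)) := by
  have h : PT (fun a => (f a).tail.foldl merge ((f a).headD [])) :=
    pt_mergeFold (PT.tail.comp hf) ((PT.headD _).comp hf)
  refine h.congr fun a => ?_
  cases f a <;> rfl

/-- The head of the first arc with tail `x`. -/
def nxt (M : List (List β × List β)) (x : List β) : List β :=
  ((M.filter fun e => decide (e.1 = x)).headD ([], [])).2

/-- The tail of the first arc with head `y`. -/
def prv (M : List (List β × List β)) (y : List β) : List β :=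
  ((M.filter fun e => decide (e.2 = y)).headD ([], [])).1

omit [Enc β] [Inhabited β] [PTEq β] in
lemma nxt_eq {M : List (List β × List β)} (hM : M.Pairwise fun e f => e.1 ≠ f.1 ∧ e.2 ≠ f.2)
    {e : List β × List β} (he : e ∈ M) : nxt M e.1 = e.2 := by
  induction M with
  | nil => simp at he
  | cons f M ih =>
    obtain ⟨h1, h2⟩ := List.pairwise_cons.mp hM
    rcases List.mem_cons.mp he with rfl | he'
    · simp [nxt]
    · have hne : f.1 ≠ e.1 := (h1 e he').1
      have := ih h2 he'
      simpa [nxt, List.filter_cons, hne] using this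

omit [Enc β] [Inhabited β] [PTEq β] in
lemma prv_eq {M : List (List β × List β)} (hM : M.Pairwise fun e f => e.1 ≠ f.1 ∧ e.2 ≠ f.2)
    {e : List β × List β} (he : e ∈ M) : prv M e.2 = e.1 := by
  induction M with
  | nil => simp at he
  | cons f M ih =>
    obtain ⟨h1, h2⟩ := List.pairwise_cons.mp hM
    rcases List.mem_cons.mp he with rfl | he'
    · simp [prv]
    · have hne : f.2 ≠ e.2 := (h1 e he').2
      have := ih h2 he'
      simpa [prv, List.filter_cons, hne] using this

lemma pt_nxt {f : α → List (List β × List β)} {g : α → List β} (hf : PT f) (hg : PT g) :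
    PT (fun a => nxt (f a) (g a)) := by
  unfold nxt
  refine PT.snd' ((PT.headD _).comp (PT.filter hf ?_))
  exact PT.decEq (PT.fst' PT.snd) (hg.comp PT.fst)

lemma pt_prv {f : α → List (List β × List β)} {g : α → List β} (hf : PT f) (hg : PT g) :
    PT (fun a => prv (f a) (g a)) := by
  unfold prv
  refine PT.fst' ((PT.headD _).comp (PT.filter hf ?_))
  exact PT.decEq (PT.snd' PT.snd) (hg.comp PT.fst)

end machine

section orbits

variable {γ : Type} [DecidableEq γ]

/-- One step of the orbit computation: state (current point, points seen, in order). -/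
def orbStep (nx : γ → γ) (st : γ × List γ) : γ × List γ :=
  (nx st.1, if st.1 ∈ st.2 then st.2 else st.2 ++ [st.1])

/-- The points seen from `x` during `|clock|` steps. -/
def orbit {δ : Type} (nx : γ → γ) (clock : List δ) (x : γ) : List γ :=
  (clock.foldl (fun st _ => orbStep nx st) (x, [])).2

omit [DecidableEq γ] in
lemma iterate_succ_apply'' (nx : γ → γ) (k : ℕ) (x : γ) : nx^[k + 1] x = nx (nx^[k] x) :=
  Function.iterate_succ_apply' nx k x

lemma orb_fold_fst {δ : Type} (nx : γ → γ) (clock : List δ) (st : γ × List γ) :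
    (clock.foldl (fun st _ => orbStep nx st) st).1 = nx^[clock.length] st.1 := by
  induction clock generalizing st with
  | nil => rfl
  | cons c r ih =>
    simp only [List.foldl_cons, List.length_cons]
    rw [ih]
    simp [orbStep, Function.iterate_succ_apply]

/-- The state after `k` steps, when `x` has exact period `p`. -/
lemma orb_state {δ : Type} (nx : γ → γ) (x : γ) (p : ℕ) (hp : nx^[p] x = x)
    (hinj : ∀ i j, i < j → j < p → nx^[i] x ≠ nx^[j] x) (h0 : 0 < p) (clock : List δ) :
    (clock.foldl (fun st _ => orbStep nx st) (x, [])).2 =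
      (List.range (min clock.length p)).map fun i => nx^[i] x := by
  induction clock using List.reverseRecOn with
  | nil => simp
  | append_singleton r c ih =>
    rw [List.foldl_append]
    simp only [List.foldl_cons, List.foldl_nil]
    set st := r.foldl (fun st _ => orbStep nx st) (x, []) with hst
    have h1 : st.1 = nx^[r.length] x := orb_fold_fst nx r (x, [])
    simp only [orbStep, List.length_append, List.length_singleton]
    rw [ih, h1]
    by_cases hr : r.length < p
    · have e1 : min r.length p = r.length := min_eq_left hr.le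
      have e2 : min (r.length + 1) p = r.length + 1 := min_eq_left hr
      rw [e1, e2, List.range_succ, List.map_append]
      rw [if_neg]
      · simp
      · simp only [List.mem_map, List.mem_range, not_exists, not_and]
        intro i hi
        exact hinj i r.length hi hr
    · have e1 : min r.length p = p := min_eq_right (Nat.le_of_not_lt hr)
      have e2 : min (r.length + 1) p = p := min_eq_right (by omega)
      rw [e1, e2]
      rw [if_pos]
      simp only [List.mem_map, List.mem_range]
      refine ⟨r.length % p, Nat.mod_lt _ h0, ?_⟩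
      have hper : Function.IsPeriodicPt nx p x := hp
      exact hper.iterate_mod_apply r.length

end orbits

section orbits2

variable {γ : Type} [DecidableEq γ]

omit [DecidableEq γ] in
lemma iterate_mem {L : List γ} {nx : γ → γ} (hm : ∀ x ∈ L, nx x ∈ L) {x : γ} (hx : x ∈ L) (k : ℕ) :
    nx^[k] x ∈ L := by
  induction k with
  | zero => exact hx
  | succ k ih =>
    rw [Function.iterate_succ_apply']
    exact hm _ ih

omit [DecidableEq γ] in
lemma iterate_back {L : List γ} {nx : γ → γ} (hm : ∀ x ∈ L, nx x ∈ L)
    (hi : ∀ x ∈ L, ∀ y ∈ L, nx x = nx y → x = y) {x : γ} (hx : x ∈ L) :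
    ∀ (i j : ℕ), i ≤ j → nx^[i] x = nx^[j] x → nx^[j - i] x = x := by
  intro i
  induction i with
  | zero => intro j _ h; simpa using h.symm
  | succ i ih =>
    intro j hj h
    obtain ⟨j', rfl⟩ : ∃ j', j = j' + 1 := ⟨j - 1, by omega⟩
    rw [Function.iterate_succ_apply', Function.iterate_succ_apply'] at h
    have := hi _ (iterate_mem hm hx i) _ (iterate_mem hm hx j') h
    have h2 := ih j' (by omega) this
    rwa [show j' + 1 - (i + 1) = j' - i by omega]

omit [DecidableEq γ] in
/-- The exact period of a point under an injective self map of a list. -/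
lemma exists_period {L : List γ} {nx : γ → γ} (hm : ∀ x ∈ L, nx x ∈ L)
    (hi : ∀ x ∈ L, ∀ y ∈ L, nx x = nx y → x = y) {x : γ} (hx : x ∈ L) :
    ∃ p, 0 < p ∧ p ≤ L.length ∧ nx^[p] x = x ∧ ∀ i j, i < j → j < p → nx^[i] x ≠ nx^[j] x := by
  classical
  have hex : ∃ p, 0 < p ∧ p ≤ L.length ∧ nx^[p] x = x := by
    by_contra hc
    push Not at hc
    have hne : ∀ i j, i < j → j ≤ L.length → nx^[i] x ≠ nx^[j] x := by
      intro i j hij hj h
      have h2 := iterate_back hm hi hx i j hij.le h
      exact hc (j - i) (by omega) (by omega) h2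
    have hinj : Set.InjOn (fun i => nx^[i] x) (Finset.range (L.length + 1) : Set ℕ) := by
      intro i hi j hj h
      simp only [Finset.coe_range, Set.mem_Iio] at hi hj
      rcases lt_trichotomy i j with hl | hl | hl
      · exact absurd h (hne i j hl (by omega))
      · exact hl
      · exact absurd h.symm (hne j i hl (by omega))
    have hcard := Finset.card_le_card_of_injOn (s := Finset.range (L.length + 1))
      (t := L.toFinset) (fun i => nx^[i] x)
      (by
        intro i _
        simp only [Finset.mem_coe, List.mem_toFinset]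
        exact iterate_mem hm hx i) hinj
    have h2 := List.toFinset_card_le L
    simp only [Finset.card_range] at hcard
    omega
  refine ⟨Nat.find hex, (Nat.find_spec hex).1, (Nat.find_spec hex).2.1, (Nat.find_spec hex).2.2, ?_⟩
  intro i j hij hj h
  have h2 := iterate_back hm hi hx i j hij.le h
  have h3 := Nat.find_min hex (m := j - i) (by omega)
  apply h3
  exact ⟨by omega, by
    have := (Nat.find_spec hex).2.1
    omega, h2⟩

/-- Closed form of the orbit. -/
lemma orbit_eq {δ : Type} {L : List γ} {nx : γ → γ} (hm : ∀ x ∈ L, nx x ∈ L)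
    (hi : ∀ x ∈ L, ∀ y ∈ L, nx x = nx y → x = y) {x : γ} (hx : x ∈ L) {clock : List δ}
    (hc : L.length ≤ clock.length) :
    ∃ p, 0 < p ∧ p ≤ L.length ∧ nx^[p] x = x ∧ (∀ i j, i < j → j < p → nx^[i] x ≠ nx^[j] x) ∧
      orbit nx clock x = (List.range p).map fun i => nx^[i] x := by
  obtain ⟨p, h0, h1, h2, h3⟩ := exists_period hm hi hx
  refine ⟨p, h0, h1, h2, h3, ?_⟩
  unfold orbit
  rw [orb_state nx x p h2 h3 h0, min_eq_right (by omega)]

/-- The cycles of a map, as lists. -/
def cyclesOf {δ : Type} (nx : γ → γ) (clock : List δ) (L : List γ) : List (List γ) :=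
  L.foldl (fun acc x => if x ∈ acc.flatten then acc else acc ++ [orbit nx clock x]) []

section spec

variable {δ : Type} {L : List γ} {nx : γ → γ} {clock : List δ}

lemma mem_orbit_iff (hm : ∀ x ∈ L, nx x ∈ L) (hi : ∀ x ∈ L, ∀ y ∈ L, nx x = nx y → x = y)
    {x : γ} (hx : x ∈ L) (hc : L.length ≤ clock.length) {y : γ} :
    y ∈ orbit nx clock x ↔ ∃ k, nx^[k] x = y := by
  obtain ⟨p, h0, _, h2, _, h4⟩ := orbit_eq hm hi hx hc
  rw [h4]
  simp only [List.mem_map, List.mem_range]
  constructor
  · rintro ⟨i, _, h⟩
    exact ⟨i, h⟩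
  · rintro ⟨k, rfl⟩
    have hper : Function.IsPeriodicPt nx p x := h2
    exact ⟨k % p, Nat.mod_lt _ h0, hper.iterate_mod_apply k⟩

lemma self_mem_orbit (hm : ∀ x ∈ L, nx x ∈ L) (hi : ∀ x ∈ L, ∀ y ∈ L, nx x = nx y → x = y)
    {x : γ} (hx : x ∈ L) (hc : L.length ≤ clock.length) : x ∈ orbit nx clock x :=
  (mem_orbit_iff hm hi hx hc).mpr ⟨0, rfl⟩

lemma orbit_subset (hm : ∀ x ∈ L, nx x ∈ L) (hi : ∀ x ∈ L, ∀ y ∈ L, nx x = nx y → x = y)
    {x : γ} (hx : x ∈ L) (hc : L.length ≤ clock.length) {y : γ} (hy : y ∈ orbit nx clock x) :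
    y ∈ L := by
  obtain ⟨k, rfl⟩ := (mem_orbit_iff hm hi hx hc).mp hy
  exact iterate_mem hm hx k

lemma orbit_nodup (hm : ∀ x ∈ L, nx x ∈ L) (hi : ∀ x ∈ L, ∀ y ∈ L, nx x = nx y → x = y)
    {x : γ} (hx : x ∈ L) (hc : L.length ≤ clock.length) : (orbit nx clock x).Nodup := by
  obtain ⟨p, _, _, _, h3, h4⟩ := orbit_eq hm hi hx hc
  rw [h4, List.Nodup, List.pairwise_map]
  refine List.Pairwise.imp_of_mem ?_ (List.pairwise_lt_range (n := p))
  intro a b _ hb hab
  exact h3 a b hab (List.mem_range.mp hb)

/-- Orbits are equal or disjoint: the second point is reached from the first. -/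
lemma orbit_symm (hm : ∀ x ∈ L, nx x ∈ L) (hi : ∀ x ∈ L, ∀ y ∈ L, nx x = nx y → x = y)
    {x y : γ} (hx : x ∈ L) (hc : L.length ≤ clock.length) (hy : y ∈ orbit nx clock x) :
    x ∈ orbit nx clock y := by
  have hyL := orbit_subset hm hi hx hc hy
  obtain ⟨k, hk⟩ := (mem_orbit_iff hm hi hx hc).mp hy
  obtain ⟨p, h0, _, h2, _, _⟩ := orbit_eq hm hi hx hc
  refine (mem_orbit_iff hm hi hyL hc).mpr ⟨p * (k + 1) - k, ?_⟩
  rw [← hk, ← Function.iterate_add_apply]
  have e : p * (k + 1) - k + k = p * (k + 1) := by
    have : k ≤ p * (k + 1) := by nlinarith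
    omega
  rw [e]
  have hper : Function.IsPeriodicPt nx p x := h2
  exact (hper.mul_const _).eq

lemma orbit_trans (hm : ∀ x ∈ L, nx x ∈ L) (hi : ∀ x ∈ L, ∀ y ∈ L, nx x = nx y → x = y)
    {x y z : γ} (hx : x ∈ L) (hc : L.length ≤ clock.length) (hy : y ∈ orbit nx clock x)
    (hz : z ∈ orbit nx clock y) : z ∈ orbit nx clock x := by
  have hyL := orbit_subset hm hi hx hc hy
  obtain ⟨k, hk⟩ := (mem_orbit_iff hm hi hx hc).mp hy
  obtain ⟨j, hj⟩ := (mem_orbit_iff hm hi hyL hc).mp hz
  refine (mem_orbit_iff hm hi hx hc).mpr ⟨j + k, ?_⟩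
  rw [Function.iterate_add_apply, hk, hj]

/-- An orbit is closed under the map. -/
lemma orbit_closed (hm : ∀ x ∈ L, nx x ∈ L) (hi : ∀ x ∈ L, ∀ y ∈ L, nx x = nx y → x = y)
    {x y : γ} (hx : x ∈ L) (hc : L.length ≤ clock.length) (hy : y ∈ orbit nx clock x) :
    nx y ∈ orbit nx clock x := by
  obtain ⟨k, rfl⟩ := (mem_orbit_iff hm hi hx hc).mp hy
  refine (mem_orbit_iff hm hi hx hc).mpr ⟨k + 1, ?_⟩
  rw [Function.iterate_succ_apply']

/-- The closed walk form of the orbit: consecutive members are joined by the map, the last one goes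
to the first one. -/
lemma orbit_walk (hm : ∀ x ∈ L, nx x ∈ L) (hi : ∀ x ∈ L, ∀ y ∈ L, nx x = nx y → x = y)
    {x : γ} (hx : x ∈ L) (hc : L.length ≤ clock.length) :
    ∃ r, orbit nx clock x = x :: r ∧ List.IsChain (fun a b => nx a = b) (x :: r) ∧
      nx ((x :: r).getLast (by simp)) = x := by
  obtain ⟨p, h0, _, h2, _, h4⟩ := orbit_eq hm hi hx hc
  obtain ⟨q, rfl⟩ : ∃ q, p = q + 1 := ⟨p - 1, by omega⟩
  have e : (List.range (q + 1)).map (fun i => nx^[i] x) =
      x :: (List.range q).map (fun i => nx^[i + 1] x) := by
    rw [List.range_succ_eq_map, List.map_cons, List.map_map]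
    rfl
  refine ⟨(List.range q).map (fun i => nx^[i + 1] x), h4.trans e, ?_, ?_⟩
  · rw [← e, List.isChain_iff_getElem]
    intro i hi'
    simp only [List.getElem_map, List.getElem_range, List.length_map, List.length_range] at hi' ⊢
    rw [Function.iterate_succ_apply']
  · simp only [← e]
    rw [List.getLast_eq_getElem]
    simp only [List.getElem_map, List.getElem_range, List.length_map, List.length_range]
    rw [← Function.iterate_succ_apply' nx (q + 1 - 1) x]
    have e3 : (q + 1 - 1).succ = q + 1 := by omega
    rw [e3]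
    exact h2

lemma cycles_inv (hm : ∀ x ∈ L, nx x ∈ L) (hi : ∀ x ∈ L, ∀ y ∈ L, nx x = nx y → x = y)
    (hc : L.length ≤ clock.length) (r : List γ) (hr : ∀ x ∈ r, x ∈ L) (acc : List (List γ))
    (h1 : ∀ c ∈ acc, ∃ x ∈ L, c = orbit nx clock x) (h2 : acc.flatten.Nodup) :
    (∀ c ∈ r.foldl (fun acc x => if x ∈ acc.flatten then acc else acc ++ [orbit nx clock x]) acc,
        ∃ x ∈ L, c = orbit nx clock x) ∧
      (r.foldl (fun acc x => if x ∈ acc.flatten then acc else acc ++ [orbit nx clock x]) acc).flatten.Nodup ∧
      (∀ x ∈ r, x ∈ (r.foldl (fun acc x => if x ∈ acc.flatten then acc else acc ++ [orbit nx clock x]) acc).flatten) ∧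
      (∀ x ∈ acc.flatten, x ∈ (r.foldl (fun acc x => if x ∈ acc.flatten then acc else acc ++ [orbit nx clock x]) acc).flatten) := by
  induction r generalizing acc with
  | nil => simpa using ⟨h1, h2⟩
  | cons y r ih =>
    simp only [List.foldl_cons]
    have hyL : y ∈ L := hr y (by simp)
    by_cases hy : y ∈ acc.flatten
    · rw [if_pos hy]
      obtain ⟨a1, a2, a3, a4⟩ := ih (fun x hx => hr x (by simp [hx])) acc h1 h2
      refine ⟨a1, a2, ?_, a4⟩
      intro x hx
      rcases List.mem_cons.mp hx with rfl | hx
      · exact a4 _ hy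
      · exact a3 x hx
    · rw [if_neg hy]
      have hnew : (acc ++ [orbit nx clock y]).flatten.Nodup := by
        simp only [List.flatten_append, List.flatten_cons, List.flatten_nil, List.append_nil]
        refine List.nodup_append.mpr ⟨h2, orbit_nodup hm hi hyL hc, ?_⟩
        intro a ha b hb hab
        subst hab
        obtain ⟨c, hcc, hac⟩ := List.mem_flatten.mp ha
        obtain ⟨z, hz, rfl⟩ := h1 c hcc
        apply hy
        refine List.mem_flatten.mpr ⟨_, hcc, ?_⟩
        exact orbit_trans hm hi hz hc hac (orbit_symm hm hi hyL hc hb)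
      obtain ⟨a1, a2, a3, a4⟩ := ih (fun x hx => hr x (by simp [hx])) (acc ++ [orbit nx clock y])
        (by
          intro c hcc
          rcases List.mem_append.mp hcc with h | h
          · exact h1 c h
          · rw [List.mem_singleton] at h
            exact ⟨y, hyL, h⟩) hnew
      refine ⟨a1, a2, ?_, ?_⟩
      · intro x hx
        rcases List.mem_cons.mp hx with rfl | hx
        · apply a4
          simp only [List.flatten_append, List.flatten_cons, List.flatten_nil, List.append_nil,
            List.mem_append]
          exact Or.inr (self_mem_orbit hm hi hyL hc)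
        · exact a3 x hx
      · intro x hx
        apply a4
        simp only [List.flatten_append, List.flatten_cons, List.flatten_nil, List.append_nil,
          List.mem_append]
        exact Or.inl hx

/-- The cycles are orbits. -/
theorem cyclesOf_orbit (hm : ∀ x ∈ L, nx x ∈ L) (hi : ∀ x ∈ L, ∀ y ∈ L, nx x = nx y → x = y)
    (hc : L.length ≤ clock.length) {c : List γ} (h : c ∈ cyclesOf nx clock L) :
    ∃ x ∈ L, c = orbit nx clock x :=
  (cycles_inv hm hi hc L (fun _ h => h) [] (by simp) (by simp)).1 c h

/-- The cycles are disjoint, without repetition. -/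
theorem cyclesOf_nodup (hm : ∀ x ∈ L, nx x ∈ L) (hi : ∀ x ∈ L, ∀ y ∈ L, nx x = nx y → x = y)
    (hc : L.length ≤ clock.length) : (cyclesOf nx clock L).flatten.Nodup :=
  (cycles_inv hm hi hc L (fun _ h => h) [] (by simp) (by simp)).2.1

/-- The cycles contain all points. -/
theorem mem_cyclesOf (hm : ∀ x ∈ L, nx x ∈ L) (hi : ∀ x ∈ L, ∀ y ∈ L, nx x = nx y → x = y)
    (hc : L.length ≤ clock.length) {x : γ} (hx : x ∈ L) : x ∈ (cyclesOf nx clock L).flatten :=
  (cycles_inv hm hi hc L (fun _ h => h) [] (by simp) (by simp)).2.2.1 x hx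

end spec

end orbits2

section orbitPT

variable {α γ δ : Type} [Enc α] [Enc γ] [Enc δ] [Inhabited γ] [Inhabited δ] [DecidableEq γ] [PTEq γ]

lemma pt_mem' {f : α → γ} {g : α → List γ} (hf : PT f) (hg : PT g) :
    PT (fun a => decide (f a ∈ g a)) := by
  have h : PT (fun a => (g a).any (fun y => decide (y = f a))) :=
    PT.any hg (PT.decEq PT.snd (hf.comp PT.fst))
  refine h.congr fun a => ?_
  rw [Bool.eq_iff_iff]
  simp

omit [Inhabited γ] [Inhabited δ] [DecidableEq γ] [PTEq γ] [Enc δ] in
lemma size_enc_subperm {l m : List γ} (h : l.Subperm m) : size (enc l) ≤ size (enc m) := by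
  obtain ⟨l', h1, h2⟩ := h
  have h3 := size_enc_sublist h2
  have h4 := size_enc_perm h1
  omega

lemma orbStep_pt {nx : α → γ → γ} (hnx : PT (fun t : α × γ => nx t.1 t.2)) :
    PT (fun t : α × (γ × List γ) × δ => orbStep (nx t.1) t.2.1) := by
  unfold orbStep
  have h1 : PT (fun t : α × (γ × List γ) × δ => t.2.1.1) := PT.fst' (PT.fst' PT.snd)
  have h2 : PT (fun t : α × (γ × List γ) × δ => t.2.1.2) := PT.snd' (PT.fst' PT.snd)
  exact PT.pair (hnx.comp (PT.pair PT.fst h1))
    (PT.ite' (pt_mem' h1 h2) h2 (PT.append h2 (PT.cons h1 (PT.const _))))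

/-- The orbit computation: the points stay inside a list `U`, which is closed under the map. -/
theorem pt_orbit {nx : α → γ → γ} {x : α → γ} {clock : α → List δ} {U : α → List γ}
    (hnx : PT (fun t : α × γ => nx t.1 t.2)) (hx : PT x) (hclock : PT clock) (hU : PT U)
    (hxU : ∀ a, x a ∈ U a) (hcl : ∀ a, ∀ y ∈ U a, nx a y ∈ U a) :
    PT (fun a => orbit (nx a) (clock a) (x a)) := by
  obtain ⟨_, pU, hU'⟩ := _root_.id hU
  have h : PT (fun a => (clock a).foldl (fun st _ => orbStep (nx a) st) (x a, [])) := by
    refine PT.foldl_inv (step := fun a st _ => orbStep (nx a) st) hclock (PT.pair hx (PT.const _))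
      (orbStep_pt hnx) (C 2 * pU + C 2)
      (fun a st => st.1 ∈ U a ∧ (∀ u ∈ st.2, u ∈ U a) ∧ st.2.Nodup) ?_ ?_ ?_
    · intro a
      exact ⟨hxU a, by simp, by simp⟩
    · rintro a ⟨u, r⟩ b _ ⟨h1, h2, h3⟩
      dsimp only at h1 h2 h3
      refine ⟨hcl a u h1, ?_, ?_⟩
      · simp only [orbStep]
        split_ifs
        · exact h2
        · intro v hv
          rcases List.mem_append.mp hv with h | h
          · exact h2 v h
          · rw [List.mem_singleton] at h
            rw [h]
            exact h1
      · simp only [orbStep]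
        split_ifs with h
        · exact h3
        · refine List.nodup_append.mpr ⟨h3, by simp, ?_⟩
          intro a' ha' b' hb' hab
          rw [List.mem_singleton] at hb'
          subst hb' hab
          exact h ha'
    · rintro a ⟨u, r⟩ ⟨h1, h2, h3⟩
      dsimp only at h1 h2 h3
      have h4 : size (enc (U a)) ≤ pU.eval (size (enc a)) := (hU' a).1
      have h5 := size_enc_mem h1
      have h6 := size_enc_subperm (List.subperm_of_subset h3 h2)
      rw [size_enc_pair]
      simp only [eval_add, eval_mul, eval_C]
      omega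
  exact PT.snd' h

end orbitPT

end Crest.Agent.SS.Alg
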