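/-
S0432: arrangements as lists of strings: splits, rotations, chain gluing, insertion of a ring at its best
cut and gap, sequential insertion.  Plain functions with `PT` proofs and membership specifications.
-/
import Crest.Agent.SS.AlgPT

set_option autoImplicit false

namespace Crest.Agent.SS.Alg

open Crest.Agent.SS Crest.Agent.PolyLib Polynomial Enc

section splits

variable {α γ : Type} [Enc α] [Enc γ] [Inhabited γ]

/-- All suffixes, as a fold. -/
def tailsStep (x : γ) (s : List (List γ)) : List (List γ) := (x :: s.headD []) :: s

omit [Enc γ] [Inhabited γ] in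
lemma tailsStep_foldr (l : List γ) : l.foldr tailsStep [[]] = l.tails := by
  induction l with
  | nil => rfl
  | cons x r ih =>
    simp only [List.foldr_cons, ih, tailsStep, List.tails]
    cases r <;> simp

omit [Inhabited γ] in
lemma size_enc_tails (l : List γ) : size (enc l.tails) ≤ (size (enc l) + 2) ^ 2 := by
  induction l with
  | nil => simp
  | cons x r ih =>
    simp only [List.tails, size_enc_cons] at ih ⊢
    have := size_pos (enc x)
    nlinarith

lemma pt_tails {f : α → List γ} (hf : PT f) : PT (fun a => (f a).tails) := by
  have h : PT (fun a => (f a).foldr tailsStep [[]]) := by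
    refine PT.foldr_glob (step := fun _ x s => tailsStep x s) (init := fun _ => [[]]) hf
      (PT.const _) ?_ ((X + C 2) ^ 2) ?_
    · exact PT.cons (PT.cons (PT.fst' PT.snd) ((PT.headD _).comp (PT.snd' PT.snd))) (PT.snd' PT.snd)
    · intro a r
      rw [tailsStep_foldr]
      refine (size_enc_tails r).trans ?_
      simp only [eval_pow, eval_add, eval_X, eval_C]
      exact Nat.pow_le_pow_left (by omega) 2
  exact h.congr fun a => tailsStep_foldr _

/-- All splittings of a list. -/
def splits (l : List γ) : List (List γ × List γ) :=
  l.tails.map fun s => ((l.reverse.drop s.length).reverse, s)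

omit [Enc γ] [Inhabited γ] in
lemma splits_append {l : List γ} {p : List γ × List γ} (h : p ∈ splits l) : p.1 ++ p.2 = l := by
  simp only [splits, List.mem_map, List.mem_tails] at h
  obtain ⟨s, ⟨u, rfl⟩, rfl⟩ := h
  simp

omit [Enc γ] [Inhabited γ] in
lemma mem_splits {u v : List γ} : (u, v) ∈ splits (u ++ v) := by
  simp only [splits, List.mem_map, List.mem_tails]
  refine ⟨v, List.suffix_append _ _, ?_⟩
  simp

lemma pt_splits {f : α → List γ} (hf : PT f) : PT (fun a => splits (f a)) := by
  unfold splits
  refine PT.map (pt_tails hf) ?_
  exact PT.pair (PT.reverse (PT.dropLen PT.snd (PT.reverse (hf.comp PT.fst)))) PT.snd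

/-- All rotations of a list, by splitting. -/
def rotations (l : List γ) : List (List γ) := (splits l).map fun p => p.2 ++ p.1

omit [Enc γ] [Inhabited γ] in
lemma rotations_perm {l r : List γ} (h : r ∈ rotations l) : r.Perm l := by
  simp only [rotations, List.mem_map] at h
  obtain ⟨p, hp, rfl⟩ := h
  have := splits_append hp
  rw [← this]
  exact List.perm_append_comm

omit [Enc γ] [Inhabited γ] in
lemma mem_rotations {u v : List γ} : v ++ u ∈ rotations (u ++ v) := by
  simp only [rotations, List.mem_map]
  exact ⟨(u, v), mem_splits, rfl⟩

lemma pt_rotations {f : α → List γ} (hf : PT f) : PT (fun a => rotations (f a)) := by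
  unfold rotations
  exact PT.map (pt_splits hf) (PT.append (PT.snd' PT.snd) (PT.fst' PT.snd))

/-- All insertions of the rotations of `b` into `l`. -/
def insertions (l b : List γ) : List (List γ) :=
  (rotations b).flatMap fun r => (splits l).map fun p => p.1 ++ (r ++ p.2)

omit [Enc γ] [Inhabited γ] in
lemma insertions_perm {l b r : List γ} (h : r ∈ insertions l b) : r.Perm (l ++ b) := by
  simp only [insertions, List.mem_flatMap, List.mem_map] at h
  obtain ⟨r', hr, p, hp, rfl⟩ := h
  have h1 := rotations_perm hr
  have h2 := splits_append hp
  rw [← h2]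
  calc p.1 ++ (r' ++ p.2) |>.Perm (p.1 ++ (b ++ p.2)) := (h1.append_right _).append_left _
    _ |>.Perm (p.1 ++ p.2 ++ b) := by
      rw [List.append_assoc p.1 p.2 b]
      exact (List.perm_append_comm.append_left _)

lemma mem_insertions {u v x y : List γ} : u ++ ((y ++ x) ++ v) ∈ insertions (u ++ v) (x ++ y) := by
  simp only [insertions, List.mem_flatMap, List.mem_map]
  exact ⟨y ++ x, mem_rotations, (u, v), mem_splits, rfl⟩

lemma pt_insertions {f g : α → List γ} (hf : PT f) (hg : PT g) :
    PT (fun a => insertions (f a) (g a)) := by
  unfold insertions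
  refine PT.flatMap (pt_rotations hg) ?_
  refine PT.map (pt_splits (hf.comp PT.fst)) ?_
  exact PT.append (PT.fst' PT.snd) (PT.append (PT.snd' PT.fst) (PT.snd' PT.snd))

end splits

section chain

variable {α β : Type} [Enc α] [Enc β] [DecidableEq β] [Inhabited β] [PTEq β]

/-- Chain gluing along a list, with the maximal overlap of consecutive members only. -/
def chainFrom (prev : List β) : List (List β) → List β
  | [] => []
  | b :: r => b.drop (ovl prev b).length ++ chainFrom b r

/-- The glued chain. -/
def chain : List (List β) → List β
  | [] => []
  | x :: r => x ++ chainFrom x r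

/-- The fold form of the chain gluing. -/
def chainStep (s : List β × List β) (b : List β) : List β × List β :=
  (b, s.2 ++ b.drop (ovl s.1 b).length)

omit [Enc β] [Inhabited β] [PTEq β] in
lemma chainStep_foldl (r : List (List β)) (p acc : List β) :
    (r.foldl chainStep (p, acc)).2 = acc ++ chainFrom p r := by
  induction r generalizing p acc with
  | nil => simp [chainFrom]
  | cons b r ih =>
    simp only [List.foldl_cons, chainStep, ih, chainFrom, List.append_assoc]

omit [Enc β] [Inhabited β] [PTEq β] in
lemma chain_eq_fold (L : List (List β)) :
    chain L = (L.tail.foldl chainStep (L.headD [], L.headD [])).2 := by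
  cases L with
  | nil => simp [chain]
  | cons x r => simp [chain, chainStep_foldl]

theorem pt_chain {f : α → List (List β)} (hf : PT f) : PT (fun a => chain (f a)) := by
  obtain ⟨_, pf, hf'⟩ := _root_.id hf
  have h : PT (fun a => (f a).tail.foldl chainStep ((f a).headD [], (f a).headD [])) := by
    refine PT.foldl_add (step := fun _ s b => chainStep s b) (PT.tail.comp hf)
      (PT.pair ((PT.headD _).comp hf) ((PT.headD _).comp hf)) ?_ (C 2 * pf + C 2) ?_
    · unfold chainStep
      refine PT.pair (PT.snd' PT.snd) (PT.append (PT.snd' (PT.fst' PT.snd)) ?_)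
      exact PT.dropLen (pt_ovl (PT.fst' (PT.fst' PT.snd)) (PT.snd' PT.snd)) (PT.snd' PT.snd)
    · rintro a ⟨p, acc⟩ b hb
      simp only [chainStep]
      have h1 : size (enc (f a)) ≤ pf.eval (size (enc a)) := (hf' a).1
      have h2 := size_enc_mem hb
      have h3 := size_enc_tail (f a)
      have h4 := size_enc_append acc (b.drop (ovl p b).length)
      have h5 := size_enc_drop b (ovl p b).length
      rw [size_enc_pair, size_enc_pair]
      simp only [eval_add, eval_mul, eval_C]
      omega
  refine (PT.snd' h).congr fun a => (chain_eq_fold _).symm

omit [Enc β] [Inhabited β] [PTEq β] in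
/-- `b` is a suffix of the chain from a string which it overlaps with. -/
lemma exists_append_drop_ovl (p b : List β) : ∃ u, p ++ b.drop (ovl p b).length = u ++ b := by
  obtain ⟨u, hu⟩ := ovl_suffix p b
  obtain ⟨v, hv⟩ := ovl_prefix p b
  refine ⟨u, ?_⟩
  generalize ovl p b = w at *
  subst hu hv
  simp

omit [Enc β] [Inhabited β] [PTEq β] in
lemma infix_chainFrom (p : List β) (r : List (List β)) {x : List β} (hx : x ∈ r) :
    x <:+: p ++ chainFrom p r := by
  induction r generalizing p with
  | nil => simp at hx
  | cons b r ih =>
    obtain ⟨u, hu⟩ := exists_append_drop_ovl p b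
    have e : p ++ chainFrom p (b :: r) = u ++ (b ++ chainFrom b r) := by
      simp only [chainFrom]
      rw [← List.append_assoc, hu, List.append_assoc]
    rw [e]
    rcases List.mem_cons.mp hx with rfl | hx
    · exact ((List.prefix_append _ _).isInfix).trans (List.suffix_append _ _).isInfix
    · exact (ih b hx).trans (List.suffix_append _ _).isInfix

omit [Enc β] [Inhabited β] [PTEq β] in
/-- All members are substrings of the chain. -/
theorem infix_chain {L : List (List β)} {x : List β} (hx : x ∈ L) : x <:+: chain L := by
  cases L with
  | nil => simp at hx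
  | cons a r =>
    rcases List.mem_cons.mp hx with rfl | hx
    · exact (List.prefix_append _ _).isInfix
    · exact infix_chainFrom a r hx

end chain

section seq

variable {α β : Type} [Enc α] [Enc β] [DecidableEq β] [Inhabited β] [PTEq β]

/-- The best insertion of a ring into an arrangement, measured by the glued length: over all cuts of
the ring and all gaps of the arrangement. -/
def bestIns (arr ring : List (List β)) : List (List β) :=
  minBy chain (arr ++ ring) (insertions arr ring)

omit [Enc β] [Inhabited β] [PTEq β] in
lemma bestIns_perm (arr ring : List (List β)) : (bestIns arr ring).Perm (arr ++ ring) := by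
  rcases minBy_mem chain (arr ++ ring) (insertions arr ring) with h | h
  · rw [bestIns, h]
  · exact insertions_perm h

omit [Enc β] [Inhabited β] [PTEq β] in
/-- The best insertion is as short as any candidate. -/
lemma bestIns_le {arr ring c : List (List β)} (hc : c ∈ insertions arr ring) :
    (chain (bestIns arr ring)).length ≤ (chain c).length :=
  minBy_le chain _ _ hc

lemma pt_bestIns {f g : α → List (List β)} (hf : PT f) (hg : PT g) :
    PT (fun a => bestIns (f a) (g a)) := by
  unfold bestIns
  exact pt_minBy (key := fun _ l => chain l) (pt_chain PT.snd) (PT.append hf hg)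
    (pt_insertions hf hg)

/-- Sequential best insertion. -/
def seqIns (arr : List (List β)) (rings : List (List (List β))) : List (List β) :=
  rings.foldl bestIns arr

omit [Enc β] [Inhabited β] [PTEq β] in
lemma seqIns_perm (arr : List (List β)) (rings : List (List (List β))) :
    (seqIns arr rings).Perm (arr ++ rings.flatten) := by
  induction rings generalizing arr with
  | nil => simp [seqIns]
  | cons r rings ih =>
    have h1 := ih (bestIns arr r)
    simp only [seqIns, List.foldl_cons] at h1 ⊢
    refine h1.trans ?_
    rw [List.flatten_cons, ← List.append_assoc]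
    exact (bestIns_perm arr r).append_right _

lemma pt_seqIns {f : α → List (List β)} {g : α → List (List (List β))} (hf : PT f) (hg : PT g) :
    PT (fun a => seqIns (f a) (g a)) := by
  unfold seqIns
  obtain ⟨_, pg, hg'⟩ := _root_.id hg
  refine PT.foldl_add (step := fun _ s b => bestIns s b) hg hf ?_ pg ?_
  · exact pt_bestIns (PT.fst' PT.snd) (PT.snd' PT.snd)
  · intro a s b hb
    have h1 : size (enc (g a)) ≤ pg.eval (size (enc a)) := (hg' a).1
    have h2 := size_enc_mem hb
    have h3 := size_enc_perm (bestIns_perm s b)
    have h4 := size_enc_append s b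
    omega

end seq

end Crest.Agent.SS.Alg
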