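/-
S0432, math side: the string-level certificate (helper1's form (E)).

`S` a finite substring-free family, `T` any word containing every member.
Numbers `u f g` on strings with the two threshold conditions give
`∑ |s| ≤ 2 |T| + ∑ f + ∑ g`.  No matchings: inside one cell of `T` and one side, the set of elements
not covered from below and the set of elements not covered from above have total size at most `r + 1`.
-/
import Mathlib

set_option autoImplicit false

namespace Crest.Agent.SS

/-- Strings. -/
abbrev Str := List ℕ

/-- `k` is a valid overlap of `s` followed by `t`. -/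
def ValidOv (s t : Str) (k : ℕ) : Prop :=
  k ≤ s.length ∧ k ≤ t.length ∧ s.drop (s.length - k) = t.take k

/-- Abstract counting: a set with injective positions, `A` before-free of `B`. -/
lemma card_add_card_le {α : Type*} [DecidableEq α] (X A B : Finset α) (pos : α → ℕ)
    (hA : A ⊆ X) (hB : B ⊆ X) (hinj : ∀ p ∈ X, ∀ q ∈ X, pos p = pos q → p = q)
    (h : ∀ p ∈ A, ∀ q ∈ B, ¬ pos p < pos q) : A.card + B.card ≤ X.card + 1 := by
  have h1 : (A ∩ B).card ≤ 1 := by
    rw [Finset.card_le_one]
    intro p hp q hq
    rw [Finset.mem_inter] at hp hq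
    have h2 := h p hp.1 q hq.2
    have h3 := h q hq.1 p hp.2
    exact hinj p (hA hp.1) q (hA hq.1) (by omega)
  have h2 : (A ∪ B).card ≤ X.card := Finset.card_le_card (Finset.union_subset hA hB)
  have h3 := Finset.card_union_add_card_inter A B
  omega

/-- Positions in a word: `s` sits at `p` in `T`. -/
def SitsAt (T s : Str) (p : ℕ) : Prop :=
  p + s.length ≤ T.length ∧ ∀ i, i < s.length → T[p + i]? = s[i]?

lemma exists_sitsAt {T s : Str} (h : s <:+: T) : ∃ p, SitsAt T s p := by
  obtain ⟨a, b, rfl⟩ := h
  refine ⟨a.length, by simp, fun i hi => ?_⟩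
  rw [List.append_assoc, List.getElem?_append_right (by omega)]
  simp only [Nat.add_sub_cancel_left]
  rw [List.getElem?_append_left hi]

/-- A string sitting inside the extent of another one is a factor of it. -/
lemma infix_of_sitsAt {T p q : Str} {a b : ℕ} (hp : SitsAt T p a) (hq : SitsAt T q b)
    (h1 : a ≤ b) (h2 : b + q.length ≤ a + p.length) : q <:+: p := by
  refine ⟨p.take (b - a), p.drop (b - a + q.length), ?_⟩
  apply List.ext_getElem?
  intro i
  by_cases hi1 : i < b - a
  · rw [List.append_assoc, List.getElem?_append_left (by simp; omega)]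
    rw [List.getElem?_take_of_lt hi1]
  · have hle : (p.take (b - a)).length = b - a := by
      simp; omega
    rw [List.append_assoc, List.getElem?_append_right (by omega), hle]
    by_cases hi2 : i - (b - a) < q.length
    · rw [List.getElem?_append_left hi2]
      have e1 := hp.2 i (by omega)
      have e2 := hq.2 (i - (b - a)) hi2
      have : b + (i - (b - a)) = a + i := by omega
      rw [← e2, this, e1]
    · rw [List.getElem?_append_right (by omega)]
      rw [List.getElem?_drop]
      congr 1
      omega

/-- Two strings overlapping in `T` give a valid overlap. -/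
lemma validOv_of_sitsAt {T p q : Str} {a b : ℕ} (hp : SitsAt T p a) (hq : SitsAt T q b)
    (h1 : a ≤ b) (h3 : b ≤ a + p.length) (h2 : a + p.length ≤ b + q.length) :
    ValidOv p q (a + p.length - b) := by
  refine ⟨by omega, by omega, ?_⟩
  apply List.ext_getElem?
  intro i
  have hs : p.length - (a + p.length - b) = b - a := by omega
  rw [hs, List.getElem?_drop]
  by_cases hi : i < a + p.length - b
  · rw [List.getElem?_take_of_lt hi]
    have e1 := hp.2 (b - a + i) (by omega)
    have e2 := hq.2 i (by omega)
    have : a + (b - a + i) = b + i := by omega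
    rw [← e1, this, e2]
  · have h4 : (q.take (a + p.length - b))[i]? = none := by
      rw [List.getElem?_eq_none_iff]
      simp
      omega
    rw [h4, List.getElem?_eq_none_iff]
    omega

/-- Every member of a family has a position in a word containing it. -/
lemma exists_positions (S : Finset Str) (T : Str) (hT : ∀ s ∈ S, s <:+: T) :
    ∃ pos : Str → ℕ, ∀ s ∈ S, SitsAt T s (pos s) := by
  classical
  have hpos : ∀ s : Str, ∃ p, s ∈ S → SitsAt T s p := by
    intro s
    by_cases hs : s ∈ S
    · obtain ⟨p, hp⟩ := exists_sitsAt (hT s hs)
      exact ⟨p, fun _ => hp⟩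
    · exact ⟨0, fun h => absurd h hs⟩
  choose pos hpos using hpos
  exact ⟨pos, hpos⟩

/-- The certificate bound at fixed positions: the certificate (which may depend on the arrangement
`pos`) is only tested on the overlaps realised in `T`, `k = pos s + |s| - pos t`. -/
theorem cert_bound_at (S : Finset Str) (T : Str) (pos : Str → ℕ)
    (hpos : ∀ s ∈ S, SitsAt T s (pos s))
    (hfree : ∀ s ∈ S, ∀ t ∈ S, s ≠ t → ¬ s <:+: t) (u f g : Str → ℕ)
    (hD : ∀ s ∈ S, ∀ t ∈ S, s ≠ t → pos s < pos t → pos t < pos s + s.length →
      (s.length - u s ≤ f s ∨ pos s + s.length - pos t ≤ f s + max (g t) (u t)))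
    (hU : ∀ s ∈ S, ∀ t ∈ S, s ≠ t → pos s < pos t → pos t < pos s + s.length →
      (u t ≤ g t ∨ pos s + s.length - pos t ≤ g t + max (f s) (s.length - u s))) :
    ∑ s ∈ S, s.length ≤ 2 * T.length + ∑ s ∈ S, f s + ∑ s ∈ S, g s := by
  classical
  -- injectivity of positions, order of ends
  have hend : ∀ p ∈ S, ∀ q ∈ S, p ≠ q → pos p ≤ pos q → pos p + p.length < pos q + q.length := by
    intro p hp q hq hne hle
    by_contra hcon
    exact hfree q hq p hp hne.symm
      (infix_of_sitsAt (hpos p hp) (hpos q hq) hle (by omega))
  have hinj : ∀ p ∈ S, ∀ q ∈ S, pos p = pos q → p = q := by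
    intro p hp q hq he
    by_contra hne
    have h1 := hend p hp q hq hne (by omega)
    have h2 := hend q hq p hp (Ne.symm hne) (by omega)
    omega
  -- cells
  let X : ℕ → Finset Str := fun c => S.filter fun s => pos s ≤ c ∧ c < pos s + s.length
  let D : ℕ → Finset Str := fun c => (X c).filter fun s => pos s + u s ≤ c
  let U : ℕ → Finset Str := fun c => (X c).filter fun s => c < pos s + u s
  let b : Str → ℕ → ℕ := fun s c => pos s + s.length - 1 - c
  let a : Str → ℕ → ℕ := fun s c => c - pos s
  -- the key per cell inequality
  have key : ∀ c, (X c).card ≤ 2 + ((X c).filter fun s => b s c < f s).card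
      + ((X c).filter fun s => a s c < g s).card := by
    intro c
    have hXD : ∀ s ∈ D c, s ∈ S ∧ pos s ≤ c ∧ c < pos s + s.length ∧ pos s + u s ≤ c := by
      intro s hs
      simp only [D, X, Finset.mem_filter] at hs
      exact ⟨hs.1.1, hs.1.2.1, hs.1.2.2, hs.2⟩
    have hXU : ∀ s ∈ U c, s ∈ S ∧ pos s ≤ c ∧ c < pos s + s.length ∧ c < pos s + u s := by
      intro s hs
      simp only [U, X, Finset.mem_filter] at hs
      exact ⟨hs.1.1, hs.1.2.1, hs.1.2.2, hs.2⟩
    -- side D
    have sideD := card_add_card_le (D c) ((D c).filter fun s => ¬ b s c < f s)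
      ((D c).filter fun s => ¬ a s c < g s) pos (Finset.filter_subset _ _) (Finset.filter_subset _ _)
      (fun p hp q hq he => hinj p (hXD p hp).1 q (hXD q hq).1 he) (by
        intro p hp q hq hlt
        simp only [Finset.mem_filter, not_lt] at hp hq
        obtain ⟨hpS, hp1, hp2, hp3⟩ := hXD p hp.1
        obtain ⟨hqS, hq1, hq2, hq3⟩ := hXD q hq.1
        have hne : p ≠ q := fun he => by subst he; omega
        have hlen := hend p hpS q hqS hne (by omega)
        rcases hD p hpS q hqS hne hlt (by omega) with h1 | h1
        · have hb := hp.2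
          simp only [b] at hb
          omega
        · have hb := hp.2
          have ha := hq.2
          simp only [b] at hb
          simp only [a] at ha
          rcases max_cases (g q) (u q) with ⟨h2, h3⟩ | ⟨h2, h3⟩ <;> rw [h2] at h1 <;> omega)
    have sideU := card_add_card_le (U c) ((U c).filter fun s => ¬ b s c < f s)
      ((U c).filter fun s => ¬ a s c < g s) pos (Finset.filter_subset _ _) (Finset.filter_subset _ _)
      (fun p hp q hq he => hinj p (hXU p hp).1 q (hXU q hq).1 he) (by
        intro p hp q hq hlt
        simp only [Finset.mem_filter, not_lt] at hp hq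
        obtain ⟨hpS, hp1, hp2, hp3⟩ := hXU p hp.1
        obtain ⟨hqS, hq1, hq2, hq3⟩ := hXU q hq.1
        have hne : p ≠ q := fun he => by subst he; omega
        have hlen := hend p hpS q hqS hne (by omega)
        rcases hU p hpS q hqS hne hlt (by omega) with h1 | h1
        · have ha := hq.2
          simp only [a] at ha
          omega
        · have hb := hp.2
          have ha := hq.2
          simp only [b] at hb
          simp only [a] at ha
          rcases max_cases (f p) (p.length - u p) with ⟨h2, h3⟩ | ⟨h2, h3⟩ <;> rw [h2] at h1 <;>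
            omega)
    -- splitting
    have hsplit : ∀ (P : Str → Prop) [DecidablePred P],
        ((X c).filter P).card = ((D c).filter P).card + ((U c).filter P).card := by
      intro P _
      have : (X c).filter P = ((D c).filter P) ∪ ((U c).filter P) := by
        ext s
        simp only [D, U, Finset.mem_filter, Finset.mem_union]
        constructor
        · rintro ⟨h1, h2⟩
          by_cases h3 : pos s + u s ≤ c
          · exact Or.inl ⟨⟨h1, h3⟩, h2⟩
          · exact Or.inr ⟨⟨h1, by omega⟩, h2⟩
        · rintro (⟨⟨h1, _⟩, h2⟩ | ⟨⟨h1, _⟩, h2⟩) <;> exact ⟨h1, h2⟩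
      rw [this, Finset.card_union_of_disjoint]
      rw [Finset.disjoint_left]
      intro s hs1 hs2
      simp only [D, U, Finset.mem_filter] at hs1 hs2
      omega
    have hsplit0 : (X c).card = (D c).card + (U c).card := by
      have := hsplit (fun _ => True)
      simpa using this
    have e1 := hsplit (fun s => b s c < f s)
    have e2 := hsplit (fun s => a s c < g s)
    have c1 := Finset.card_filter_add_card_filter_not (s := D c) (fun s => b s c < f s)
    have c2 := Finset.card_filter_add_card_filter_not (s := D c) (fun s => a s c < g s)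
    have c3 := Finset.card_filter_add_card_filter_not (s := U c) (fun s => b s c < f s)
    have c4 := Finset.card_filter_add_card_filter_not (s := U c) (fun s => a s c < g s)
    omega
  -- summing over cells
  have hsum1 : ∑ c ∈ Finset.range T.length, (X c).card = ∑ s ∈ S, s.length := by
    simp only [X, Finset.card_filter]
    rw [Finset.sum_comm]
    refine Finset.sum_congr rfl fun s hs => ?_
    rw [← Finset.card_filter]
    have : (Finset.range T.length).filter (fun c => pos s ≤ c ∧ c < pos s + s.length)
        = Finset.Ico (pos s) (pos s + s.length) := by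
      ext c
      simp only [Finset.mem_filter, Finset.mem_range, Finset.mem_Ico]
      have := (hpos s hs).1
      constructor
      · rintro ⟨_, h⟩; exact h
      · intro h; exact ⟨by omega, h⟩
    rw [this, Nat.card_Ico]
    omega
  have hsum2 : ∑ c ∈ Finset.range T.length, ((X c).filter fun s => b s c < f s).card
      ≤ ∑ s ∈ S, f s := by
    simp only [X, Finset.filter_filter, Finset.card_filter]
    rw [Finset.sum_comm]
    refine Finset.sum_le_sum fun s hs => ?_
    rw [← Finset.card_filter]
    calc _ ≤ (Finset.Ico (pos s + s.length - f s) (pos s + s.length)).card := by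
          apply Finset.card_le_card
          intro c hc
          simp only [Finset.mem_filter, Finset.mem_range, b] at hc
          simp only [Finset.mem_Ico]
          omega
      _ ≤ f s := by rw [Nat.card_Ico]; omega
  have hsum3 : ∑ c ∈ Finset.range T.length, ((X c).filter fun s => a s c < g s).card
      ≤ ∑ s ∈ S, g s := by
    simp only [X, Finset.filter_filter, Finset.card_filter]
    rw [Finset.sum_comm]
    refine Finset.sum_le_sum fun s hs => ?_
    rw [← Finset.card_filter]
    calc _ ≤ (Finset.Ico (pos s) (pos s + g s)).card := by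
          apply Finset.card_le_card
          intro c hc
          simp only [Finset.mem_filter, Finset.mem_range, a] at hc
          simp only [Finset.mem_Ico]
          omega
      _ ≤ g s := by rw [Nat.card_Ico]; omega
  have htot : ∑ c ∈ Finset.range T.length, (X c).card ≤ ∑ c ∈ Finset.range T.length,
      (2 + ((X c).filter fun s => b s c < f s).card
        + ((X c).filter fun s => a s c < g s).card) := Finset.sum_le_sum fun c _ => key c
  rw [Finset.sum_add_distrib, Finset.sum_add_distrib] at htot
  simp only [Finset.sum_const, Finset.card_range, smul_eq_mul] at htot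
  omega

/-- Main theorem: the certificate bound, for a certificate good for all valid overlaps. -/
theorem cert_bound (S : Finset Str) (T : Str) (hT : ∀ s ∈ S, s <:+: T)
    (hfree : ∀ s ∈ S, ∀ t ∈ S, s ≠ t → ¬ s <:+: t) (u f g : Str → ℕ)
    (hD : ∀ s ∈ S, ∀ t ∈ S, s ≠ t → ∀ k, 0 < k → ValidOv s t k →
      (s.length - u s ≤ f s ∨ k ≤ f s + max (g t) (u t)))
    (hU : ∀ s ∈ S, ∀ t ∈ S, s ≠ t → ∀ k, 0 < k → ValidOv s t k →
      (u t ≤ g t ∨ k ≤ g t + max (f s) (s.length - u s))) :
    ∑ s ∈ S, s.length ≤ 2 * T.length + ∑ s ∈ S, f s + ∑ s ∈ S, g s := by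
  obtain ⟨pos, hpos⟩ := exists_positions S T hT
  refine cert_bound_at S T pos hpos hfree u f g ?_ ?_
  · intro s hs t ht hne h1 h2
    have hend : pos s + s.length < pos t + t.length := by
      by_contra hcon
      exact hfree t ht s hs hne.symm (infix_of_sitsAt (hpos s hs) (hpos t ht) h1.le (by omega))
    exact hD s hs t ht hne _ (by omega)
      (validOv_of_sitsAt (hpos s hs) (hpos t ht) h1.le h2.le hend.le)
  · intro s hs t ht hne h1 h2
    have hend : pos s + s.length < pos t + t.length := by
      by_contra hcon
      exact hfree t ht s hs hne.symm (infix_of_sitsAt (hpos s hs) (hpos t ht) h1.le (by omega))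
    exact hU s hs t ht hne _ (by omega)
      (validOv_of_sitsAt (hpos s hs) (hpos t ht) h1.le h2.le hend.le)

end Crest.Agent.SS
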