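/-
S0432, foundations for cycle-cover arguments: overlaps, the Monge exchange with declared values,
periodic shifts, and the abstract theorem "a stable assignment is optimal for a Monge matrix".
-/
import Crest.Agent.SS.Greedy
import Crest.Agent.SS.Cert

set_option autoImplicit false

namespace Crest.Agent.SS

/-! ### Valid overlaps by indices -/

lemma validOv_iff {s t : Str} {k : ℕ} :
    ValidOv s t k ↔ k ≤ s.length ∧ k ≤ t.length ∧ ∀ i, i < k → s[s.length - k + i]? = t[i]? := by
  unfold ValidOv
  constructor
  · rintro ⟨h1, h2, h3⟩
    refine ⟨h1, h2, fun i hi => ?_⟩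
    have h4 := congrArg (fun l : Str => l[i]?) h3
    simp only [List.getElem?_drop, List.getElem?_take_of_lt hi] at h4
    exact h4
  · rintro ⟨h1, h2, h3⟩
    refine ⟨h1, h2, ?_⟩
    apply List.ext_getElem?
    intro i
    rw [List.getElem?_drop]
    by_cases hi : i < k
    · rw [List.getElem?_take_of_lt hi]
      exact h3 i hi
    · have e1 : (t.take k)[i]? = none := by
        rw [List.getElem?_eq_none_iff]
        simp
        omega
      rw [e1, List.getElem?_eq_none_iff]
      omega

lemma ValidOv.get {s t : Str} {k : ℕ} (h : ValidOv s t k) {i : ℕ} (hi : i < k) :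
    s[s.length - k + i]? = t[i]? := (validOv_iff.mp h).2.2 i hi

lemma validOv_zero (s t : Str) : ValidOv s t 0 := by
  simp [ValidOv]

/-- The length of the maximal overlap. -/
def ov (a b : Str) : ℕ := (ovl a b).length

lemma validOv_ov (a b : Str) : ValidOv a b (ov a b) := by
  have h1 := ovl_suffix a b
  have h2 := ovl_prefix a b
  refine ⟨h1.length_le, h2.length_le, ?_⟩
  unfold ov
  rw [List.prefix_iff_eq_take.mp h2 |>.symm, List.suffix_iff_eq_drop.mp h1 |>.symm]

lemma le_ov_of_validOv {a b : Str} {k : ℕ} (h : ValidOv a b k) : k ≤ ov a b := by
  have h1 : (a.drop (a.length - k)) <:+ a := List.drop_suffix _ _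
  have h2 : (a.drop (a.length - k)) <+: b := by
    rw [h.2.2]
    exact List.take_prefix _ _
  have h3 := le_ovl_length h1 h2
  have h4 : (a.drop (a.length - k)).length = k := by
    simp
    have := h.1
    omega
  unfold ov
  omega

/-- **Monge exchange with declared values.**  If `B` is a valid overlap of `x` with `y`, `u` a valid
overlap of `x'` with `y`, and `w` a valid overlap of `x` with `y'`, with `u, w ≤ B ≤ u + w`, then
`u + w - B` is a valid overlap of `x'` with `y'`. -/
theorem ValidOv.monge {x y x' y' : Str} {B u w : ℕ} (h1 : ValidOv x y B) (h2 : ValidOv x' y u)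
    (h3 : ValidOv x y' w) (hu : u ≤ B) (hw : w ≤ B) :
    ValidOv x' y' (u + w - B) := by
  rw [validOv_iff]
  have hx' := h2.1
  have hy' := h3.2.1
  refine ⟨by omega, by omega, fun i hi => ?_⟩
  have e1 : x'.length - (u + w - B) + i = x'.length - u + (u - (u + w - B) + i) := by omega
  have e2 := h2.get (i := u - (u + w - B) + i) (by omega)
  have e3 := h1.get (i := u - (u + w - B) + i) (by omega)
  have e4 : x.length - B + (u - (u + w - B) + i) = x.length - w + i := by
    have := h1.1
    omega
  have e5 := h3.get (i := i) (by omega)
  rw [e1, e2, ← e3, e4, e5]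

/-! ### Periods -/

open List in
/-- Period shift on the prefix side: a valid overlap `x → H` of length `k`, `H` of period `p`, gives
a valid overlap of length `k - p`. -/
theorem ValidOv.shift_right {x H : Str} {k p : ℕ} (h : ValidOv x H k) (hp : H.HasPeriod p) :
    ValidOv x H (k - p) := by
  rw [validOv_iff]
  have h1 := h.1
  have h2 := h.2.1
  refine ⟨by omega, by omega, fun i hi => ?_⟩
  have e1 : x.length - (k - p) + i = x.length - k + (p + i) := by omega
  rw [e1, h.get (i := p + i) (by omega)]
  have := (List.hasPeriod_iff_getElem?.mp hp) i (by omega)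
  rw [this, Nat.add_comm]

open List in
/-- Period shift on the suffix side. -/
theorem ValidOv.shift_left {H y : Str} {k p : ℕ} (h : ValidOv H y k) (hp : H.HasPeriod p) :
    ValidOv H y (k - p) := by
  rw [validOv_iff]
  have h1 := h.1
  have h2 := h.2.1
  refine ⟨by omega, by omega, fun i hi => ?_⟩
  have e1 : H.length - (k - p) + i = (H.length - k + i) + p := by omega
  rw [e1, ← (List.hasPeriod_iff_getElem?.mp hp) (H.length - k + i) (by omega), h.get (by omega)]

/-! ### Stable assignments are optimal -/

section stable

variable {ι : Type*} [Fintype ι] [DecidableEq ι]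

open Equiv

/-- The Monge condition for a matrix. -/
def MongeMat (v : ι → ι → ℕ) : Prop :=
  ∀ x x' y y', x ≠ x' → y ≠ y' → v x y' ≤ v x y → v x' y ≤ v x y →
    v x y' + v x' y ≤ v x y + v x' y'

/-- Stability (property P) of a permutation. -/
def StablePerm (v : ι → ι → ℕ) (M : Perm ι) : Prop :=
  ∀ x y, v x y ≤ max (v x (M x)) (v (M.symm y) y)

/-- A stable permutation is optimal. -/
theorem StablePerm.optimal {v : ι → ι → ℕ} (hv : MongeMat v) {M : Perm ι} (hM : StablePerm v M)
    (π : Perm ι) : ∑ x, v x (π x) ≤ ∑ x, v x (M x) := by
  classical
  induction hn : (Finset.univ.filter fun x => π x ≠ M x).card using Nat.strong_induction_on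
    generalizing π with
  | _ n ih =>
    by_cases h0 : (Finset.univ.filter fun x => π x ≠ M x).Nonempty
    · obtain ⟨x, hx, hmax⟩ := Finset.exists_max_image _ (fun x => v x (M x)) h0
      simp only [Finset.mem_filter, Finset.mem_univ, true_and] at hx hmax
      obtain ⟨y, hy⟩ : ∃ y, M x = y := ⟨_, rfl⟩
      obtain ⟨y', hy'⟩ : ∃ y', π x = y' := ⟨_, rfl⟩
      obtain ⟨x', hx'⟩ : ∃ x', π.symm y = x' := ⟨_, rfl⟩
      have hπx' : π x' = y := by simp [← hx']
      rw [hy, hy'] at hx
      rw [hy] at hmax
      have hxx' : x ≠ x' := by
        intro he
        apply hx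
        rw [← hy', he, hπx']
      have hyy' : y ≠ y' := fun he => hx he.symm
      -- `v x y' ≤ v x y`
      have h1 : v x y' ≤ v x y := by
        have h2 := hM x y'
        obtain ⟨z, hz⟩ : ∃ z, M.symm y' = z := ⟨_, rfl⟩
        have hMz : M z = y' := by simp [← hz]
        have hzx : z ≠ x := by
          intro he
          apply hx
          rw [← hMz, he, hy]
        have hπz : π z ≠ M z := by
          intro he
          apply hzx
          apply π.injective
          rw [he, hMz, hy']
        have h3 := hmax z hπz
        rw [hMz] at h3
        rw [hy, hz] at h2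
        exact h2.trans (max_le le_rfl h3)
      -- `v x' y ≤ v x y`
      have h2 : v x' y ≤ v x y := by
        have h3 := hM x' y
        have h4 : M.symm y = x := by simp [← hy]
        rw [h4] at h3
        have h5 : π x' ≠ M x' := by
          intro he
          apply hxx'
          apply M.injective
          rw [← he, hπx', hy]
        have h6 := hmax x' h5
        exact h3.trans (max_le h6 le_rfl)
      have hmon := hv x x' y y' hxx' hyy' h1 h2
      -- the new permutation
      let π' : Perm ι := π.trans (Equiv.swap y y')
      have hπ'x : π' x = y := by simp [π', hy']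
      have hπ'x' : π' x' = y' := by simp [π', hπx']
      have hother : ∀ z, z ≠ x → z ≠ x' → π' z = π z := by
        intro z h1 h2
        have h3 : π z ≠ y := by
          intro he
          apply h2
          rw [← hx', ← he]
          simp
        have h4 : π z ≠ y' := by
          intro he
          apply h1
          exact π.injective (he.trans hy'.symm)
        simp [π', Equiv.swap_apply_of_ne_of_ne h3 h4]
      -- sums
      have hsum : ∑ z, v z (π z) ≤ ∑ z, v z (π' z) := by
        have e1 : ∀ f : ι → ℕ, ∑ z, f z = f x + (f x' + ∑ z ∈ (Finset.univ.erase x).erase x', f z) := by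
          intro f
          rw [Finset.add_sum_erase _ f (by simp [hxx'.symm]),
            Finset.add_sum_erase _ f (Finset.mem_univ x)]
        rw [e1 (fun z => v z (π z)), e1 (fun z => v z (π' z))]
        have e2 : ∑ z ∈ (Finset.univ.erase x).erase x', v z (π z) =
            ∑ z ∈ (Finset.univ.erase x).erase x', v z (π' z) := by
          apply Finset.sum_congr rfl
          intro z hz
          simp only [Finset.mem_erase, Finset.mem_univ, and_true] at hz
          rw [hother z hz.2 hz.1]
        rw [e2, hπ'x, hπ'x', hπx', hy']
        omega
      -- fewer differences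
      have hcard : (Finset.univ.filter fun z => π' z ≠ M z).card < n := by
        rw [← hn]
        apply Finset.card_lt_card
        refine ⟨?_, ?_⟩
        · intro z hz
          simp only [Finset.mem_filter, Finset.mem_univ, true_and] at hz ⊢
          by_cases hzx : z = x
          · rw [hzx, hy', hy]
            exact hx
          by_cases hzx' : z = x'
          · rw [hzx']
            intro he
            apply hxx'
            apply M.injective
            rw [← he, hπx', hy]
          · rwa [← hother z hzx hzx']
        · intro hsub
          have : x ∈ Finset.univ.filter fun z => π' z ≠ M z := hsub (by simp [hy, hy', hx])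
          simp only [Finset.mem_filter, Finset.mem_univ, true_and] at this
          exact this (hπ'x.trans hy.symm)
      exact hsum.trans (ih _ hcard π' rfl)
    · rw [Finset.not_nonempty_iff_eq_empty] at h0
      have : ∀ x, π x = M x := by
        intro x
        by_contra hne
        have : x ∈ Finset.univ.filter fun x => π x ≠ M x := by simp [hne]
        rw [h0] at this
        simp at this
      simp [this]

end stable

end Crest.Agent.SS
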