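/-
S0432, foundations: arrangements.  An arrangement is a list of strings; its value is the sum of the
overlaps of consecutive members.  Folding `merge` along an arrangement gives a superstring of length at
most the total length minus the value; conversely a superstring of a substring-free family gives an
arrangement of all the family whose value pays for the length of the superstring.
-/
import Crest.Agent.SS.Monge

set_option autoImplicit false

namespace Crest.Agent.SS

/-- Sum of the overlaps of consecutive members. -/
def arrVal : List Str → ℕ
  | [] => 0
  | [_] => 0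
  | x :: y :: l => ov x y + arrVal (y :: l)

/-- Total length. -/
def totLen (l : List Str) : ℕ := (l.map List.length).sum

/-- Merge along an arrangement: the accumulated word with the rest. -/
def mergeFrom (w : Str) : List Str → Str
  | [] => w
  | x :: l => mergeFrom (merge w x) l

/-- Merge of a whole arrangement. -/
def mergeAll : List Str → Str
  | [] => []
  | x :: l => mergeFrom x l

lemma validOv_of_suffix {x w y : Str} {k : ℕ} (h : ValidOv x y k) (hs : x <:+ w) : ValidOv w y k := by
  rw [validOv_iff] at h ⊢
  obtain ⟨u, rfl⟩ := hs
  refine ⟨by simp; omega, h.2.1, fun i hi => ?_⟩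
  rw [← h.2.2 i hi]
  have e1 : (u ++ x).length - k + i = u.length + (x.length - k + i) := by
    simp only [List.length_append]
    omega
  rw [e1, List.getElem?_append_right (by omega)]
  simp

lemma mergeFrom_length (w x : Str) (l : List Str) (hs : x <:+ w) :
    (mergeFrom w l).length + arrVal (x :: l) ≤ w.length + totLen l := by
  induction l generalizing w x with
  | nil => simp [mergeFrom, arrVal, totLen]
  | cons y l ih =>
    have h1 := ih (merge w y) y (suffix_merge w y)
    have h2 := merge_length w y
    have h3 : ov x y ≤ (ovl w y).length :=
      le_ov_of_validOv (validOv_of_suffix (validOv_ov x y) hs)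
    simp only [mergeFrom, arrVal, totLen, List.map_cons, List.sum_cons] at h1 ⊢
    omega

/-- The length of the merge of an arrangement. -/
theorem mergeAll_length (l : List Str) : (mergeAll l).length + arrVal l ≤ totLen l := by
  cases l with
  | nil => simp [mergeAll, arrVal, totLen]
  | cons x l =>
    have := mergeFrom_length x x l (List.suffix_refl _)
    simp only [mergeAll, totLen, List.map_cons, List.sum_cons] at this ⊢
    omega

lemma infix_mergeFrom_self (w : Str) (l : List Str) : w <+: mergeFrom w l := by
  induction l generalizing w with
  | nil => exact List.prefix_refl _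
  | cons y l ih => exact (prefix_merge w y).trans (ih _)

lemma infix_mergeFrom {w x : Str} {l : List Str} (h : x ∈ l) : x <:+: mergeFrom w l := by
  induction l generalizing w with
  | nil => simp at h
  | cons y l ih =>
    rcases List.mem_cons.mp h with rfl | h
    · exact (infix_merge_right _ _).trans (infix_mergeFrom_self _ _).isInfix
    · exact ih h

/-- Every member of an arrangement is a factor of its merge. -/
theorem infix_mergeAll {x : Str} {l : List Str} (h : x ∈ l) : x <:+: mergeAll l := by
  cases l with
  | nil => simp at h
  | cons y l =>
    rcases List.mem_cons.mp h with rfl | h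
    · exact (infix_mergeFrom_self _ _).isInfix
    · exact infix_mergeFrom h

/-! ### The arrangement of a superstring -/

/-- Telescoping along a list sorted by position. -/
lemma length_le_of_chain (T : Str) (pos : Str → ℕ) (x : Str) (l : List Str)
    (hpos : ∀ s ∈ x :: l, SitsAt T s (pos s))
    (hfree : ∀ s ∈ x :: l, ∀ t ∈ x :: l, s ≠ t → ¬ s <:+: t)
    (hchain : List.IsChain (fun a b => pos a < pos b) (x :: l)) :
    totLen (x :: l) ≤ arrVal (x :: l) + T.length - pos x := by
  induction l generalizing x with
  | nil =>
    have := (hpos x (by simp)).1
    simp only [totLen, List.map_cons, List.map_nil, List.sum_cons, List.sum_nil, arrVal]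
    omega
  | cons y l ih =>
    have hxy : pos x < pos y := by
      simp only [List.isChain_cons_cons] at hchain
      exact hchain.1
    have hx := hpos x (by simp)
    have hy := hpos y (by simp)
    have hne : x ≠ y := by
      rintro rfl
      exact lt_irrefl _ hxy
    have h1 := ih y (fun s hs => hpos s (List.mem_cons_of_mem _ hs))
      (fun s hs t ht => hfree s (List.mem_cons_of_mem _ hs) t (List.mem_cons_of_mem _ ht))
      (by simp only [List.isChain_cons_cons] at hchain; exact hchain.2)
    have hend : pos x + x.length < pos y + y.length := by
      by_contra hcon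
      exact hfree y (by simp) x (by simp) hne.symm
        (infix_of_sitsAt hx hy hxy.le (by omega))
    -- the overlap
    have h2 : pos x + x.length - pos y ≤ ov x y := by
      by_cases hov : pos y ≤ pos x + x.length
      · exact le_ov_of_validOv (validOv_of_sitsAt hx hy hxy.le hov hend.le)
      · omega
    have h3 := hy.1
    simp only [totLen, List.map_cons, List.sum_cons, arrVal] at h1 ⊢
    omega

/-- A superstring of a substring-free family gives an arrangement of the family paying for its length.-/
theorem exists_arrangement (S : List Str) (hS : S.Nodup) (T : Str) (hT : ∀ s ∈ S, s <:+: T)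
    (hfree : ∀ s ∈ S, ∀ t ∈ S, s ≠ t → ¬ s <:+: t) :
    ∃ l : List Str, l.Perm S ∧ totLen S ≤ arrVal l + T.length := by
  classical
  obtain ⟨pos, hpos⟩ := exists_positions S.toFinset T (by simpa using hT)
  have hpos' : ∀ s ∈ S, SitsAt T s (pos s) := fun s hs => hpos s (by simpa using hs)
  -- injectivity of positions
  have hinj : ∀ p ∈ S, ∀ q ∈ S, pos p = pos q → p = q := by
    intro p hp q hq he
    by_contra hne
    have h1 : ¬ pos p + p.length ≤ pos q + q.length := fun hcon =>
      hfree p hp q hq hne (infix_of_sitsAt (hpos' q hq) (hpos' p hp) he.ge (by omega))
    have h2 : ¬ pos q + q.length ≤ pos p + p.length := fun hcon =>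
      hfree q hq p hp (Ne.symm hne) (infix_of_sitsAt (hpos' p hp) (hpos' q hq) he.le (by omega))
    omega
  let r : Str → Str → Prop := fun a b => pos a ≤ pos b
  have : DecidableRel r := fun a b => inferInstanceAs (Decidable (pos a ≤ pos b))
  have : IsTrans Str r := ⟨fun a b c (h1 : pos a ≤ pos b) (h2 : pos b ≤ pos c) => h1.trans h2⟩
  have : Std.Total r := ⟨fun a b => Nat.le_total (pos a) (pos b)⟩
  let l := S.insertionSort r
  have hperm : l.Perm S := List.perm_insertionSort r S
  have hsorted : l.Pairwise r := List.pairwise_insertionSort r S
  refine ⟨l, hperm, ?_⟩
  have hmem : ∀ s, s ∈ l ↔ s ∈ S := fun s => hperm.mem_iff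
  have hnodup : l.Nodup := hperm.nodup_iff.mpr hS
  have hchain : l.Pairwise (fun a b => pos a < pos b) := by
    have := hsorted.and hnodup
    refine this.imp_of_mem ?_
    intro a b ha hb hab
    refine lt_of_le_of_ne hab.1 ?_
    intro he
    exact hab.2 (hinj a ((hmem a).mp ha) b ((hmem b).mp hb) he)
  have htot : totLen l = totLen S := by
    unfold totLen
    exact (hperm.map _).sum_eq
  rw [← htot]
  cases hl : l with
  | nil => simp [totLen]
  | cons x t =>
    rw [hl] at hmem hchain
    have := length_le_of_chain T pos x t (fun s hs => hpos' s ((hmem s).mp hs))
      (fun s hs u hu => hfree s ((hmem s).mp hs) u ((hmem u).mp hu)) hchain.isChain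
    omega

end Crest.Agent.SS
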