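/-
S0432: a maximum weight assignment in polynomial time, for weights given in unary: the auction algorithm
with unit price steps on weights scaled by `n + 1`.  The state is the list of arcs person → object and the
list of bids; the price of an object is the number of bids on it.
-/
import Crest.Agent.SS.AlgPT

set_option autoImplicit false

namespace Crest.Agent.SS.Alg

open Crest.Agent.SS Crest.Agent.PolyLib Polynomial Enc

section defs

variable {γ : Type} [DecidableEq γ]

/-- The scaled weight. -/
def aw (L : List γ) (val : γ → γ → List Unit) (i j : γ) : List Unit :=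
  (() :: L.map fun _ => ()).flatMap fun _ => val i j

/-- A word longer than all scaled weights. -/
def cw (L : List γ) (val : γ → γ → List Unit) : List Unit :=
  (L.flatMap fun i => L.map fun j => aw L val i j).flatten

/-- The price of an object. -/
def pw (bids : List γ) (j : γ) : List Unit := (bids.filter fun x => decide (x = j)).map fun _ => ()

/-- The key of an object for a bidder: smallest key = best object. -/
def bidKey (L : List γ) (val : γ → γ → List Unit) (bids : List γ) (i j : γ) : List Unit :=
  pw bids j ++ (cw L val).drop (aw L val i j).length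

/-- The unassigned persons. -/
def free (L : List γ) (arcs : List (γ × γ)) : List γ :=
  L.filter fun x => !arcs.any fun e => decide (e.1 = x)

variable [Inhabited γ]

/-- One step: the first unassigned person bids for its best object. -/
def aucStep (L : List γ) (val : γ → γ → List Unit) (st : List (γ × γ) × List γ) :
    List (γ × γ) × List γ :=
  if (free L st.1).isEmpty then st
  else
    let i := (free L st.1).headD default
    let j := minBy (bidKey L val st.2 i) (L.headD default) L
    ((i, j) :: st.1.filter (fun e => decide (e.2 ≠ j)), j :: st.2)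

/-- A clock of sufficient length. -/
def aucClock (L : List γ) (val : γ → γ → List Unit) : List Unit :=
  () :: L.flatMap fun _ => () :: cw L val

/-- The auction. -/
def auction (L : List γ) (val : γ → γ → List Unit) : List (γ × γ) :=
  ((aucClock L val).foldl (fun st _ => aucStep L val st) ([], [])).1

end defs

section pt

variable {α γ : Type} [Enc α] [Enc γ] [DecidableEq γ] [Inhabited γ] [PTEq γ]

lemma pt_aw {L : α → List γ} {val : α → γ → γ → List Unit} {i j : α → γ} (hL : PT L)
    (hval : PT (fun t : α × γ × γ => val t.1 t.2.1 t.2.2)) (hi : PT i) (hj : PT j) :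
    PT (fun a => aw (L a) (val a) (i a) (j a)) := by
  unfold aw
  refine PT.flatMap (PT.cons (PT.const _) (PT.map hL (PT.const _))) ?_
  exact hval.comp (PT.pair PT.fst (PT.pair (hi.comp PT.fst) (hj.comp PT.fst)))

lemma pt_cw {L : α → List γ} {val : α → γ → γ → List Unit} (hL : PT L)
    (hval : PT (fun t : α × γ × γ => val t.1 t.2.1 t.2.2)) :
    PT (fun a => cw (L a) (val a)) := by
  unfold cw
  refine PT.flatten (PT.flatMap hL ?_)
  refine PT.map (hL.comp PT.fst) ?_
  exact pt_aw (L := fun t : (α × γ) × γ => L t.1.1) (val := fun t => val t.1.1)
    (i := fun t => t.1.2) (j := fun t => t.2) (hL.comp (PT.fst' PT.fst))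
    (hval.comp (PT.pair (PT.fst' (PT.fst' PT.fst)) PT.snd)) (PT.snd' PT.fst) PT.snd

lemma pt_pw {b : α → List γ} {j : α → γ} (hb : PT b) (hj : PT j) :
    PT (fun a => pw (b a) (j a)) := by
  unfold pw
  refine PT.map (PT.filter hb ?_) (PT.const _)
  exact PT.decEq PT.snd (hj.comp PT.fst)

lemma pt_free {L : α → List γ} {arcs : α → List (γ × γ)} (hL : PT L) (harcs : PT arcs) :
    PT (fun a => free (L a) (arcs a)) := by
  unfold free
  refine PT.filter hL (PT.not (PT.any (harcs.comp PT.fst) ?_))
  exact PT.decEq (PT.fst' PT.snd) (PT.snd' PT.fst)

lemma pt_aucStep {L : α → List γ} {val : α → γ → γ → List Unit}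
    {st : α → List (γ × γ) × List γ} (hL : PT L)
    (hval : PT (fun t : α × γ × γ => val t.1 t.2.1 t.2.2)) (hst : PT st) :
    PT (fun a => aucStep (L a) (val a) (st a)) := by
  unfold aucStep
  have hf := pt_free (PT.comp hL PT.id) (PT.fst' hst)
  have hi : PT (fun a => (free (L a) (st a).1).headD default) := (PT.headD _).comp hf
  have hj : PT (fun a => minBy (bidKey (L a) (val a) (st a).2 ((free (L a) (st a).1).headD default))
      ((L a).headD default) (L a)) := by
    refine pt_minBy (key := fun a j => bidKey (L a) (val a) (st a).2
      ((free (L a) (st a).1).headD default) j) ?_ ((PT.headD _).comp hL) hL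
    unfold bidKey
    refine PT.append (pt_pw (PT.snd' (hst.comp PT.fst)) PT.snd) (PT.dropLen ?_ ?_)
    · exact pt_aw (L := fun t : α × γ => L t.1) (val := fun t => val t.1) (hL.comp PT.fst)
        (hval.comp (PT.pair (PT.fst' PT.fst) PT.snd)) (hi.comp PT.fst) PT.snd
    · exact pt_cw (L := fun t : α × γ => L t.1) (val := fun t => val t.1) (hL.comp PT.fst)
        (hval.comp (PT.pair (PT.fst' PT.fst) PT.snd))
  refine PT.ite (PT.isEmpty.comp hf) hst ?_
  refine PT.pair (PT.cons (PT.pair hi hj) (PT.filter (PT.fst' hst) ?_)) (PT.cons hj (PT.snd' hst))
  refine (PT.not (PT.decEq (PT.snd' PT.snd) (hj.comp PT.fst))).congr fun t => ?_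
  simp

lemma pt_aucClock {L : α → List γ} {val : α → γ → γ → List Unit} (hL : PT L)
    (hval : PT (fun t : α × γ × γ => val t.1 t.2.1 t.2.2)) :
    PT (fun a => aucClock (L a) (val a)) := by
  unfold aucClock
  refine PT.cons (PT.const _) (PT.flatMap hL ?_)
  exact PT.cons (PT.const _) (pt_cw (L := fun t : α × γ => L t.1) (val := fun t => val t.1)
    (hL.comp PT.fst) (hval.comp (PT.pair (PT.fst' PT.fst) PT.snd)))

theorem pt_auction {L : α → List γ} {val : α → γ → γ → List Unit} (hL : PT L)
    (hval : PT (fun t : α × γ × γ => val t.1 t.2.1 t.2.2)) :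
    PT (fun a => auction (L a) (val a)) := by
  unfold auction
  obtain ⟨_, pL, hL'⟩ := _root_.id hL
  refine PT.fst' (PT.foldl_add (step := fun a st _ => aucStep (L a) (val a) st)
    (pt_aucClock hL hval) (PT.const _) ?_
    (C 3 * pL + C (3 * size (enc (default : γ)) + 10)) ?_)
  · exact pt_aucStep (L := fun t : α × (List (γ × γ) × List γ) × Unit => L t.1)
      (val := fun t => val t.1) (hL.comp PT.fst)
      (hval.comp (PT.pair (PT.fst' PT.fst) PT.snd)) (PT.fst' PT.snd)
  · rintro a ⟨arcs, bids⟩ _ _
    have h1 : size (enc (L a)) ≤ pL.eval (size (enc a)) := (hL' a).1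
    simp only [eval_add, eval_mul, eval_C]
    unfold aucStep
    split_ifs with h
    · omega
    · dsimp only
      set i := (free (L a) arcs).headD default with hi
      set j := minBy (bidKey (L a) (val a) bids i) ((L a).headD default) (L a) with hj
      have h2 : size (enc i) ≤ size (enc (L a)) + size (enc (default : γ)) := by
        have : i ∈ free (L a) arcs ∨ i = default := by
          rw [hi]
          cases hh : free (L a) arcs with
          | nil => exact Or.inr rfl
          | cons y r => exact Or.inl (by simp)
        rcases this with h3 | h3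
        · have h4 : i ∈ L a := List.mem_of_mem_filter h3
          have := size_enc_mem h4
          omega
        · rw [h3]
          omega
      have h3 : size (enc j) ≤ size (enc (L a)) + size (enc (default : γ)) := by
        rcases minBy_mem (bidKey (L a) (val a) bids i) ((L a).headD default) (L a) with h4 | h4
        · rw [hj, h4]
          cases hh : L a with
          | nil => simp
          | cons y r =>
            have : size (enc y) < size (enc (y :: r)) := size_enc_mem (by simp)
            simp only [List.headD_cons]
            rw [hh] at h1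
            omega
        · rw [← hj] at h4
          have := size_enc_mem h4
          omega
      have h4 := size_enc_sublist (List.filter_sublist (p := fun e : γ × γ => decide (e.2 ≠ j))
        (l := arcs))
      rw [size_enc_pair, size_enc_pair, size_enc_cons, size_enc_cons, size_enc_pair]
      omega

end pt

section spec

variable {γ : Type} [DecidableEq γ] [Inhabited γ]

lemma aw_length (L : List γ) (val : γ → γ → List Unit) (i j : γ) :
    (aw L val i j).length = (L.length + 1) * (val i j).length := by
  simp only [aw, List.length_flatMap, List.map_cons, List.map_map, List.sum_cons]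
  have : ∀ l : List γ, (l.map ((fun _ => (val i j).length) ∘ fun _ => ())).sum =
      l.length * (val i j).length := by
    intro l
    induction l with
    | nil => simp
    | cons x r ih =>
      simp only [List.map_cons, List.sum_cons, ih, List.length_cons, Function.comp]
      ring
  rw [this]
  ring

lemma aw_le_cw {L : List γ} (val : γ → γ → List Unit) {i j : γ} (hi : i ∈ L) (hj : j ∈ L) :
    (aw L val i j).length ≤ (cw L val).length := by
  unfold cw
  refine (List.sublist_flatten_of_mem ?_).length_le
  exact List.mem_flatMap.mpr ⟨i, hi, List.mem_map.mpr ⟨j, hj, rfl⟩⟩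

lemma pw_length (bids : List γ) (j : γ) : (pw bids j).length = bids.count j := by
  simp only [pw, List.length_map]
  rw [List.count_eq_length_filter]
  congr 1

/-- The invariant of the auction. -/
structure AucInv (L : List γ) (val : γ → γ → List Unit) (st : List (γ × γ) × List γ) : Prop where
  pair : st.1.Pairwise fun e f => e.1 ≠ f.1 ∧ e.2 ≠ f.2
  mem : ∀ e ∈ st.1, e.1 ∈ L ∧ e.2 ∈ L
  cs : ∀ e ∈ st.1, ∀ j ∈ L, (aw L val e.1 j).length + st.2.count e.2 ≤
    (aw L val e.1 e.2).length + st.2.count j + 1
  zero : ∀ j ∈ L, (∃ e ∈ st.1, e.2 = j) ∨ st.2.count j = 0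
  bound : ∀ j ∈ L, st.2.count j ≤ (cw L val).length + 1
  bids : ∀ b ∈ st.2, b ∈ L

lemma aucInv_init (L : List γ) (val : γ → γ → List Unit) : AucInv L val ([], []) where
  pair := List.Pairwise.nil
  mem := by simp
  cs := by simp
  zero := by simp
  bound := by simp
  bids := by simp

/-- Some object has no owner while a person is free. -/
lemma exists_free_object {L : List γ} {arcs : List (γ × γ)}
    (hp : arcs.Pairwise fun e f => e.1 ≠ f.1 ∧ e.2 ≠ f.2) (hm : ∀ e ∈ arcs, e.1 ∈ L ∧ e.2 ∈ L)
    {i : γ} (hi : i ∈ L) (hfree : ∀ e ∈ arcs, e.1 ≠ i) : ∃ j ∈ L, ∀ e ∈ arcs, e.2 ≠ j := by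
  by_contra hc
  push Not at hc
  have h1 : (arcs.map Prod.fst).Nodup := by
    rw [List.Nodup, List.pairwise_map]
    exact hp.imp fun h => h.1
  have h2 : (arcs.map Prod.snd).Nodup := by
    rw [List.Nodup, List.pairwise_map]
    exact hp.imp fun h => h.2
  have hA : (arcs.map Prod.fst).toFinset.card = arcs.length := by
    rw [List.toFinset_card_of_nodup h1, List.length_map]
  have hB : (arcs.map Prod.snd).toFinset.card = arcs.length := by
    rw [List.toFinset_card_of_nodup h2, List.length_map]
  have hsubA : (arcs.map Prod.fst).toFinset ⊂ L.toFinset := by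
    refine ⟨?_, fun h => ?_⟩
    · intro a ha
      simp only [List.mem_toFinset, List.mem_map] at ha ⊢
      obtain ⟨e, he, rfl⟩ := ha
      exact (hm e he).1
    · have := h (List.mem_toFinset.mpr hi)
      simp only [List.mem_toFinset, List.mem_map] at this
      obtain ⟨e, he, h3⟩ := this
      exact hfree e he h3
  have hsubB : L.toFinset ⊆ (arcs.map Prod.snd).toFinset := by
    intro j hj
    obtain ⟨e, he, rfl⟩ := hc j (List.mem_toFinset.mp hj)
    simp only [List.mem_toFinset, List.mem_map]
    exact ⟨e, he, rfl⟩
  have h3 := Finset.card_lt_card hsubA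
  have h4 := Finset.card_le_card hsubB
  omega

lemma aucInv_step {L : List γ} {val : γ → γ → List Unit} {st : List (γ × γ) × List γ}
    (h : AucInv L val st) : AucInv L val (aucStep L val st) := by
  obtain ⟨arcs, bids⟩ := st
  unfold aucStep
  dsimp only
  split_ifs with hf
  · exact h
  obtain ⟨hpair, hmem, hcs, hzero, hbound, hbids⟩ := h
  dsimp only at hpair hmem hcs hzero hbound hbids
  set i := (free L arcs).headD default with hi
  set j := minBy (bidKey L val bids i) (L.headD default) L with hj
  -- the bidder
  have hi1 : i ∈ free L arcs := by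
    cases hh : free L arcs with
    | nil => simp [hh] at hf
    | cons y r => simp [hi, hh]
  have hiL : i ∈ L := List.mem_of_mem_filter hi1
  have hifree : ∀ e ∈ arcs, e.1 ≠ i := by
    have := (List.mem_filter.mp hi1).2
    simp only [Bool.not_eq_true', List.any_eq_false, decide_eq_true_eq] at this
    exact this
  have hjL : j ∈ L := by
    rcases minBy_mem (bidKey L val bids i) (L.headD default) L with h4 | h4
    · rw [hj, h4]
      cases hh : L with
      | nil => simp [hh] at hiL
      | cons y r => simp
    · exact h4
  have hkey : ∀ j' ∈ L, (aw L val i j').length + bids.count j ≤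
      (aw L val i j).length + bids.count j' := by
    intro j' hj'
    have h5 := minBy_le (bidKey L val bids i) (L.headD default) L hj'
    rw [← hj] at h5
    simp only [bidKey, List.length_append, pw_length, List.length_drop] at h5
    have h6 := aw_le_cw val hiL hj'
    have h7 := aw_le_cw val hiL hjL
    omega
  have hcount : ∀ x, x ≠ j → (j :: bids).count x = bids.count x := by
    intro x hx
    exact List.count_cons_of_ne (Ne.symm hx)
  have hcountj : (j :: bids).count j = bids.count j + 1 := List.count_cons_self
  have hle : ∀ x, bids.count x ≤ (j :: bids).count x := by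
    intro x
    by_cases hx : x = j
    · rw [hx, hcountj]
      omega
    · rw [hcount x hx]
  refine ⟨?_, ?_, ?_, ?_, ?_, ?_⟩
  · -- pairwise
    dsimp only
    refine List.pairwise_cons.mpr ⟨?_, hpair.filter _⟩
    intro f hf'
    obtain ⟨h1, h2⟩ := List.mem_filter.mp hf'
    simp only [decide_not, Bool.not_eq_true', decide_eq_false_iff_not] at h2
    exact ⟨(hifree f h1).symm, fun h3 => h2 h3.symm⟩
  · -- membership
    intro e he
    rcases List.mem_cons.mp he with rfl | he
    · exact ⟨hiL, hjL⟩
    · exact hmem e (List.mem_of_mem_filter he)
  · -- complementary slackness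
    intro e he j' hj'
    dsimp only at he ⊢
    rcases List.mem_cons.mp he with rfl | he
    · dsimp only
      have h5 := hkey j' hj'
      have h6 := hle j'
      rw [hcountj]
      omega
    · obtain ⟨h1, h2⟩ := List.mem_filter.mp he
      simp only [decide_not, Bool.not_eq_true', decide_eq_false_iff_not] at h2
      have h5 := hcs e h1 j' hj'
      have h6 := hle j'
      rw [hcount e.2 h2]
      omega
  · -- free objects have price zero
    intro j0 hj0
    dsimp only
    by_cases hx : j0 = j
    · exact Or.inl ⟨(i, j), List.mem_cons_self, hx.symm⟩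
    · rw [hcount j0 hx]
      rcases hzero j0 hj0 with ⟨e, he, h3⟩ | h3
      · refine Or.inl ⟨e, List.mem_cons_of_mem _ (List.mem_filter.mpr ⟨he, ?_⟩), h3⟩
        simp only [decide_not, Bool.not_eq_true', decide_eq_false_iff_not]
        rw [h3]
        exact hx
      · exact Or.inr h3
  · -- the bound
    intro j0 hj0
    dsimp only
    by_cases hx : j0 = j
    · rw [hx, hcountj]
      obtain ⟨j1, hj1, hj1f⟩ := exists_free_object hpair hmem hiL hifree
      have h5 : bids.count j1 = 0 := by
        rcases hzero j1 hj1 with ⟨e, he, h3⟩ | h3
        · exact absurd h3 (hj1f e he)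
        · exact h3
      have h6 := hkey j1 hj1
      have h7 := aw_le_cw val hiL hjL
      omega
    · rw [hcount j0 hx]
      have := hbound j0 hj0
      omega
  · -- bids
    intro b hb
    rcases List.mem_cons.mp hb with rfl | hb
    · exact hjL
    · exact hbids b hb

lemma aucInv_fold {L : List γ} {val : γ → γ → List Unit} (r : List Unit)
    {st : List (γ × γ) × List γ} (h : AucInv L val st) :
    AucInv L val (r.foldl (fun st _ => aucStep L val st) st) := by
  induction r generalizing st with
  | nil => exact h
  | cons _ r ih => exact ih (aucInv_step h)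

/-- Either all are assigned or all steps were effective. -/
lemma auc_progress {L : List γ} {val : γ → γ → List Unit} (r : List Unit)
    {st : List (γ × γ) × List γ} :
    free L (r.foldl (fun st _ => aucStep L val st) st).1 = [] ∨
      (r.foldl (fun st _ => aucStep L val st) st).2.length = st.2.length + r.length := by
  induction r generalizing st with
  | nil => exact Or.inr rfl
  | cons _ r ih =>
    simp only [List.foldl_cons, List.length_cons]
    by_cases hf : (free L st.1).isEmpty = true
    · have e : aucStep L val st = st := by
        unfold aucStep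
        rw [if_pos hf]
      rw [e]
      have key : ∀ r' : List Unit, r'.foldl (fun st _ => aucStep L val st) st = st := by
        intro r'
        induction r' with
        | nil => rfl
        | cons _ r' ih' =>
          simp only [List.foldl_cons, e, ih']
      rw [key]
      left
      exact List.isEmpty_iff.mp hf
    · rcases ih (st := aucStep L val st) with h | h
      · exact Or.inl h
      · right
        rw [h]
        have e : (aucStep L val st).2.length = st.2.length + 1 := by
          unfold aucStep
          rw [if_neg hf]
          simp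
        rw [e]
        omega

/-- The auction assigns everybody. -/
theorem auction_free (L : List γ) (val : γ → γ → List Unit) : free L (auction L val) = [] := by
  set st := (aucClock L val).foldl (fun st _ => aucStep L val st) ([], []) with hst
  have hinv : AucInv L val st := aucInv_fold _ (aucInv_init L val)
  rcases auc_progress (L := L) (val := val) (aucClock L val) (st := ([], [])) with h | h
  · exact h
  exfalso
  rw [← hst] at h
  have h1 : st.2.length = ∑ j ∈ st.2.toFinset, st.2.count j :=
    (List.sum_toFinset_count_eq_length st.2).symm
  have h2 : ∑ j ∈ st.2.toFinset, st.2.count j ≤ ∑ _j ∈ L.toFinset, ((cw L val).length + 1) := by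
    refine (Finset.sum_le_sum_of_subset ?_).trans (Finset.sum_le_sum fun j hj => ?_)
    · intro b hb
      exact List.mem_toFinset.mpr (hinv.bids b (List.mem_toFinset.mp hb))
    · exact hinv.bound j (List.mem_toFinset.mp hj)
  rw [Finset.sum_const, smul_eq_mul] at h2
  have h3 : L.toFinset.card ≤ L.length := List.toFinset_card_le L
  have h4 : (aucClock L val).length = L.length * ((cw L val).length + 1) + 1 := by
    simp only [aucClock, List.length_cons, List.length_flatMap]
    have : ∀ l : List γ, (l.map fun _ => (cw L val).length + 1).sum =
        l.length * ((cw L val).length + 1) := by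
      intro l
      induction l with
      | nil => simp
      | cons x r ih =>
        simp only [List.map_cons, List.sum_cons, ih, List.length_cons]
        ring
    rw [this]
  have h5 := Nat.mul_le_mul_right ((cw L val).length + 1) h3
  simp only [List.length_nil, Nat.zero_add] at h
  omega

lemma auction_inv (L : List γ) (val : γ → γ → List Unit) :
    ∃ bids, AucInv L val (auction L val, bids) :=
  ⟨_, aucInv_fold _ (aucInv_init L val)⟩

/-- The arcs of the auction: heads and tails. -/
lemma auction_tail (L : List γ) (val : γ → γ → List Unit) {x : γ} (hx : x ∈ L) :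
    ∃ e ∈ auction L val, e.1 = x := by
  have h := auction_free L val
  by_contra hc
  have : x ∈ free L (auction L val) := by
    refine List.mem_filter.mpr ⟨hx, ?_⟩
    simp only [Bool.not_eq_true', List.any_eq_false, decide_eq_true_eq]
    intro e he h2
    exact hc ⟨e, he, h2⟩
  rw [h] at this
  simp at this

section perm

open Equiv

variable (L : List γ) (val : γ → γ → List Unit)

lemma auction_pair : (auction L val).Pairwise fun e f => e.1 ≠ f.1 ∧ e.2 ≠ f.2 := by
  obtain ⟨_, h⟩ := auction_inv L val
  exact h.pair

lemma auction_mem {e : γ × γ} (he : e ∈ auction L val) : e.1 ∈ L ∧ e.2 ∈ L := by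
  obtain ⟨_, h⟩ := auction_inv L val
  exact h.mem e he

/-- The head of the arc with tail `x`. -/
noncomputable def aucNext (x : {x // x ∈ L}) : {x // x ∈ L} :=
  ⟨(Classical.choose (auction_tail L val x.2)).2,
    (auction_mem L val (Classical.choose_spec (auction_tail L val x.2)).1).2⟩

lemma aucNext_mem (x : {x // x ∈ L}) : (x.1, (aucNext L val x).1) ∈ auction L val := by
  have h := Classical.choose_spec (auction_tail L val x.2)
  have e : (x.1, (aucNext L val x).1) = Classical.choose (auction_tail L val x.2) := by
    apply Prod.ext
    · exact h.2.symm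
    · rfl
  rw [e]
  exact h.1

lemma aucNext_injective : Function.Injective (aucNext L val) := by
  intro x y hxy
  by_contra hne
  have hs : Std.Symm fun e f : γ × γ => e.1 ≠ f.1 ∧ e.2 ≠ f.2 := ⟨fun _ _ h =>
    ⟨h.1.symm, h.2.symm⟩⟩
  have hne' : ((x.1, (aucNext L val x).1) : γ × γ) ≠ (y.1, (aucNext L val y).1) := by
    intro h
    exact hne (Subtype.ext (congrArg Prod.fst h))
  have := (auction_pair L val).forall (aucNext_mem L val x) (aucNext_mem L val y) hne'
  exact this.2 (congrArg Subtype.val hxy)

/-- The assignment as a permutation. -/
noncomputable def aucPerm : Perm {x // x ∈ L} :=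
  Equiv.ofBijective (aucNext L val) (Finite.injective_iff_bijective.mp (aucNext_injective L val))

lemma aucPerm_mem (x : {x // x ∈ L}) : (x.1, (aucPerm L val x).1) ∈ auction L val :=
  aucNext_mem L val x

/-- **The auction is optimal.** -/
theorem aucPerm_optimal (π : Perm {x // x ∈ L}) :
    ∑ x : {x // x ∈ L}, (val x.1 (π x).1).length ≤
      ∑ x : {x // x ∈ L}, (val x.1 (aucPerm L val x).1).length := by
  classical
  obtain ⟨bids, h⟩ := auction_inv L val
  set σ := aucPerm L val
  have h1 : ∀ x : {x // x ∈ L}, (aw L val x.1 (π x).1).length + bids.count (σ x).1 ≤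
      (aw L val x.1 (σ x).1).length + bids.count (π x).1 + 1 := fun x =>
    h.cs _ (aucPerm_mem L val x) _ (π x).2
  have h2 := Finset.sum_le_sum fun x (_ : x ∈ (Finset.univ : Finset {x // x ∈ L})) => h1 x
  simp only [Finset.sum_add_distrib, Finset.sum_const, Finset.card_univ, smul_eq_mul, mul_one] at h2
  have h3 : ∑ x, bids.count (σ x).1 = ∑ x, bids.count (π x).1 :=
    (Equiv.sum_comp σ fun y : {x // x ∈ L} => bids.count y.1).trans
      (Equiv.sum_comp π fun y : {x // x ∈ L} => bids.count y.1).symm
  have h4 : Fintype.card {x // x ∈ L} ≤ L.length := by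
    rw [Fintype.card_of_subtype L.toFinset (by simp)]
    exact List.toFinset_card_le L
  simp only [aw_length, ← Finset.mul_sum] at h2
  by_contra hc
  push Not at hc
  have h5 := Nat.mul_le_mul_left (L.length + 1) (Nat.succ_le_of_lt hc)
  rw [Nat.mul_succ] at h5
  omega

end perm

end spec

end Crest.Agent.SS.Alg
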