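/-
S0432, the two ends of the ALG7 / Lemma T route, independent of the final algorithm.

* Upper end: a chain of strings with declared valid overlaps glues to a string containing all of them, of
  length `∑ |s| - ∑ val`.
* Lower end: a substring-free family inside a word `T'` gives a cyclic order of the family with declared
  valid overlaps such that `∑ |s| ≤ |T'| + ∑ val`.
* `reduce`: passing from any list of strings to the substring-free family.
-/
import Crest.Agent.SS.Cert
import Crest.Agent.SS.Greedy

set_option autoImplicit false

namespace Crest.Agent.SS.Order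

open Crest.Agent.SS

/-- `0` is always a valid overlap. -/
lemma validOv_zero (s t : Str) : ValidOv s t 0 := by
  refine ⟨Nat.zero_le _, Nat.zero_le _, ?_⟩
  simp

/-! ### Gluing -/

/-- The strings after the first one, each without its declared overlap. -/
def glueTail : List (ℕ × Str) → Str
  | [] => []
  | (k, b) :: r => b.drop k ++ glueTail r

/-- A chain starting at `a`, with declared overlaps. -/
def ChainOv : Str → List (ℕ × Str) → Prop
  | _, [] => True
  | a, (k, b) :: r => ValidOv a b k ∧ ChainOv b r

/-- The glued string of a chain. -/
def glue (a : Str) (r : List (ℕ × Str)) : Str := a ++ glueTail r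

/-- Appending the non-overlapping part of `b` to `a`: `a` stays a prefix, and `b` is a suffix. -/
lemma exists_append_drop {a b : Str} {k : ℕ} (h : ValidOv a b k) :
    ∃ u, a ++ b.drop k = u ++ b := by
  refine ⟨a.take (a.length - k), ?_⟩
  obtain ⟨h1, h2, h3⟩ := h
  have e : a = a.take (a.length - k) ++ b.take k := by
    rw [← h3, List.take_append_drop]
  conv_lhs => rw [e]
  rw [List.append_assoc, List.take_append_drop]

theorem glue_contains_head (a : Str) (r : List (ℕ × Str)) : a <:+: glue a r :=
  (List.prefix_append _ _).isInfix

theorem glue_contains {a : Str} {r : List (ℕ × Str)} (h : ChainOv a r) :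
    ∀ p ∈ r, p.2 <:+: glue a r := by
  induction r generalizing a with
  | nil => simp
  | cons q r ih =>
    obtain ⟨k, b⟩ := q
    obtain ⟨h1, h2⟩ := h
    obtain ⟨u, hu⟩ := exists_append_drop h1
    have e : glue a ((k, b) :: r) = u ++ glue b r := by
      simp only [glue, glueTail]
      rw [← List.append_assoc, hu, List.append_assoc]
    intro p hp
    rw [e]
    rcases List.mem_cons.mp hp with rfl | hp
    · exact (glue_contains_head b r).trans (List.suffix_append _ _).isInfix
    · exact (ih h2 p hp).trans (List.suffix_append _ _).isInfix

/-- The length of the glued string. -/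
theorem glue_length {a : Str} {r : List (ℕ × Str)} (h : ChainOv a r) :
    (glue a r).length + (r.map Prod.fst).sum = a.length + (r.map fun p => p.2.length).sum := by
  induction r generalizing a with
  | nil => simp [glue, glueTail]
  | cons q r ih =>
    obtain ⟨k, b⟩ := q
    obtain ⟨h1, h2⟩ := h
    have := ih h2
    simp only [glue, glueTail, List.length_append, List.length_drop, List.map_cons,
      List.sum_cons] at this ⊢
    have h3 := h1.2.1
    omega

/-! ### From a superstring to a cyclic order -/

section order

variable {ι : Type} [Fintype ι] [DecidableEq ι]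

omit [DecidableEq ι] in

/-- A sorted list of all indices, for an injective position function. -/
lemma exists_sorted_list (pos : ι → ℕ) (hinj : Function.Injective pos) :
    ∃ L : List ι, L.Nodup ∧ (∀ i, i ∈ L) ∧ L.Pairwise fun i j => pos i < pos j := by
  classical
  let r : ι → ι → Prop := fun i j => pos i ≤ pos j
  letI : DecidableRel r := fun i j => Nat.decLe _ _
  have : IsTotal ι r := ⟨fun i j => Nat.le_total _ _⟩
  have : IsTrans ι r := ⟨fun i j k => Nat.le_trans⟩
  let L0 : List ι := Finset.univ.toList
  have hp : (L0.insertionSort r).Perm L0 := List.perm_insertionSort r L0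
  have hnd : (L0.insertionSort r).Nodup := hp.nodup_iff.mpr (Finset.nodup_toList _)
  refine ⟨L0.insertionSort r, hnd, fun i => hp.mem_iff.mpr (by simp [L0]), ?_⟩
  have hs : (L0.insertionSort r).Pairwise r := List.pairwise_insertionSort r L0
  have : (L0.insertionSort r).Pairwise (fun i j => r i j ∧ i ≠ j) := by
    rw [List.pairwise_iff_getElem] at hs ⊢
    rw [List.nodup_iff_pairwise_ne, List.pairwise_iff_getElem] at hnd
    intro a b ha hb hab
    exact ⟨hs a b ha hb hab, hnd a b ha hb hab⟩
  refine this.imp ?_
  rintro i j ⟨h1, h2⟩
  exact lt_of_le_of_ne h1 (fun h => h2 (hinj h))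

/-- The declared overlap of an arc in a position layout. -/
def declVal (pos len : ι → ℕ) (next : ι → ι) (z : ι) : ℕ :=
  if pos z < pos (next z) then pos z + len z - pos (next z) else 0

/-- The telescoping sum along a chain of a list. -/
lemma sum_len_le (pos len : ι → ℕ) (next : ι → ι) :
    ∀ (L : List ι) (x : ι), (x :: L).Pairwise (fun i j => pos i < pos j) →
      (∀ k (h : k + 1 < (x :: L).length), next (x :: L)[k] = (x :: L)[k + 1]) →
      ∃ e, e ∈ x :: L ∧ ((x :: L).map len).sum + pos x ≤ pos e + len e +
        ((x :: L).map (declVal pos len next)).sum := by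
  intro L
  induction L with
  | nil =>
    intro x _ _
    exact ⟨x, by simp, by simp; omega⟩
  | cons y L ih =>
    intro x hs hn
    have hs' := List.pairwise_cons.mp hs
    have hxy : pos x < pos y := hs'.1 y (by simp)
    have hnx : next x = y := hn 0 (by simp)
    obtain ⟨e, he, hb⟩ := ih y hs'.2 (fun k h => hn (k + 1) (by simp at h ⊢; omega))
    refine ⟨e, List.mem_cons_of_mem _ he, ?_⟩
    have e1 : ((x :: y :: L).map len).sum = len x + ((y :: L).map len).sum := by simp
    have e2 : ((x :: y :: L).map (declVal pos len next)).sum
        = declVal pos len next x + ((y :: L).map (declVal pos len next)).sum := by simp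
    have hgx : declVal pos len next x = pos x + len x - pos y := by
      unfold declVal
      rw [hnx, if_pos hxy]
    rw [e1, e2, hgx]
    omega

/-- Lower end: a substring-free family inside a word gives a cyclic order with declared overlaps. -/
theorem exists_cyclic_order (s : ι → Str) (hfree : ∀ i j, i ≠ j → ¬ s i <:+: s j) (T' : Str)
    (hT' : ∀ i, s i <:+: T') :
    ∃ (L : List ι) (val : ι → ℕ), L.Nodup ∧ (∀ i, i ∈ L) ∧
      (∀ x, ValidOv (s x) (s (L.formPerm x)) (val x)) ∧
      (∀ x, val x = 0 ∨ (val x < (s x).length ∧ val x < (s (L.formPerm x)).length)) ∧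
      (∀ x₀ ∈ L.getLast?, val x₀ = 0) ∧
      ∑ x, (s x).length ≤ T'.length + ∑ x, val x := by
  classical
  -- positions
  have hpos : ∀ i, ∃ p, SitsAt T' (s i) p := fun i => exists_sitsAt (hT' i)
  choose pos hpos using hpos
  -- ends are in the order of the starts
  have hend : ∀ p q, p ≠ q → pos p ≤ pos q → pos p + (s p).length < pos q + (s q).length := by
    intro p q hne hle
    by_contra hcon
    exact hfree q p hne.symm (infix_of_sitsAt (hpos p) (hpos q) hle (by omega))
  have hinj : Function.Injective pos := by
    intro p q he
    by_contra hne
    have h1 := hend p q hne (by omega)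
    have h2 := hend q p (Ne.symm hne) (by omega)
    omega
  obtain ⟨L, hnd, hall, hsort⟩ := exists_sorted_list pos hinj
  let τ := L.formPerm
  let val : ι → ℕ := fun z => if pos z < pos (τ z) then pos z + (s z).length - pos (τ z) else 0
  refine ⟨L, val, hnd, hall, ?_, ?_, ?_, ?_⟩
  · intro x
    by_cases h : pos x < pos (τ x)
    · have e : val x = pos x + (s x).length - pos (τ x) := if_pos h
      rw [e]
      by_cases h2 : pos (τ x) ≤ pos x + (s x).length
      · have hne : x ≠ τ x := fun he => by rw [← he] at h; omega
        have := hend x (τ x) hne h.le
        exact validOv_of_sitsAt (hpos x) (hpos (τ x)) h.le h2 this.le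
      · have : pos x + (s x).length - pos (τ x) = 0 := by omega
        rw [this]
        exact validOv_zero _ _
    · have e : val x = 0 := if_neg h
      rw [e]
      exact validOv_zero _ _
  · intro x
    by_cases h : pos x < pos (τ x)
    · have e : val x = pos x + (s x).length - pos (τ x) := if_pos h
      by_cases h2 : pos (τ x) ≤ pos x + (s x).length
      · right
        have hne : x ≠ τ x := fun he => by rw [← he] at h; omega
        have := hend x (τ x) hne h.le
        show val x < _ ∧ val x < (s (τ x)).length
        omega
      · left
        omega
    · left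
      exact if_neg h
  · intro x₀ hx₀
    have hx : L.getLast? = some x₀ := by simpa using hx₀
    -- the closing arc goes to a position not larger
    have hne : L ≠ [] := by
      intro h
      simp [h] at hx
    have hlast : x₀ = L.getLast hne := by
      rw [List.getLast?_eq_getLast_of_ne_nil hne] at hx
      exact (Option.some.inj hx).symm
    have hmem : τ x₀ ∈ L := hall _
    -- every element is at most the last one
    have hmax : ∀ z ∈ L, pos z ≤ pos x₀ := by
      intro z hz
      rw [hlast]
      obtain ⟨i, hi, rfl⟩ := List.getElem_of_mem hz
      rw [List.getLast_eq_getElem]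
      by_cases hil : i = L.length - 1
      · subst hil; exact le_rfl
      · rw [List.pairwise_iff_getElem] at hsort
        exact (hsort i (L.length - 1) hi (by omega) (by omega)).le
    have : ¬ pos x₀ < pos (τ x₀) := by
      have := hmax _ hmem
      omega
    exact if_neg this
  · -- summing
    cases hL : L with
    | nil =>
      have : IsEmpty ι := ⟨fun i => by have := hall i; simp [hL] at this⟩
      simp
    | cons x r =>
      have hchain : ∀ k (h : k + 1 < (x :: r).length), τ (x :: r)[k] = (x :: r)[k + 1] := by
        intro k h
        have := List.formPerm_apply_lt_getElem (x :: r) (by rw [← hL]; exact hnd) k h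
        simp only [τ, hL]
        exact this
      obtain ⟨e, _, hb⟩ := sum_len_le pos (fun z => (s z).length) τ r x (by rw [← hL]; exact hsort)
        hchain
      have huniv : (x :: r).toFinset = Finset.univ := by
        ext i
        simp only [List.mem_toFinset, Finset.mem_univ, iff_true]
        rw [← hL]
        exact hall i
      have hnd' : (x :: r).Nodup := by rw [← hL]; exact hnd
      have e1 : ∑ z, (s z).length = ((x :: r).map fun z => (s z).length).sum := by
        rw [← huniv, List.sum_toFinset _ hnd']
      have e2 : ∑ z, val z = ((x :: r).map val).sum := by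
        rw [← huniv, List.sum_toFinset _ hnd']
      rw [e1, e2]
      have h3 := (hpos e).1
      have hb' : ((x :: r).map fun z => (s z).length).sum + pos x ≤ pos e + (s e).length +
          ((x :: r).map val).sum := hb
      omega

end order

/-! ### Reduction to a substring-free family -/

section reduce

variable {β : Type} [DecidableEq β]

lemma reduce_nodup (L : List (List β)) : (reduce L).Nodup :=
  (List.nodup_dedup L).filter _

lemma mem_of_mem_reduce {L : List (List β)} {a : List β} (h : a ∈ reduce L) : a ∈ L := by
  simp only [reduce, List.mem_filter, List.mem_dedup] at h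
  exact h.1

lemma reduce_free {L : List (List β)} {a b : List β} (ha : a ∈ reduce L) (hb : b ∈ reduce L)
    (hne : a ≠ b) : ¬ a <:+: b := by
  intro hab
  simp only [reduce, List.mem_filter, List.mem_dedup, Bool.not_eq_true', List.any_eq_false,
    Bool.and_eq_true, not_and, decide_eq_true_eq] at ha hb
  simp only [decide_eq_false_iff_not] at ha
  exact ha.2 b hb.1 hne hab

end reduce

/-- A family of strings in index form: the reduced family of a list. -/
def rfam (S : List Str) : Fin (reduce S).length → Str := fun i => (reduce S)[i]

lemma rfam_free (S : List Str) (i j : Fin (reduce S).length) (hij : i ≠ j) :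
    ¬ rfam S i <:+: rfam S j := by
  have hinj : rfam S i ≠ rfam S j := by
    intro h
    exact hij (Fin.ext ((reduce_nodup S).getElem_inj_iff.mp h))
  exact reduce_free (List.getElem_mem _) (List.getElem_mem _) hinj

/-- Superstrings of the list contain the reduced family. -/
lemma rfam_contained {S : List Str} {T' : Str} (h : ∀ s ∈ S, s <:+: T')
    (i : Fin (reduce S).length) : rfam S i <:+: T' :=
  h _ (mem_of_mem_reduce (List.getElem_mem _))

/-- Superstrings of the reduced family contain the list. -/
lemma contains_of_rfam {S : List Str} {T : Str} (h : ∀ i, rfam S i <:+: T) :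
    ∀ s ∈ S, s <:+: T := by
  intro s hs
  obtain ⟨t, ht, hst⟩ := reduce_contains hs
  obtain ⟨i, hi, rfl⟩ := List.getElem_of_mem ht
  exact hst.trans (h ⟨i, hi⟩)

end Crest.Agent.SS.Order
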