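/-
S0432: the computed greedy cycle cover `mgreedy` as a permutation: stable, hence optimal among all
permutations with declared proper overlaps, and bounded by every superstring.
-/
import Crest.Agent.SS.AlgIns
import Crest.Agent.SS.Arr
import Crest.Agent.SS.Order

set_option autoImplicit false

namespace Crest.Agent.SS.Alg

open Crest.Agent.SS Equiv

/-- The proper overlap is a valid overlap. -/
lemma validOv_ovLen (x y : Str) : ValidOv x y (ovLen (x, y)) := by
  have h := validOv_ov x.tail y
  exact validOv_of_suffix h (List.tail_suffix x)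

/-- The proper overlap is shorter than the string. -/
lemma ovLen_lt {x y : Str} (hx : x ≠ []) : ovLen (x, y) < x.length := by
  have h := (ovl_suffix x.tail y).length_le
  have h2 : x.tail.length + 1 = x.length := by
    cases x with
    | nil => exact absurd rfl hx
    | cons a r => simp
  simp only [ovLen, ovP]
  omega

/-- Any valid proper overlap is at most the proper overlap. -/
lemma le_ovLen {x y : Str} {k : ℕ} (h : ValidOv x y k) (hk : k < x.length) : k ≤ ovLen (x, y) := by
  have h2 : ValidOv x.tail y k := by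
    obtain ⟨h1, h3, h4⟩ := h
    refine ⟨by simp; omega, h3, ?_⟩
    rw [← h4, List.drop_tail]
    congr 1
    simp only [List.length_tail]
    omega
  exact le_ov_of_validOv h2

/-- Declared overlaps which are proper or zero are bounded by the proper overlap. -/
lemma le_ovLen' {x y : Str} {k : ℕ} (h : ValidOv x y k) (hk : k = 0 ∨ k < x.length) :
    k ≤ ovLen (x, y) := by
  rcases hk with rfl | hk
  · exact Nat.zero_le _
  · exact le_ovLen h hk

/-- The value matrix on the strings of a list. -/
def vM (L : List Str) (x y : {x // x ∈ L}) : ℕ := ovLen (x.1, y.1)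

theorem vM_monge (L : List Str) : MongeMat (vM L) := by
  intro x x' y y' _ _ h1 h2
  simp only [vM] at h1 h2 ⊢
  set B := ovLen (x.1, y.1)
  set u := ovLen (x'.1, y.1)
  set w := ovLen (x.1, y'.1)
  by_cases hc : u + w ≤ B
  · omega
  have hm : ValidOv x'.1 y'.1 (u + w - B) :=
    ValidOv.monge (validOv_ovLen x.1 y.1) (validOv_ovLen x'.1 y.1) (validOv_ovLen x.1 y'.1) h2 h1
  have hx' : x'.1 ≠ [] := by
    intro he
    have : u = 0 := by
      simp only [u, ovLen, ovP, he]
      simp [ovl]
    omega
  have hu : u < x'.1.length := ovLen_lt hx'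
  have := le_ovLen hm (by omega)
  omega

lemma mgreedy_arc (L : List Str) (x : Str) (hx : x ∈ L) :
    (x, nxt (mgreedy L) x) ∈ mgreedy L := by
  obtain ⟨e, he, rfl⟩ := (mgreedy_perfect L).1 x hx
  rw [nxt_eq (mgreedy_pairwise L) he]
  exact he

lemma nxt_mem (L : List Str) (x : Str) (hx : x ∈ L) : nxt (mgreedy L) x ∈ L :=
  (mgreedy_mem (mgreedy_arc L x hx)).2

lemma mgreedy_tail_unique (L : List Str) {e f : Str × Str} (he : e ∈ mgreedy L) (hf : f ∈ mgreedy L)
    (h : e.1 = f.1) : e = f := by
  by_contra hne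
  have hs : Std.Symm fun e f : Str × Str => e.1 ≠ f.1 ∧ e.2 ≠ f.2 := ⟨fun _ _ h =>
    ⟨h.1.symm, h.2.symm⟩⟩
  exact ((mgreedy_pairwise L).forall he hf hne).1 h

lemma mgreedy_head_unique (L : List Str) {e f : Str × Str} (he : e ∈ mgreedy L) (hf : f ∈ mgreedy L)
    (h : e.2 = f.2) : e = f := by
  by_contra hne
  have hs : Std.Symm fun e f : Str × Str => e.1 ≠ f.1 ∧ e.2 ≠ f.2 := ⟨fun _ _ h =>
    ⟨h.1.symm, h.2.symm⟩⟩
  exact ((mgreedy_pairwise L).forall he hf hne).2 h

/-- `nxt` is injective on `L`. -/
lemma nxt_inj (L : List Str) {x y : Str} (hx : x ∈ L) (hy : y ∈ L)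
    (h : nxt (mgreedy L) x = nxt (mgreedy L) y) : x = y := by
  have := mgreedy_head_unique L (mgreedy_arc L x hx) (mgreedy_arc L y hy) h
  exact congrArg Prod.fst this

/-- The map on the subtype. -/
def mgNext (L : List Str) (x : {x // x ∈ L}) : {x // x ∈ L} :=
  ⟨nxt (mgreedy L) x.1, nxt_mem L x.1 x.2⟩

lemma mgNext_injective (L : List Str) : Function.Injective (mgNext L) := by
  intro x y h
  exact Subtype.ext (nxt_inj L x.2 y.2 (congrArg Subtype.val h))

/-- The cover as a permutation of the strings of `L`. -/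
noncomputable def mgPerm (L : List Str) : Perm {x // x ∈ L} :=
  Equiv.ofBijective (mgNext L) (Finite.injective_iff_bijective.mp (mgNext_injective L))

@[simp] lemma mgPerm_val (L : List Str) (x : {x // x ∈ L}) :
    (mgPerm L x).1 = nxt (mgreedy L) x.1 := rfl

lemma mgPerm_mem (L : List Str) (x : {x // x ∈ L}) : (x.1, (mgPerm L x).1) ∈ mgreedy L :=
  mgreedy_arc L x.1 x.2

theorem mgPerm_stable (L : List Str) : StablePerm (vM L) (mgPerm L) := by
  intro x y
  obtain ⟨e, he, h1, h2⟩ := mgreedy_stable x.2 y.2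
  rcases h1 with h1 | h1
  · have : e = (x.1, (mgPerm L x).1) := mgreedy_tail_unique L he (mgPerm_mem L x) h1
    rw [this] at h2
    exact le_max_of_le_left h2
  · have h3 := mgPerm_mem L ((mgPerm L).symm y)
    simp only [Equiv.apply_symm_apply] at h3
    have : e = (((mgPerm L).symm y).1, y.1) := mgreedy_head_unique L he h3 h1
    rw [this] at h2
    exact le_max_of_le_right h2

/-- The cover is optimal. -/
theorem mgPerm_optimal (L : List Str) (π : Perm {x // x ∈ L}) :
    ∑ x, vM L x (π x) ≤ ∑ x, vM L x (mgPerm L x) :=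
  (mgPerm_stable L).optimal (vM_monge L) π

/-- The cover is optimal among all permutations with declared overlaps, proper or zero. -/
theorem mgPerm_optimal_declared (L : List Str) (π : Perm {x // x ∈ L}) (val : {x // x ∈ L} → ℕ)
    (h1 : ∀ x, ValidOv x.1 (π x).1 (val x)) (h2 : ∀ x, val x = 0 ∨ val x < x.1.length) :
    ∑ x, val x ≤ ∑ x, vM L x (mgPerm L x) :=
  (Finset.sum_le_sum fun x _ => le_ovLen' (h1 x) (h2 x)).trans (mgPerm_optimal L π)

/-- Every superstring of a substring-free family is at least the cost of the cover. -/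
theorem cover_le_superstring {L : List Str} (hfree : ∀ a ∈ L, ∀ b ∈ L, a ≠ b → ¬ a <:+: b) {T : Str}
    (hT : ∀ s ∈ L, s <:+: T) :
    ∑ x : {x // x ∈ L}, x.1.length ≤ T.length + ∑ x, vM L x (mgPerm L x) := by
  classical
  obtain ⟨O, val, _, _, h1, h2, _, h3⟩ := Order.exists_cyclic_order
    (fun x : {x // x ∈ L} => x.1)
    (fun i j hij => hfree i.1 i.2 j.1 j.2 (fun h => hij (Subtype.ext h))) T (fun i => hT i.1 i.2)
  have h4 := mgPerm_optimal_declared L O.formPerm val h1
    (fun x => (h2 x).imp id fun h => h.1)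
  omega

end Crest.Agent.SS.Alg
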