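/-
S0432: periods and phases of hulls.  A hull is the chain of a ring opened at an arc.  The closure of the
two arcs at a removed hull and the two host overlaps at a gap, all by index computations; the chain
gluing (length, prefix, suffix), and the period of the hull of a closed walk.
-/
import Crest.Agent.SS.MgPerm

set_option autoImplicit false

namespace Crest.Agent.SS.Alg

open Crest.Agent.SS

/-- Shifts by multiples of a period. -/
lemma hasPeriod_mul {H : Str} {p : ℕ} (hp : H.HasPeriod p) (k i : ℕ) (h : i + k * p < H.length) :
    H[i]? = H[i + k * p]? := by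
  induction k with
  | zero => simp
  | succ k ih =>
    have e : i + (k + 1) * p = i + k * p + p := by ring
    rw [e] at h ⊢
    rw [ih (by omega)]
    exact (List.hasPeriod_iff_getElem?.mp hp) _ (by omega)

/-- A border gives a period. -/
lemma hasPeriod_of_validOv {H : Str} {b : ℕ} (h : ValidOv H H b) : H.HasPeriod (H.length - b) := by
  rw [List.hasPeriod_iff_getElem?]
  intro i hi
  have h1 := h.1
  have e : i + (H.length - b) = H.length - b + i := by omega
  rw [e, h.get (i := i) (by omega)]

/-- **Closure**, the smaller arc on the left: `F ≤ E`. -/
theorem closure_left {P H Y : Str} {F E p : ℕ} (hP : ValidOv P H F) (hY : ValidOv H Y E)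
    (hper : H.HasPeriod p) (hFE : F ≤ E) : ValidOv P Y (F - (H.length - E) % p) := by
  rw [validOv_iff]
  have h1 := hP.1
  have h2 := hY.1
  have h3 := hY.2.1
  refine ⟨by omega, by omega, fun i hi => ?_⟩
  set δ := (H.length - E) % p with hδ
  have hdm : δ + (H.length - E) / p * p = H.length - E := by
    rw [hδ]
    exact Nat.mod_add_div' _ _
  have e1 : P.length - (F - δ) + i = P.length - F + (δ + i) := by omega
  rw [e1, hP.get (i := δ + i) (by omega), ← hY.get (i := i) (by omega)]
  have e2 : H.length - E + i = δ + i + (H.length - E) / p * p := by omega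
  rw [e2]
  exact hasPeriod_mul hper _ _ (by omega)

/-- **Closure**, the smaller arc on the right: `E ≤ F`. -/
theorem closure_right {P H Y : Str} {F E p : ℕ} (hP : ValidOv P H F) (hY : ValidOv H Y E)
    (hper : H.HasPeriod p) (hEF : E ≤ F) : ValidOv P Y (E - (H.length - F) % p) := by
  rw [validOv_iff]
  have h1 := hP.1
  have h4 := hP.2.1
  have h2 := hY.1
  have h3 := hY.2.1
  refine ⟨by omega, by omega, fun i hi => ?_⟩
  set δ := (H.length - F) % p with hδ
  have hdm : δ + (H.length - F) / p * p = H.length - F := by
    rw [hδ]
    exact Nat.mod_add_div' _ _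
  have e1 : P.length - (E - δ) + i = P.length - F + (F - (E - δ) + i) := by omega
  rw [e1, hP.get (i := F - (E - δ) + i) (by omega), ← hY.get (i := i) (by omega)]
  have e2 : H.length - E + i = F - (E - δ) + i + (H.length - F) / p * p := by omega
  rw [e2]
  exact hasPeriod_mul hper _ _ (by omega)

/-- **Host on the left of the anchor**: `z → Y` of value `B`, `H → Y` of value `E ≥ B`; with
`|H| - E + r` a multiple of the period, `z → H` has the value `B - r`. -/
theorem host_left {z H Y : Str} {B E p r k : ℕ} (hz : ValidOv z Y B) (hY : ValidOv H Y E)
    (hper : H.HasPeriod p) (hBE : B ≤ E) (hr : H.length - E + r = k * p) : ValidOv z H (B - r) := by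
  rw [validOv_iff]
  have h1 := hz.1
  have h2 := hY.1
  refine ⟨by omega, by omega, fun i hi => ?_⟩
  have e1 : z.length - (B - r) + i = z.length - B + (r + i) := by omega
  rw [e1, hz.get (i := r + i) (by omega), ← hY.get (i := r + i) (by omega)]
  have e2 : H.length - E + (r + i) = i + k * p := by omega
  rw [e2]
  exact (hasPeriod_mul hper _ _ (by omega)).symm

/-- **Host on the right of the anchor**: `z → n` of value `B`, `z → H` of value `F ≥ B`; with
`|H| - F + r` a multiple of the period, `H → n` has the value `B - r`. -/
theorem host_right {z H n : Str} {B F p r k : ℕ} (hn : ValidOv z n B) (hz : ValidOv z H F)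
    (hper : H.HasPeriod p) (hBF : B ≤ F) (hr : H.length - F + r = k * p) : ValidOv H n (B - r) := by
  rw [validOv_iff]
  have h1 := hn.1
  have h3 := hn.2.1
  have h2 := hz.2.1
  have h4 := hz.1
  refine ⟨by omega, by omega, fun i hi => ?_⟩
  rw [← hn.get (i := i) (by omega)]
  have e1 : z.length - B + i = z.length - F + (F - B + i) := by omega
  rw [e1, hz.get (i := F - B + i) (by omega)]
  have e2 : H.length - (B - r) + i = F - B + i + k * p := by omega
  rw [e2]
  exact (hasPeriod_mul hper _ _ (by omega)).symm

/-! ### The chain gluing -/

lemma chainFrom_length (p : Str) (r : List Str) :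
    (chainFrom p r).length + arrVal (p :: r) = totLen r := by
  induction r generalizing p with
  | nil => simp [chainFrom, arrVal, totLen]
  | cons b r ih =>
    have := ih b
    have h1 : ov p b ≤ b.length := (ovl_prefix p b).length_le
    simp only [chainFrom, arrVal, totLen, List.map_cons, List.sum_cons, List.length_append,
      List.length_drop] at this ⊢
    have e : (ovl p b).length = ov p b := rfl
    rw [e]
    omega

/-- The length of the chain. -/
theorem chain_length (L : List Str) : (chain L).length + arrVal L = totLen L := by
  cases L with
  | nil => simp [chain, arrVal, totLen]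
  | cons x r =>
    have := chainFrom_length x r
    simp only [chain, List.length_append, totLen, List.map_cons, List.sum_cons] at this ⊢
    omega

lemma prefix_chain (x : Str) (r : List Str) : x <+: chain (x :: r) := List.prefix_append _ _

lemma suffix_chainFrom (p : Str) (r : List Str) (h : r ≠ []) :
    (r.getLast h) <:+ p ++ chainFrom p r := by
  induction r generalizing p with
  | nil => exact absurd rfl h
  | cons b r ih =>
    obtain ⟨u, hu⟩ := exists_append_drop_ovl p b
    have e : p ++ chainFrom p (b :: r) = u ++ (b ++ chainFrom b r) := by
      simp only [chainFrom]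
      rw [← List.append_assoc, hu, List.append_assoc]
    rw [e]
    by_cases hr : r = []
    · subst hr
      simp only [List.getLast_singleton, chainFrom, List.append_nil]
      exact List.suffix_append _ _
    · rw [List.getLast_cons hr]
      exact (ih b hr).trans (List.suffix_append _ _)

lemma suffix_chain (x : Str) (r : List Str) : ((x :: r).getLast (by simp)) <:+ chain (x :: r) := by
  by_cases hr : r = []
  · subst hr
    simp [chain, chainFrom]
  · rw [List.getLast_cons hr]
    exact suffix_chainFrom x r hr

/-- The hull of a closed walk has as a period its length minus the closing overlap. -/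
theorem chain_hasPeriod {x : Str} {r : List Str} {Ω : ℕ}
    (hΩ : ValidOv ((x :: r).getLast (by simp)) x Ω) :
    (chain (x :: r)).HasPeriod ((chain (x :: r)).length - Ω) := by
  apply hasPeriod_of_validOv
  set H := chain (x :: r)
  obtain ⟨u, hu⟩ := prefix_chain x r
  obtain ⟨v, hv⟩ := suffix_chain x r
  set l := (x :: r).getLast (by simp)
  have hHx : H = x ++ u := hu.symm
  have hHl : H = v ++ l := hv.symm
  rw [validOv_iff] at hΩ ⊢
  obtain ⟨h1, h2, h3⟩ := hΩ
  have hlen1 : H.length = x.length + u.length := by rw [hHx]; simp
  have hlen2 : H.length = v.length + l.length := by rw [hHl]; simp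
  refine ⟨by omega, by omega, fun i hi => ?_⟩
  have e1 : H[H.length - Ω + i]? = l[l.length - Ω + i]? := by
    have hk : v.length ≤ H.length - Ω + i := by omega
    have h5 := List.getElem?_append_right (l₁ := v) (l₂ := l) hk
    rw [← hHl] at h5
    rw [h5]
    congr 1
    omega
  have e2 : H[i]? = x[i]? := by
    have h5 := List.getElem?_append_left (l₁ := x) (l₂ := u) (i := i) (by omega)
    rw [← hHx] at h5
    exact h5
  rw [e1, e2, h3 i hi]

end Crest.Agent.SS.Alg
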