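/-
S0432: two different cycles of the greedy cover never lie on a common line.  Hence the overlap of a string
of one cycle with a string of another one is less than the sum of their periods (Fine and Wilf).
-/
import Crest.Agent.SS.Hull

set_option autoImplicit false

namespace Crest.Agent.SS.Alg

open Crest.Agent.SS

/-- Two words of period `g` agreeing on a stretch of length `g` agree wherever both are defined. -/
lemma agree_extend {a b : Str} {g α β w : ℕ} (ha : a.HasPeriod g) (hb : b.HasPeriod g) (hg : 0 < g)
    (hgw : g ≤ w) (hα : α + w ≤ a.length) (hβ : β + w ≤ b.length)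
    (h : ∀ j, j < w → a[α + j]? = b[β + j]?) :
    ∀ u v, u + β = v + α → u < a.length → v < b.length → a[u]? = b[v]? := by
  have ha' := List.hasPeriod_iff_getElem?.mp ha
  have hb' := List.hasPeriod_iff_getElem?.mp hb
  -- forward
  have hf : ∀ u v, u + β = v + α → α ≤ u → u < a.length → v < b.length → a[u]? = b[v]? := by
    intro u
    induction u using Nat.strong_induction_on with
    | _ u ih =>
      intro v huv hαu hu hv
      by_cases hc : u < α + w
      · have e1 : u = α + (u - α) := by omega
        have e2 : v = β + (u - α) := by omega
        rw [e1, e2]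
        exact h (u - α) (by omega)
      · have h1 := ih (u - g) (by omega) (v - g) (by omega) (by omega) (by omega) (by omega)
        have h2 := ha' (u - g) (by omega)
        have h3 := hb' (v - g) (by omega)
        have e1 : u - g + g = u := by omega
        have e2 : v - g + g = v := by omega
        rw [e1] at h2
        rw [e2] at h3
        rw [← h2, ← h3, h1]
  -- backward
  have hback : ∀ n u v, α = u + n → u + β = v + α → u < a.length → v < b.length →
      a[u]? = b[v]? := by
    intro n
    induction n using Nat.strong_induction_on with
    | _ n ih =>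
      intro u v hn huv hu hv
      by_cases hn0 : n = 0
      · exact hf u v huv (by omega) hu hv
      · have hh : a[u + g]? = b[v + g]? := by
          by_cases hc : α ≤ u + g
          · exact hf (u + g) (v + g) (by omega) hc (by omega) (by omega)
          · exact ih (n - g) (by omega) (u + g) (v + g) (by omega) (by omega) (by omega) (by omega)
        have h2 := ha' u (by omega)
        have h3 := hb' v (by omega)
        rw [h2, h3, hh]
  intro u v huv hu hv
  by_cases hc : α ≤ u
  · exact hf u v huv hc hu hv
  · exact hback (α - u) u v (by omega) huv hu hv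

/-- A word sitting at an offset of another one is a factor. -/
lemma infix_of_getElem {u y : Str} {s : ℕ} (h1 : s + y.length ≤ u.length)
    (h2 : ∀ i, i < y.length → u[s + i]? = y[i]?) : y <:+: u := by
  have hu : SitsAt u u 0 := ⟨by simp, fun i _ => by simp⟩
  have hy : SitsAt u y s := ⟨h1, h2⟩
  exact infix_of_sitsAt hu hy (Nat.zero_le _) (by omega)

/-- **Two cycles do not lie on a common line.**  `C` closed under the successor, `C'` under the
predecessor, disjoint, all of period `g`: no overlap of length at least `g` from `C` to `C'`. -/
theorem no_common_period {L : List Str} (hfree : ∀ a ∈ L, ∀ b ∈ L, a ≠ b → ¬ a <:+: b)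
    {C C' : Str → Prop} (hC : ∀ x, C x → x ∈ L ∧ C (nxt (mgreedy L) x))
    (hC' : ∀ y, C' y → y ∈ L ∧ C' (prv (mgreedy L) y)) (hdisj : ∀ z, C z → ¬ C' z) {g : ℕ}
    (hg : 0 < g) (hper : ∀ z, C z ∨ C' z → z.HasPeriod g) :
    ∀ (n : ℕ) (x y : Str) (w : ℕ), C x → C' y → ValidOv x y w → g ≤ w → y.length - w = n → False := by
  have key : ∀ (n : ℕ) (x y : Str) (w : ℕ), C x → C' y → ValidOv x y w → g ≤ w →
      (totLen L - w = n) → False := by
    intro n
    induction n using Nat.strong_induction_on with
    | _ n ih =>
      intro x y w hx hy hv hgw hn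
      have hxL := (hC x hx).1
      have hyL := (hC' y hy).1
      have hne : x ≠ y := fun h => hdisj x hx (h ▸ hy)
      have hw1 := hv.1
      have hw2 := hv.2.1
      -- proper
      have hwx : w < x.length := by
        by_contra hc
        have hw : w = x.length := by omega
        apply hfree x hxL y hyL hne
        have := hv.2.2
        rw [hw, Nat.sub_self, List.drop_zero] at this
        rw [this]
        exact (List.take_prefix _ _).isInfix
      have hwy : w < y.length := by
        by_contra hc
        have hw : w = y.length := by omega
        apply hfree y hyL x hxL hne.symm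
        have := hv.2.2
        rw [hw, List.take_length] at this
        rw [← this]
        exact (List.drop_suffix _ _).isInfix
      have hyt : y.length ≤ totLen L := by
        unfold totLen
        exact List.single_le_sum (by simp) _ (List.mem_map.mpr ⟨y, hyL, rfl⟩)
      have hle := le_ovLen hv hwx
      obtain ⟨e, he, h1, h2⟩ := mgreedy_stable hxL hyL
      rcases h1 with h1 | h1
      · -- the arc out of `x`
        set u := nxt (mgreedy L) x with hu
        have heu : e = (x, u) := by
          have := mgreedy_arc L x hxL
          exact mgreedy_tail_unique L he this h1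
        rw [heu] at h2
        have hCu := (hC x hx).2
        have huL := (hC u hCu).1
        have hneu : u ≠ y := fun h => hdisj u hCu (h ▸ hy)
        set Ω := ovLen (x, u) with hΩ
        have hvu : ValidOv x u Ω := validOv_ovLen x u
        have hΩw : w ≤ Ω := hle.trans h2
        have hΩu := hvu.2.1
        have hΩx := hvu.1
        -- `Ω` is proper for `u`
        have hΩu' : Ω < u.length := by
          by_contra hc
          have hΩe : Ω = u.length := by omega
          by_cases hxu : x = u
          · have hx0 : x ≠ [] := by
              intro h0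
              rw [h0] at hwx
              simp at hwx
            have := ovLen_lt (y := u) hx0
            rw [← hxu] at hc
            omega
          · apply hfree u huL x hxL (Ne.symm hxu)
            have := hvu.2.2
            rw [hΩe, List.take_length] at this
            rw [← this]
            exact (List.drop_suffix _ _).isInfix
        have hstretch : ∀ j, j < w → u[Ω - w + j]? = y[0 + j]? := by
          intro j hj
          have h3 := hvu.get (i := Ω - w + j) (by omega)
          have h4 := hv.get (i := j) hj
          rw [← h3, Nat.zero_add, ← h4]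
          congr 1
          omega
        have hagree := agree_extend (hper u (Or.inl hCu)) (hper y (Or.inr hy)) hg hgw
          (by omega) (by omega) hstretch
        -- `y` does not fit inside `u`
        have hfit : u.length - (Ω - w) ≤ y.length := by
          by_contra hc
          apply hfree y hyL u huL hneu.symm
          refine infix_of_getElem (s := Ω - w) (by omega) fun i hi => ?_
          exact hagree _ _ (by omega) (by omega) hi
        have hnew : ValidOv u y (u.length - (Ω - w)) := by
          rw [validOv_iff]
          refine ⟨by omega, hfit, fun i hi => ?_⟩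
          exact hagree _ _ (by omega) (by omega) (by omega)
        have hlt : w < u.length - (Ω - w) := by omega
        have huyt : u.length - (Ω - w) ≤ totLen L := hfit.trans hyt
        exact ih (totLen L - (u.length - (Ω - w))) (by omega) u y _ hCu hy hnew (by omega) rfl
      · -- the arc into `y`
        set v := prv (mgreedy L) y with hv'
        have hev : e = (v, y) := by
          obtain ⟨f, hf, hfy⟩ := (mgreedy_perfect L).2 y hyL
          have h3 := prv_eq (mgreedy_pairwise L) hf
          rw [hfy] at h3
          have hf' : f = (v, y) := by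
            apply Prod.ext
            · exact h3.symm
            · exact hfy
          rw [← hf']
          exact mgreedy_head_unique L he hf (h1.trans hfy.symm)
        rw [hev] at h2
        have hCv := (hC' y hy).2
        have hvL := (hC' v hCv).1
        have hnev : x ≠ v := fun h => hdisj x hx (h ▸ hCv)
        set Ω := ovLen (v, y) with hΩ
        have hvv : ValidOv v y Ω := validOv_ovLen v y
        have hΩw : w ≤ Ω := hle.trans h2
        have hΩv := hvv.1
        have hΩy := hvv.2.1
        have hv0 : v ≠ [] := by
          intro h0
          have : Ω = 0 := by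
            simp only [hΩ, ovLen, ovP, h0]
            simp [ovl]
          have h5 : 0 < w := by omega
          omega
        have hΩv' : Ω < v.length := ovLen_lt hv0
        have hstretch : ∀ j, j < w → x[x.length - w + j]? = v[v.length - Ω + j]? := by
          intro j hj
          have h3 := hvv.get (i := j) (by omega)
          have h4 := hv.get (i := j) hj
          rw [h3, h4]
        have hagree := agree_extend (hper x (Or.inl hx)) (hper v (Or.inr hCv)) hg hgw
          (by omega) (by omega) hstretch
        -- `x` does not fit inside `v`
        have hfit : v.length - Ω ≤ x.length - w := by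
          by_contra hc
          apply hfree x hxL v hvL hnev
          refine infix_of_getElem (s := v.length - Ω - (x.length - w)) (by omega) fun i hi => ?_
          exact (hagree _ _ (by omega) hi (by omega)).symm
        have hnew : ValidOv x v (w + (v.length - Ω)) := by
          rw [validOv_iff]
          refine ⟨by omega, by omega, fun i hi => ?_⟩
          exact hagree _ _ (by omega) (by omega) (by omega)
        have hlt : w < w + (v.length - Ω) := by omega
        have hvt : v.length ≤ totLen L := by
          unfold totLen
          exact List.single_le_sum (by simp) _ (List.mem_map.mpr ⟨v, hvL, rfl⟩)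
        exact ih (totLen L - (w + (v.length - Ω))) (by omega) x v _ hx hCv hnew (by omega) rfl
  intro n x y w hx hy hv hgw _
  exact key _ x y w hx hy hv hgw rfl

/-- Indices congruent modulo `g` inside a stretch of period `g`. -/
lemma stretch_congr {w : Str} {g o l : ℕ} (hu : ∀ i, o ≤ i → i + g < o + l → w[i]? = w[i + g]?)
    (k a : ℕ) (ha : o ≤ a) (hb : a + k * g < o + l) : w[a]? = w[a + k * g]? := by
  induction k with
  | zero => simp
  | succ k ih =>
    have e : a + (k + 1) * g = a + k * g + g := by ring
    rw [e] at hb ⊢
    rw [ih (by omega)]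
    exact hu _ (by omega) hb

/-- A word of period `p` containing a factor of length at least `p` of period `g ∣ p` has period `g`. -/
lemma period_of_factor {H W : Str} {p g : ℕ} (hH : H.HasPeriod p) (hp : 0 < p) (hW : W <:+: H)
    (hlen : p ≤ W.length) (hWg : W.HasPeriod g) (hgp : g ∣ p) : H.HasPeriod g := by
  obtain ⟨o, hs⟩ := exists_sitsAt hW
  have hs1 := hs.1
  have hs2 := hs.2
  have hu : ∀ i, o ≤ i → i + g < o + W.length → H[i]? = H[i + g]? := by
    intro i h1 h2
    have h3 := (List.hasPeriod_iff_getElem?.mp hWg) (i - o) (by omega)
    have e1 := hs2 (i - o) (by omega)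
    have e2 := hs2 (i - o + g) (by omega)
    have e3 : o + (i - o) = i := by omega
    have e4 : o + (i - o + g) = i + g := by omega
    rw [e3] at e1
    rw [e4] at e2
    rw [e1, e2, h3]
  -- congruent indices modulo p
  have hmod : ∀ a b, a < H.length → b < H.length → a % p = b % p → H[a]? = H[b]? := by
    intro a b ha hb hab
    rw [← hH.getElem?_mod p a H ha, ← hH.getElem?_mod p b H hb, hab]
  rw [List.hasPeriod_iff_getElem?]
  intro i hi
  have hgpos : 0 < g := Nat.pos_of_dvd_of_pos hgp hp
  -- representatives in the stretch
  set a := o + (i + p * o - o) % p with ha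
  set b := o + (i + g + p * o - o) % p with hb
  have h1 : (i + p * o - o) % p < p := Nat.mod_lt _ hp
  have h2 : (i + g + p * o - o) % p < p := Nat.mod_lt _ hp
  have hpo : o ≤ p * o := Nat.le_mul_of_pos_left _ hp
  have hamod : a % p = i % p := by
    rw [ha]
    have e0 : i + p * o = (i + p * o - o) + o := by omega
    calc (o + (i + p * o - o) % p) % p = (o + (i + p * o - o)) % p := by
          rw [Nat.add_mod, Nat.mod_mod, ← Nat.add_mod]
      _ = (i + p * o) % p := by rw [e0]; congr 1; omega
      _ = i % p := Nat.add_mul_mod_self_left _ _ _
  have hbmod : b % p = (i + g) % p := by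
    rw [hb]
    have e0 : i + g + p * o = (i + g + p * o - o) + o := by omega
    calc (o + (i + g + p * o - o) % p) % p = (o + (i + g + p * o - o)) % p := by
          rw [Nat.add_mod, Nat.mod_mod, ← Nat.add_mod]
      _ = (i + g + p * o) % p := by rw [e0]; congr 1; omega
      _ = (i + g) % p := Nat.add_mul_mod_self_left _ _ _
  have hai : H[i]? = H[a]? := hmod _ _ (by omega) (by omega) hamod.symm
  have hbi : H[i + g]? = H[b]? := hmod _ _ (by omega) (by omega) hbmod.symm
  rw [hai, hbi]
  -- `a` and `b` are congruent modulo `g`
  have hab : a % g = b % g := by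
    have e1 : a % g = (a % p) % g := (Nat.mod_mod_of_dvd a hgp).symm
    have e2 : b % g = (b % p) % g := (Nat.mod_mod_of_dvd b hgp).symm
    rw [e1, e2, hamod, hbmod, Nat.mod_mod_of_dvd _ hgp, Nat.mod_mod_of_dvd _ hgp,
      Nat.add_mod_right]
  have hsc := stretch_congr hu
  rcases le_total a b with hle | hle
  · obtain ⟨k, hk⟩ : g ∣ b - a := (Nat.modEq_iff_dvd' hle).mp hab
    have e : b = a + k * g := by
      rw [Nat.mul_comm] at hk
      omega
    rw [e]
    exact hsc k a (by omega) (by omega)
  · obtain ⟨k, hk⟩ : g ∣ a - b := (Nat.modEq_iff_dvd' hle).mp hab.symm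
    have e : a = b + k * g := by
      rw [Nat.mul_comm] at hk
      omega
    rw [e]
    exact (hsc k b (by omega) (by omega)).symm

/-- The cost of a cycle. -/
def ringCost (L : List Str) (c : List Str) : ℕ :=
  (c.map fun a => a.length - ovLen (a, nxt (mgreedy L) a)).sum

section cycle

variable {L : List Str} (hfree : ∀ a ∈ L, ∀ b ∈ L, a ≠ b → ¬ a <:+: b)

include hfree

lemma ov_eq_ovLen {a b : Str} (ha : a ∈ L) (hb : b ∈ L) (hab : a ≠ b) : ov a b = ovLen (a, b) := by
  have : ¬ a <+: b := fun h => hfree a ha b hb hab h.isInfix
  cases a with
  | nil => simp at this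
  | cons x r =>
    simp only [ov, ovLen, ovP, List.tail_cons, ovl]
    rw [if_neg this]

/-- The sum of the overlaps along a walk. -/
lemma walk_sum {x : Str} {r : List Str} (hmem : ∀ a ∈ x :: r, a ∈ L) (hnd : (x :: r).Nodup)
    (hch : List.IsChain (fun a b => nxt (mgreedy L) a = b) (x :: r)) :
    arrVal (x :: r) + ovLen ((x :: r).getLast (by simp),
        nxt (mgreedy L) ((x :: r).getLast (by simp))) =
      ((x :: r).map fun a => ovLen (a, nxt (mgreedy L) a)).sum := by
  induction r generalizing x with
  | nil => simp [arrVal]
  | cons y r ih =>
    simp only [List.isChain_cons_cons] at hch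
    have hne : x ≠ y := by
      rw [List.nodup_cons] at hnd
      intro h
      exact hnd.1 (by simp [h])
    have h1 := ih (fun a ha => hmem a (List.mem_cons_of_mem _ ha)) (List.nodup_cons.mp hnd).2 hch.2
    have e := ov_eq_ovLen hfree (hmem x (by simp)) (hmem y (by simp)) hne
    simp only [arrVal, List.map_cons, List.sum_cons, List.getLast_cons_cons] at h1 ⊢
    rw [e, ← h1, hch.1]
    ring

/-- All strings of a cycle have its cost as a period, through the hull. -/
theorem hull_period {x : Str} (hx : x ∈ L) :
    (chain (orbit (nxt (mgreedy L)) L x)).HasPeriod (ringCost L (orbit (nxt (mgreedy L)) L x)) := by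
  have hm : ∀ a ∈ L, nxt (mgreedy L) a ∈ L := fun a ha => nxt_mem L a ha
  have hi : ∀ a ∈ L, ∀ b ∈ L, nxt (mgreedy L) a = nxt (mgreedy L) b → a = b :=
    fun a ha b hb h => nxt_inj L ha hb h
  obtain ⟨r, hr, hch, hlast⟩ := orbit_walk (clock := L) hm hi hx le_rfl
  have hnd := orbit_nodup (clock := L) hm hi hx le_rfl
  have hmem : ∀ a ∈ x :: r, a ∈ L := fun a ha =>
    orbit_subset (clock := L) hm hi hx le_rfl (hr ▸ ha)
  rw [hr] at hnd ⊢
  have hsum := walk_sum hfree hmem hnd hch
  rw [hlast] at hsum
  have hper := chain_hasPeriod (x := x) (r := r)
    (Ω := ovLen ((x :: r).getLast (by simp), x)) (validOv_ovLen _ _)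
  have hlen := chain_length (x :: r)
  convert hper using 1
  unfold ringCost
  have hle : ∀ a ∈ x :: r, ovLen (a, nxt (mgreedy L) a) ≤ a.length := fun a _ => by
    have := (ovl_suffix a.tail (nxt (mgreedy L) a)).length_le
    simp only [ovLen, ovP]
    simp only [List.length_tail] at this
    omega
  have hs : ((x :: r).map fun a => a.length - ovLen (a, nxt (mgreedy L) a)).sum +
      ((x :: r).map fun a => ovLen (a, nxt (mgreedy L) a)).sum = totLen (x :: r) := by
    unfold totLen
    generalize x :: r = c at hle
    induction c with
    | nil => simp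
    | cons a c ih =>
      have h1 := hle a (by simp)
      have h2 := ih (fun b hb => hle b (List.mem_cons_of_mem _ hb))
      simp only [List.map_cons, List.sum_cons] at h2 ⊢
      omega
  omega

/-- All strings of a cycle have its cost as a period. -/
theorem cycle_period {x z : Str} (hx : x ∈ L) (hz : z ∈ orbit (nxt (mgreedy L)) L x) :
    z.HasPeriod (ringCost L (orbit (nxt (mgreedy L)) L x)) :=
  (hull_period hfree hx).infix (infix_chain hz)

end cycle

/-- **Overlaps of different cycles.**  The overlap of a string of one cycle with a string of another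
one is less than the sum of the costs of the cycles. -/
theorem ovLen_lt_cost {L : List Str} (hfree : ∀ a ∈ L, ∀ b ∈ L, a ≠ b → ¬ a <:+: b) {x y : Str}
    (hx : x ∈ L) (hy : y ∈ L) (hxy : y ∉ orbit (nxt (mgreedy L)) L x) :
    ovLen (x, y) < ringCost L (orbit (nxt (mgreedy L)) L x) +
      ringCost L (orbit (nxt (mgreedy L)) L y) := by
  have hm : ∀ a ∈ L, nxt (mgreedy L) a ∈ L := fun a ha => nxt_mem L a ha
  have hi : ∀ a ∈ L, ∀ b ∈ L, nxt (mgreedy L) a = nxt (mgreedy L) b → a = b :=
    fun a ha b hb h => nxt_inj L ha hb h
  set c := orbit (nxt (mgreedy L)) L x with hc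
  set c' := orbit (nxt (mgreedy L)) L y with hc'
  set p := ringCost L c with hp
  set q := ringCost L c' with hq
  by_contra hcon
  push Not at hcon
  have hne : x ≠ y := by
    rintro rfl
    exact hxy (self_mem_orbit hm hi hx le_rfl)
  have hnonempty : ∀ a ∈ L, a ≠ [] := by
    intro a ha h0
    by_cases hax : a = x
    · exact hfree a ha y hy (by rw [hax]; exact hne) (by simp [h0])
    · exact hfree a ha x hx hax (by simp [h0])
  have hpos : ∀ z ∈ L, 0 < ringCost L (orbit (nxt (mgreedy L)) L z) := by
    intro z hz
    obtain ⟨r, hr, -, -⟩ := orbit_walk (clock := L) hm hi hz le_rfl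
    rw [hr]
    unfold ringCost
    simp only [List.map_cons, List.sum_cons]
    have := ovLen_lt (y := nxt (mgreedy L) z) (hnonempty z hz)
    omega
  have hp0 : 0 < p := hpos x hx
  have hq0 : 0 < q := hpos y hy
  set w := ovLen (x, y) with hw
  have hval : ValidOv x y w := validOv_ovLen x y
  -- the common factor
  set W := x.drop (x.length - w) with hWdef
  have hWx : W <:+: x := (List.drop_suffix _ _).isInfix
  have hWy : W <:+: y := by
    rw [hWdef, hval.2.2]
    exact (List.take_prefix _ _).isInfix
  have hWlen : W.length = w := by
    simp only [hWdef, List.length_drop]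
    have := hval.1
    omega
  have hper1 : W.HasPeriod p := (cycle_period hfree hx (self_mem_orbit hm hi hx le_rfl)).infix hWx
  have hper2 : W.HasPeriod q := (cycle_period hfree hy (self_mem_orbit hm hi hy le_rfl)).infix hWy
  have hWg : W.HasPeriod (p.gcd q) := hper1.gcd hper2 (by omega)
  have hg0 : 0 < p.gcd q := Nat.gcd_pos_of_pos_left _ hp0
  have hH1 : (chain c).HasPeriod (p.gcd q) :=
    period_of_factor (p := p) (hull_period hfree hx) hp0
      (hWx.trans (infix_chain (self_mem_orbit hm hi hx le_rfl))) (by omega) hWg
      (Nat.gcd_dvd_left _ _)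
  have hH2 : (chain c').HasPeriod (p.gcd q) :=
    period_of_factor (p := q) (hull_period hfree hy) hq0
      (hWy.trans (infix_chain (self_mem_orbit hm hi hy le_rfl))) (by omega) hWg
      (Nat.gcd_dvd_right _ _)
  refine no_common_period hfree (C := fun z => z ∈ c) (C' := fun z => z ∈ c') ?_ ?_ ?_ hg0 ?_
    _ x y w (self_mem_orbit hm hi hx le_rfl) (self_mem_orbit hm hi hy le_rfl) hval ?_ rfl
  · intro z hz
    exact ⟨orbit_subset hm hi hx le_rfl hz, orbit_closed hm hi hx le_rfl hz⟩
  · intro z hz
    have hzL := orbit_subset hm hi hy le_rfl hz
    refine ⟨hzL, ?_⟩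
    obtain ⟨f, hf, hfz⟩ := (mgreedy_perfect L).2 z hzL
    have h3 := prv_eq (mgreedy_pairwise L) hf
    rw [hfz] at h3
    have h4 := nxt_eq (mgreedy_pairwise L) hf
    have hfL := (mgreedy_mem hf).1
    rw [h3]
    have h5 : z ∈ orbit (nxt (mgreedy L)) L f.1 :=
      (mem_orbit_iff hm hi hfL le_rfl).mpr ⟨1, by simp [h4, hfz]⟩
    exact orbit_trans hm hi hy le_rfl hz (orbit_symm hm hi hfL le_rfl h5)
  · intro z hz hz'
    exact hxy (orbit_trans hm hi hx le_rfl hz (orbit_symm hm hi hy le_rfl hz'))
  · rintro z (hz | hz)
    · exact hH1.infix (infix_chain hz)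
    · exact hH2.infix (infix_chain hz)
  · exact (Nat.le_of_dvd hp0 (Nat.gcd_dvd_left _ _)).trans (by omega)

end Crest.Agent.SS.Alg
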