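/-
S0432: a toolkit for plans given as list orders.  Everything is stated with `chain`, whose length is
`totLen - arrVal`.  Concatenation, rotation, insertion of a ring at a host arc (out-hot and in-hot),
bypass of a piece (the closer `K + F - l`), opening a cycle.
-/
import Crest.Agent.SS.RingFW

set_option autoImplicit false

namespace Crest.Agent.SS.Alg

open Crest.Agent.SS

/-- The value of a concatenation. -/
theorem arrVal_append {L₁ L₂ : List Str} {a b : Str} (h₁ : L₁.getLast? = some a)
    (h₂ : L₂.head? = some b) : arrVal (L₁ ++ L₂) = arrVal L₁ + ov a b + arrVal L₂ := by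
  induction L₁ with
  | nil => simp at h₁
  | cons x r ih =>
    cases r with
    | nil =>
      simp only [List.getLast?_singleton, Option.some.injEq] at h₁
      subst h₁
      cases L₂ with
      | nil => simp at h₂
      | cons y s =>
        simp only [List.head?_cons, Option.some.injEq] at h₂
        subst h₂
        simp [arrVal]
    | cons y s =>
      have h3 : (y :: s).getLast? = some a := by
        rw [← h₁, List.getLast?_cons_cons]
      have := ih h3
      simp only [List.cons_append, arrVal] at this ⊢
      omega

lemma totLen_append (L₁ L₂ : List Str) : totLen (L₁ ++ L₂) = totLen L₁ + totLen L₂ := by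
  simp [totLen]

/-- The length of the chain of a concatenation. -/
theorem cost_append {L₁ L₂ : List Str} {a b : Str} (h₁ : L₁.getLast? = some a)
    (h₂ : L₂.head? = some b) :
    (chain (L₁ ++ L₂)).length + ov a b = (chain L₁).length + (chain L₂).length := by
  have h := arrVal_append h₁ h₂
  have c := chain_length (L₁ ++ L₂)
  have c₁ := chain_length L₁
  have c₂ := chain_length L₂
  rw [totLen_append] at c
  omega

/-- Rotation: the closing arc changes hands. -/
theorem cost_rotate {A B : List Str} {a h b z : Str} (ha : A.getLast? = some a)
    (hh : A.head? = some h) (hb : B.head? = some b) (hz : B.getLast? = some z) :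
    (chain (A ++ B)).length + ov a b = (chain (B ++ A)).length + ov z h := by
  have h1 := cost_append ha hb
  have h2 := cost_append hz hh
  omega

lemma head?_append_of_head {A B : List Str} {h : Str} (hh : A.head? = some h) :
    (A ++ B).head? = some h := by
  cases A with
  | nil => simp at hh
  | cons x r => simpa using hh

lemma getLast?_append_of_last {A B : List Str} {h : Str} (hh : B.getLast? = some h) :
    (A ++ B).getLast? = some h := by
  rw [List.getLast?_append, hh]
  rfl

/-- Insertion: the exact formula. -/
theorem cost_insert {A R B : List Str} {a H x b : Str} (ha : A.getLast? = some a)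
    (hH : R.head? = some H) (hx : R.getLast? = some x) (hb : B.head? = some b) :
    (chain (A ++ (R ++ B))).length + ov a H + ov x b =
      (chain (A ++ B)).length + ov a b + (chain R).length := by
  have h1 := cost_append (L₁ := A) (L₂ := R ++ B) ha (head?_append_of_head hH)
  have h2 := cost_append hx hb
  have h3 := cost_append ha hb
  omega

lemma le_ov_of_validOv' {a b : Str} {k : ℕ} (h : ValidOv a b k) : k ≤ ov a b := le_ov_of_validOv h

/-- **Host lemma, out-hot form.**  The ring list `R` starts at `H`, ends at `x`, with own overlap `om`
closing it; `x` has a declared overlap `F ≥ om` with `b`, and the left neighbour `a` overlaps `b` by at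
most `F`.  Then inserting `R` between `a` and `b` costs at most the period `|chain R| - om`. -/
theorem host_out {A R B : List Str} {a H x b : Str} {F om : ℕ} (ha : A.getLast? = some a)
    (hH : R.head? = some H) (hx : R.getLast? = some x) (hb : B.head? = some b)
    (hF : ValidOv x b F) (hom : ValidOv x H om) (h1 : om ≤ F) (h2 : ov a b ≤ F) :
    (chain (A ++ (R ++ B))).length + om ≤ (chain (A ++ B)).length + (chain R).length := by
  have e := cost_insert ha hH hx hb
  have m : ValidOv a H (ov a b + om - F) := ValidOv.monge hF (validOv_ov a b) hom h2 h1
  have m1 := le_ov_of_validOv m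
  have m2 := le_ov_of_validOv hF
  omega

/-- **Host lemma, in-hot form.**  The left neighbour `a` has a declared overlap `G ≥ om` with the head
`H` of the ring list, and `a` overlaps `b` by at most `G`. -/
theorem host_in {A R B : List Str} {a H x b : Str} {G om : ℕ} (ha : A.getLast? = some a)
    (hH : R.head? = some H) (hx : R.getLast? = some x) (hb : B.head? = some b)
    (hG : ValidOv a H G) (hom : ValidOv x H om) (h1 : om ≤ G) (h2 : ov a b ≤ G) :
    (chain (A ++ (R ++ B))).length + om ≤ (chain (A ++ B)).length + (chain R).length := by
  have e := cost_insert ha hH hx hb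
  have m : ValidOv x b (om + ov a b - G) := ValidOv.monge hG hom (validOv_ov a b) h1 h2
  have m1 := le_ov_of_validOv m
  have m2 := le_ov_of_validOv hG
  omega

lemma head_prefix_chain {P : List Str} {H : Str} (hH : P.head? = some H) : H <+: chain P := by
  cases P with
  | nil => simp at hH
  | cons y r =>
    simp only [List.head?_cons, Option.some.injEq] at hH
    subst hH
    exact prefix_chain _ _

lemma last_suffix_chain {P : List Str} {x : Str} (hx : P.getLast? = some x) : x <:+ chain P := by
  cases P with
  | nil => simp at hx
  | cons y r =>
    have h := suffix_chain y r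
    have e : (y :: r).getLast (by simp) = x := by
      have := List.getLast?_eq_some_getLast (l := y :: r) (by simp)
      rw [hx] at this
      exact (Option.some.inj this).symm
    rwa [e] at h

lemma validOv_of_prefix {x H W : Str} {k : ℕ} (h : ValidOv x H k) (hp : H <+: W) : ValidOv x W k := by
  rw [validOv_iff] at h ⊢
  obtain ⟨u, rfl⟩ := hp
  refine ⟨h.1, by simp; omega, fun i hi => ?_⟩
  rw [h.2.2 i hi, List.getElem?_append_left (by omega)]

lemma validOv_self (W : Str) : ValidOv W W W.length := by
  simp [ValidOv]

/-- **Closer.**  Through any glued piece `P` (with head `H`, last `x`, `l = |chain P|`), valid overlaps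
`K` of `a` with `H` and `F` of `x` with `b` give the valid overlap `K + F - l` of `a` with `b`. -/
theorem closer {P : List Str} {a H x b : Str} {K F : ℕ} (hH : P.head? = some H)
    (hx : P.getLast? = some x) (hK : ValidOv a H K) (hF : ValidOv x b F) :
    ValidOv a b (K + F - (chain P).length) := by
  have h1 := validOv_of_prefix hK (head_prefix_chain hH)
  have h2 := validOv_of_suffix hF (last_suffix_chain hx)
  exact ValidOv.monge (validOv_self _) h1 h2 h1.2.1 h2.1

/-- **Bypass.**  Deleting a piece from a list order never lengthens the chain; the exact formula. -/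
theorem cost_bypass {A P B : List Str} {a H x b : Str} (ha : A.getLast? = some a)
    (hH : P.head? = some H) (hx : P.getLast? = some x) (hb : B.head? = some b) :
    (chain (A ++ B)).length ≤ (chain (A ++ (P ++ B))).length := by
  have e := cost_insert ha hH hx hb
  have c := le_ov_of_validOv (closer hH hx (validOv_ov a H) (validOv_ov x b))
  omega

/-- Declared values bound the value of a two-piece list from below. -/
theorem cost_append_le {L₁ L₂ : List Str} {a b : Str} {k : ℕ} (h₁ : L₁.getLast? = some a)
    (h₂ : L₂.head? = some b) (hk : ValidOv a b k) :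
    (chain (L₁ ++ L₂)).length + k ≤ (chain L₁).length + (chain L₂).length := by
  have h := cost_append h₁ h₂
  have := le_ov_of_validOv hk
  omega

end Crest.Agent.SS.Alg

namespace Crest.Agent.SS.Alg

open Crest.Agent.SS

section ring

variable {L : List Str} (hfree : ∀ a ∈ L, ∀ b ∈ L, a ≠ b → ¬ a <:+: b)

/-- The cycle of `x`, as a list starting at `x`. -/
noncomputable abbrev ringList (L : List Str) (x : Str) : List Str := orbit (nxt (mgreedy L)) L x

/-- The cost of the cycle of `x`. -/
noncomputable abbrev ringP (L : List Str) (x : Str) : ℕ := ringCost L (ringList L x)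

lemma ringList_hyps (L : List Str) :
    (∀ a ∈ L, nxt (mgreedy L) a ∈ L) ∧
      (∀ a ∈ L, ∀ b ∈ L, nxt (mgreedy L) a = nxt (mgreedy L) b → a = b) :=
  ⟨fun a ha => nxt_mem L a ha, fun a ha b hb h => nxt_inj L ha hb h⟩

include hfree in
/-- The ring list of `x` starts at `x`, ends at the predecessor `z` of `x`, and its chain has length
period plus closing overlap. -/
theorem ringList_cost {x : Str} (hx : x ∈ L) :
    ∃ z, (ringList L x).head? = some x ∧ (ringList L x).getLast? = some z ∧
      nxt (mgreedy L) z = x ∧ z ∈ L ∧
      (chain (ringList L x)).length = ringP L x + ovLen (z, x) := by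
  obtain ⟨hm, hi⟩ := ringList_hyps L
  obtain ⟨r, hr, hch, hlast⟩ := orbit_walk (clock := L) hm hi hx le_rfl
  have hnd := orbit_nodup (clock := L) hm hi hx le_rfl
  have hmem : ∀ a ∈ x :: r, a ∈ L := fun a ha =>
    orbit_subset (clock := L) hm hi hx le_rfl (hr ▸ ha)
  refine ⟨(x :: r).getLast (by simp), by simp [ringList, hr], ?_, hlast, hmem _ (List.getLast_mem _), ?_⟩
  · simp only [ringList, hr]
    exact List.getLast?_eq_some_getLast (by simp)
  · unfold ringP ringList
    rw [hr] at hnd ⊢
    have hsum := walk_sum hfree hmem hnd hch
    rw [hlast] at hsum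
    have hlen := chain_length (x :: r)
    unfold ringCost
    have hle : ∀ a ∈ x :: r, ovLen (a, nxt (mgreedy L) a) ≤ a.length := fun a _ => by
      have := (ovl_suffix a.tail (nxt (mgreedy L) a)).length_le
      simp only [ovLen, ovP]
      simp only [List.length_tail] at this
      omega
    have hs : ((x :: r).map fun a => a.length - ovLen (a, nxt (mgreedy L) a)).sum +
        ((x :: r).map fun a => ovLen (a, nxt (mgreedy L) a)).sum = totLen (x :: r) := by
      unfold totLen
      generalize x :: r = c at hle
      induction c with
      | nil => simp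
      | cons a c ih =>
        have h1 := hle a (by simp)
        have h2 := ih (fun b hb => hle b (List.mem_cons_of_mem _ hb))
        simp only [List.map_cons, List.sum_cons] at h2 ⊢
        omega
    omega

/-- The cost of a cycle does not depend on the starting point. -/
theorem ringP_eq {x y : Str} (hx : x ∈ L) (hy : y ∈ ringList L x) : ringP L y = ringP L x := by
  obtain ⟨hm, hi⟩ := ringList_hyps L
  have hyL := orbit_subset (clock := L) hm hi hx le_rfl hy
  have hp : (ringList L y).Perm (ringList L x) := by
    rw [List.perm_ext_iff_of_nodup (orbit_nodup hm hi hyL le_rfl) (orbit_nodup hm hi hx le_rfl)]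
    intro a
    exact ⟨fun h => orbit_trans hm hi hx le_rfl hy h,
      fun h => orbit_trans hm hi hyL le_rfl (orbit_symm hm hi hx le_rfl hy) h⟩
  unfold ringP ringCost
  exact (hp.map _).sum_eq

include hfree in
/-- **Overlap lemma with `ov`.**  Strings of different cycles overlap by less than the sum of the costs. -/
theorem ov_lt_ringP {x y : Str} (hx : x ∈ L) (hy : y ∈ L) (hxy : y ∉ ringList L x) :
    ov x y < ringP L x + ringP L y := by
  obtain ⟨hm, hi⟩ := ringList_hyps L
  have hne : x ≠ y := by
    rintro rfl
    exact hxy (self_mem_orbit hm hi hx le_rfl)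
  rw [ov_eq_ovLen hfree hx hy hne]
  exact ovLen_lt_cost hfree hx hy hxy

include hfree in
/-- Host lemma for a ring list, out-hot: `z → H` is the cut arc, `z` has a declared overlap `F ≥ ovLen
(z, H)` with `b`, and `a` overlaps `b` by at most `F`.  The insertion costs at most the period. -/
theorem host_out_ring {A B : List Str} {a H b z : Str} {F : ℕ} (hH : H ∈ L)
    (hz : (ringList L H).getLast? = some z) (ha : A.getLast? = some a) (hb : B.head? = some b)
    (hF : ValidOv z b F) (h1 : ovLen (z, H) ≤ F) (h2 : ov a b ≤ F) :
    (chain (A ++ (ringList L H ++ B))).length ≤ (chain (A ++ B)).length + ringP L H := by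
  obtain ⟨z', h0, h3, -, -, h4⟩ := ringList_cost hfree hH
  have e : z' = z := by rw [h3] at hz; exact Option.some.inj hz
  subst e
  have := host_out ha h0 h3 hb hF (validOv_ovLen z' H) h1 h2
  omega

include hfree in
/-- Host lemma for a ring list, in-hot: `a` has a declared overlap `G ≥ ovLen (z, H)` with `H`, and `a`
overlaps `b` by at most `G`.  The insertion costs at most the period. -/
theorem host_in_ring {A B : List Str} {a H b z : Str} {G : ℕ} (hH : H ∈ L)
    (hz : (ringList L H).getLast? = some z) (ha : A.getLast? = some a) (hb : B.head? = some b)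
    (hG : ValidOv a H G) (h1 : ovLen (z, H) ≤ G) (h2 : ov a b ≤ G) :
    (chain (A ++ (ringList L H ++ B))).length ≤ (chain (A ++ B)).length + ringP L H := by
  obtain ⟨z', h0, h3, -, -, h4⟩ := ringList_cost hfree hH
  have e : z' = z := by rw [h3] at hz; exact Option.some.inj hz
  subst e
  have := host_in ha h0 h3 hb hG (validOv_ovLen z' H) h1 h2
  omega

end ring

end Crest.Agent.SS.Alg

namespace Crest.Agent.SS.Alg

open Crest.Agent.SS

/-- **Host lemma, out-hot, declared form.**  The plan keeps a declared valid overlap `c ≤ F` of `a` with
`b` (the true overlap may be larger).  Then the list with the ring inserted is at most the declared length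
of `A`, `B` plus the period. -/
theorem host_out_decl {A R B : List Str} {a H x b : Str} {F om c : ℕ} (ha : A.getLast? = some a)
    (hH : R.head? = some H) (hx : R.getLast? = some x) (hb : B.head? = some b)
    (hF : ValidOv x b F) (hom : ValidOv x H om) (hc : ValidOv a b c) (h1 : om ≤ F) (h2 : c ≤ F) :
    (chain (A ++ (R ++ B))).length + om + c ≤
      (chain A).length + (chain B).length + (chain R).length := by
  have e1 := cost_append (L₁ := A) (L₂ := R ++ B) ha (head?_append_of_head hH)
  have e2 := cost_append hx hb
  have m : ValidOv a H (c + om - F) := ValidOv.monge hF hc hom h2 h1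
  have m1 := le_ov_of_validOv m
  have m2 := le_ov_of_validOv hF
  omega

/-- **Host lemma, in-hot, declared form.** -/
theorem host_in_decl {A R B : List Str} {a H x b : Str} {G om c : ℕ} (ha : A.getLast? = some a)
    (hH : R.head? = some H) (hx : R.getLast? = some x) (hb : B.head? = some b)
    (hG : ValidOv a H G) (hom : ValidOv x H om) (hc : ValidOv a b c) (h1 : om ≤ G) (h2 : c ≤ G) :
    (chain (A ++ (R ++ B))).length + om + c ≤
      (chain A).length + (chain B).length + (chain R).length := by
  have e1 := cost_append (L₁ := A) (L₂ := R ++ B) ha (head?_append_of_head hH)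
  have e2 := cost_append hx hb
  have m : ValidOv x b (om + c - G) := ValidOv.monge hG hom hc h1 h2
  have m1 := le_ov_of_validOv m
  have m2 := le_ov_of_validOv hG
  omega

/-- Host at the very start of a list: no left neighbour, only the arc `x → b` counts. -/
theorem host_start {R B : List Str} {x b : Str} {F : ℕ} (hx : R.getLast? = some x)
    (hb : B.head? = some b) (hF : ValidOv x b F) :
    (chain (R ++ B)).length + F ≤ (chain R).length + (chain B).length :=
  cost_append_le hx hb hF

end Crest.Agent.SS.Alg

namespace Crest.Agent.SS.Alg

open Crest.Agent.SS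

section factor

variable {L : List Str} (hfree : ∀ a ∈ L, ∀ b ∈ L, a ≠ b → ¬ a <:+: b)

include hfree in
lemma ringP_pos {x y : Str} (hx : x ∈ L) (hy : y ∈ L) (hne : x ≠ y) : 0 < ringP L x := by
  obtain ⟨hm, hi⟩ := ringList_hyps L
  have hnonempty : x ≠ [] := by
    intro h0
    exact hfree x hx y hy hne (by simp [h0])
  obtain ⟨r, hr, -, -⟩ := orbit_walk (clock := L) hm hi hx le_rfl
  unfold ringP ringList ringCost
  rw [hr]
  simp only [List.map_cons, List.sum_cons]
  have := ovLen_lt (y := nxt (mgreedy L) x) hnonempty
  omega

include hfree in
/-- **Two-run Fine–Wilf.**  A common factor of two strings of different cycles is shorter than the sum of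
the costs of the cycles. -/
theorem factor_lt_ringP {x y W : Str} (hx : x ∈ L) (hy : y ∈ L) (hxy : y ∉ ringList L x)
    (hWx : W <:+: x) (hWy : W <:+: y) : W.length < ringP L x + ringP L y := by
  obtain ⟨hm, hi⟩ := ringList_hyps L
  by_contra hcon
  have hcon' : ringP L x + ringP L y ≤ W.length := not_lt.mp hcon
  have hne : x ≠ y := by
    rintro rfl
    exact hxy (self_mem_orbit hm hi hx le_rfl)
  have hp0 := ringP_pos hfree hx hy hne
  have hq0 := ringP_pos hfree hy hx hne.symm
  set p := ringP L x with hp
  set q := ringP L y with hq
  have hselfx : x ∈ ringList L x := self_mem_orbit hm hi hx le_rfl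
  have hselfy : y ∈ ringList L y := self_mem_orbit hm hi hy le_rfl
  have hper1 : W.HasPeriod p := (cycle_period hfree hx hselfx).infix hWx
  have hper2 : W.HasPeriod q := (cycle_period hfree hy hselfy).infix hWy
  have hWg : W.HasPeriod (p.gcd q) := hper1.gcd hper2 (by omega)
  have hg0 : 0 < p.gcd q := Nat.gcd_pos_of_pos_left _ hp0
  have hgle : p.gcd q ≤ W.length := (Nat.le_of_dvd hp0 (Nat.gcd_dvd_left _ _)).trans (by omega)
  have hH1 : (chain (ringList L x)).HasPeriod (p.gcd q) :=
    period_of_factor (p := p) (hull_period hfree hx) hp0 (hWx.trans (infix_chain hselfx)) (by omega)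
      hWg (Nat.gcd_dvd_left _ _)
  have hH2 : (chain (ringList L y)).HasPeriod (p.gcd q) :=
    period_of_factor (p := q) (hull_period hfree hy) hq0 (hWy.trans (infix_chain hselfy)) (by omega)
      hWg (Nat.gcd_dvd_right _ _)
  have hxg : x.HasPeriod (p.gcd q) := hH1.infix (infix_chain hselfx)
  have hyg : y.HasPeriod (p.gcd q) := hH2.infix (infix_chain hselfy)
  obtain ⟨α, hα1, hα2⟩ := exists_sitsAt hWx
  obtain ⟨β, hβ1, hβ2⟩ := exists_sitsAt hWy
  have hext := agree_extend hxg hyg hg0 hgle hα1 hβ1 (fun j hj => by rw [hα2 j hj, hβ2 j hj])
  rcases Nat.lt_trichotomy α β with hlt | heq | hgt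
  · -- `y` starts first
    set d := β - α with hd
    by_cases hin : d + x.length ≤ y.length
    · exact hfree x hx y hy hne (infix_of_getElem hin fun i hi' => (hext i (d + i) (by omega) hi' (by omega)).symm)
    · have hv : ValidOv y x (y.length - d) := by
        rw [validOv_iff]
        refine ⟨by omega, by omega, fun i hi' => ?_⟩
        have e : y.length - (y.length - d) + i = d + i := by omega
        rw [e]
        exact (hext i (d + i) (by omega) (by omega) (by omega)).symm
      have h1 := le_ovLen hv (by omega)
      have hxy' : x ∉ ringList L y := fun h => hxy (orbit_symm hm hi hy le_rfl h)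
      have h2 := ovLen_lt_cost hfree hy hx hxy'
      change ovLen (y, x) < q + p at h2
      omega
  · -- same start: one is a prefix of the other
    by_cases hle : x.length ≤ y.length
    · exact hfree x hx y hy hne (infix_of_getElem (s := 0) (by omega) fun i hi' => by
        rw [Nat.zero_add]
        exact (hext i i (by omega) hi' (by omega)).symm)
    · exact hfree y hy x hx hne.symm (infix_of_getElem (s := 0) (by omega) fun i hi' => by
        rw [Nat.zero_add]
        exact hext i i (by omega) (by omega) hi')
  · -- `x` starts first
    set d := α - β with hd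
    by_cases hin : d + y.length ≤ x.length
    · exact hfree y hy x hx hne.symm (infix_of_getElem hin fun i hi' => hext (d + i) i (by omega) (by omega) hi')
    · have hv : ValidOv x y (x.length - d) := by
        rw [validOv_iff]
        refine ⟨by omega, by omega, fun i hi' => ?_⟩
        have e : x.length - (x.length - d) + i = d + i := by omega
        rw [e]
        exact hext (d + i) i (by omega) (by omega) (by omega)
      have h1 := le_ovLen hv (by omega)
      have h2 := ovLen_lt_cost hfree hx hy hxy
      change ovLen (x, y) < p + q at h2
      omega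

end factor

end Crest.Agent.SS.Alg
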