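/-
S0432: opening a closed walk of ring segments at its best arc (the averaging of helper22 / helper63).
A segment has three lists: `Z` from its in-port `y` to its out-port `x`, `Hy` starting at `y`, `Hx` ending
at `x`.  The walk is a periodic family of segments with valid arcs `x_i → y_(i+1)`.  Opening at arc `t`
uses `Hx` for the first segment, `Hy` for the last, `Z` for the others.
-/
import Crest.Agent.SS.ListOps

set_option autoImplicit false

namespace Crest.Agent.SS.Alg

open Crest.Agent.SS Finset

/-- Gluing of lists with declared arcs between consecutive lists. -/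
def GlueOK : List (List Str) → List ℕ → Prop
  | [], [] => True
  | [A], [] => A ≠ []
  | A :: B :: r, k :: ks =>
      (∃ a b, A.getLast? = some a ∧ B.head? = some b ∧ ValidOv a b k) ∧ B ≠ [] ∧ GlueOK (B :: r) ks
  | _, _ => False

lemma head?_flatten_cons {B : List Str} {b : Str} (r : List (List Str)) (hb : B.head? = some b) :
    ((B :: r).flatten).head? = some b := by
  simp only [List.flatten_cons]
  exact head?_append_of_head hb

/-- The chain of a glued family of lists. -/
theorem chain_glue_le (Ls : List (List Str)) (ks : List ℕ) (h : GlueOK Ls ks) :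
    (chain Ls.flatten).length + ks.sum ≤ (Ls.map fun l => (chain l).length).sum := by
  induction Ls generalizing ks with
  | nil =>
    cases ks with
    | nil => simp [chain]
    | cons k ks => simp [GlueOK] at h
  | cons A r ih =>
    cases r with
    | nil =>
      cases ks with
      | nil => simp
      | cons k ks => simp [GlueOK] at h
    | cons B r =>
      cases ks with
      | nil => simp [GlueOK] at h
      | cons k ks =>
        obtain ⟨⟨a, b, ha, hb, hv⟩, hB, hr⟩ := h
        have h1 := ih ks hr
        have h2 := cost_append_le (L₁ := A) (L₂ := (B :: r).flatten) ha (head?_flatten_cons r hb) hv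
        simp only [List.flatten_cons, List.map_cons, List.sum_cons] at h1 h2 ⊢
        omega

/-- A segment of a closed walk. -/
structure Seg where
  /-- from the in-port to the out-port -/
  Z : List Str
  /-- starts at the in-port -/
  Hy : List Str
  /-- ends at the out-port -/
  Hx : List Str
  /-- the in-port -/
  y : Str
  /-- the out-port -/
  x : Str
  zh : Z.head? = some y
  zl : Z.getLast? = some x
  hh : Hy.head? = some y
  hl : Hx.getLast? = some x

/-- Z-lists from index `b`, `m` of them. -/
def midL (S : ℕ → Seg) : ℕ → ℕ → List (List Str)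
  | _, 0 => []
  | b, m + 1 => (S b).Z :: midL S (b + 1) m

/-- Arcs from index `b`, `m` of them. -/
def arcsFrom (w : ℕ → ℕ) : ℕ → ℕ → List ℕ
  | _, 0 => []
  | b, m + 1 => w b :: arcsFrom w (b + 1) m

lemma ne_nil_of_head {A : List Str} {y : Str} (h : A.head? = some y) : A ≠ [] := by
  rintro rfl
  simp at h

lemma ne_nil_of_last {A : List Str} {y : Str} (h : A.getLast? = some y) : A ≠ [] := by
  rintro rfl
  simp at h

lemma arcsFrom_sum (w : ℕ → ℕ) (b m : ℕ) : (arcsFrom w b m).sum = ∑ i ∈ range m, w (b + i) := by
  induction m generalizing b with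
  | zero => simp [arcsFrom]
  | succ m ih =>
    simp only [arcsFrom, List.sum_cons, ih, Finset.sum_range_succ']
    rw [add_comm]
    congr 1
    apply Finset.sum_congr rfl
    intro i _
    congr 1
    omega

lemma midL_sum (S : ℕ → Seg) (b m : ℕ) :
    ((midL S b m).map fun l => (chain l).length).sum =
      ∑ i ∈ range m, (chain (S (b + i)).Z).length := by
  induction m generalizing b with
  | zero => simp [midL]
  | succ m ih =>
    simp only [midL, List.map_cons, List.sum_cons, ih, Finset.sum_range_succ']
    rw [add_comm]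
    congr 1
    apply Finset.sum_congr rfl
    intro i _
    rw [show b + 1 + i = b + (i + 1) by omega]

section walk

variable (S : ℕ → Seg) (w : ℕ → ℕ)

lemma glue_mid (harc : ∀ i, ValidOv (S i).x (S (i + 1)).y (w i)) (b m : ℕ) :
    GlueOK (midL S b m ++ [(S (b + m)).Hy]) (arcsFrom w b m) := by
  induction m generalizing b with
  | zero => simpa [midL, arcsFrom, GlueOK] using ne_nil_of_head (S b).hh
  | succ m ih =>
    have h1 := ih (b + 1)
    have e : b + 1 + m = b + (m + 1) := by omega
    rw [e] at h1
    cases m with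
    | zero =>
      simp only [midL, arcsFrom, List.cons_append, List.nil_append, GlueOK]
      exact ⟨⟨(S b).x, (S (b + (0 + 1))).y, (S b).zl, (S (b + (0 + 1))).hh, harc b⟩,
        ne_nil_of_head (S (b + (0 + 1))).hh, ne_nil_of_head (S (b + (0 + 1))).hh⟩
    | succ m =>
      simp only [midL, arcsFrom, List.cons_append, GlueOK] at h1 ⊢
      exact ⟨⟨(S b).x, (S (b + 1)).y, (S b).zl, (S (b + 1)).zh, harc b⟩,
        ne_nil_of_head (S (b + 1)).zh, h1⟩

/-- The list order opening the walk just before index `t + 1`. -/
def openLists (n t : ℕ) : List (List Str) :=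
  (S (t + 1)).Hx :: (midL S (t + 2) (n - 2) ++ [(S (t + 2 + (n - 2))).Hy])

lemma glue_open (harc : ∀ i, ValidOv (S i).x (S (i + 1)).y (w i)) (n t : ℕ) :
    GlueOK (openLists S n t) (w (t + 1) :: arcsFrom w (t + 2) (n - 2)) := by
  have h1 := glue_mid S w harc (t + 2) (n - 2)
  unfold openLists
  cases hm : n - 2 with
  | zero =>
    rw [hm] at h1
    simp only [midL, arcsFrom, List.nil_append, GlueOK] at h1 ⊢
    exact ⟨⟨(S (t + 1)).x, (S (t + 2 + 0)).y, (S (t + 1)).hl, (S (t + 2 + 0)).hh, harc (t + 1)⟩, h1, h1⟩
  | succ m =>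
    rw [hm] at h1
    simp only [midL, arcsFrom, List.cons_append, GlueOK] at h1 ⊢
    exact ⟨⟨(S (t + 1)).x, (S (t + 2)).y, (S (t + 1)).hl, (S (t + 2)).zh, harc (t + 1)⟩,
      ne_nil_of_head (S (t + 2)).zh, h1⟩

/-- The bound for one opening. -/
theorem open_le (harc : ∀ i, ValidOv (S i).x (S (i + 1)).y (w i)) (n t : ℕ) :
    (chain (openLists S n t).flatten).length + (w (t + 1) + ∑ i ∈ range (n - 2), w (t + 2 + i)) ≤
      (chain (S (t + 1)).Hx).length + (∑ i ∈ range (n - 2), (chain (S (t + 2 + i)).Z).length) +
        (chain (S (t + 2 + (n - 2))).Hy).length := by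
  have h := chain_glue_le _ _ (glue_open S w harc n t)
  unfold openLists at h ⊢
  simp only [List.map_cons, List.sum_cons, List.map_append, List.sum_append, midL_sum,
    arcsFrom_sum, List.map_nil, List.sum_nil] at h
  omega

end walk

/-- Sums of periodic families over one period do not see a shift. -/
lemma sum_shift (f : ℕ → ℕ) (n : ℕ) (hf : ∀ i, f (i + n) = f i) (t : ℕ) :
    ∑ i ∈ range n, f (t + i) = ∑ i ∈ range n, f i := by
  induction t with
  | zero => simp
  | succ t ih =>
    rw [← ih]
    have h1 := Finset.sum_range_succ (fun i => f (t + i)) n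
    have h2 := Finset.sum_range_succ' (fun i => f (t + i)) n
    simp only [add_zero] at h2
    have e : f (t + n) = f t := hf t
    have e2 : ∀ i, f (t + (i + 1)) = f (t + 1 + i) := fun i => by congr 1; omega
    simp only [e2] at h2
    omega

/-- A term not above the average. -/
lemma exists_avg (n : ℕ) (hn : 0 < n) (a b : ℕ → ℕ) :
    ∃ t, t < n ∧ n * a t + ∑ i ∈ range n, b i ≤ ∑ i ∈ range n, a i + n * b t := by
  by_contra hcon
  have hc : ∀ t ∈ range n, ∑ i ∈ range n, a i + n * b t < n * a t + ∑ i ∈ range n, b i := by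
    intro t ht
    have := fun h => hcon ⟨t, Finset.mem_range.mp ht, h⟩
    exact not_le.mp this
  have hne : (range n).Nonempty := ⟨0, Finset.mem_range.mpr hn⟩
  have h := Finset.sum_lt_sum_of_nonempty hne hc
  simp only [Finset.sum_add_distrib, Finset.sum_const, Finset.card_range, smul_eq_mul,
    ← Finset.mul_sum] at h
  omega

section avg

variable (S : ℕ → Seg) (w p δ ρ : ℕ → ℕ)

/-- **Opening at the best arc.**  A closed walk of `n ≥ 2` segments, periodic data; arcs `w i < p i + p
(i+1)` (Fine–Wilf); `|Z| = |Hy| + δ = |Hx| + ρ`.  There is an opening whose chain satisfies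
`2 |chain| + 2 Σ w ≤ Σ (|Hy| + |Hx|) + 2 Σ p`. -/
theorem best_open {n : ℕ} (hn : 2 ≤ n) (hS : ∀ i, S (i + n) = S i) (hw : ∀ i, w (i + n) = w i)
    (hp : ∀ i, p (i + n) = p i) (hδ' : ∀ i, δ (i + n) = δ i) (hρ' : ∀ i, ρ (i + n) = ρ i)
    (harc : ∀ i, ValidOv (S i).x (S (i + 1)).y (w i))
    (hFW : ∀ i, w i < p i + p (i + 1)) (hZδ : ∀ i, (chain (S i).Z).length = (chain (S i).Hy).length + δ i)
    (hZρ : ∀ i, (chain (S i).Z).length = (chain (S i).Hx).length + ρ i)
    (hδ : ∀ i, δ i ≤ p i) (hρ : ∀ i, ρ i ≤ p i) :
    ∃ t, t < n ∧ 2 * (chain (openLists S n t).flatten).length + 2 * ∑ i ∈ range n, w i ≤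
      ∑ i ∈ range n, ((chain (S i).Hy).length + (chain (S i).Hx).length) + 2 * ∑ i ∈ range n, p i := by
  obtain ⟨m, rfl⟩ : ∃ m, n = m + 2 := ⟨n - 2, by omega⟩
  set n := m + 2 with hndef
  obtain ⟨t, htn, hav⟩ := exists_avg n (by omega) w (fun i => ρ (i + 1) + δ i)
  refine ⟨t, htn, ?_⟩
  have hm : n - 2 = m := by omega
  have hop := open_le S w harc n t
  rw [hm] at hop
  -- sums over one period, shifted
  set zl : ℕ → ℕ := fun i => (chain (S i).Z).length with hzl
  have hzl' : ∀ i, zl (i + n) = zl i := fun i => by simp only [hzl, hS]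
  have hsumZ : ∑ i ∈ range n, zl (t + 1 + i) = ∑ i ∈ range n, zl i := sum_shift zl n hzl' (t + 1)
  have hsumW : ∑ i ∈ range n, w (t + 1 + i) = ∑ i ∈ range n, w i := sum_shift w n hw (t + 1)
  -- split off the ends
  have eZ : ∑ i ∈ range n, zl (t + 1 + i) =
      zl (t + 1) + ∑ i ∈ range m, zl (t + 2 + i) + zl (t + 2 + m) := by
    rw [hndef, Finset.sum_range_succ, Finset.sum_range_succ']
    have e1 : ∀ i, t + 1 + (i + 1) = t + 2 + i := fun i => by omega
    simp only [e1, add_zero]
    congr 1
    ring_nf
  have eW : ∑ i ∈ range n, w (t + 1 + i) =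
      w (t + 1) + ∑ i ∈ range m, w (t + 2 + i) + w (t + 2 + m) := by
    rw [hndef, Finset.sum_range_succ, Finset.sum_range_succ']
    have e1 : ∀ i, t + 1 + (i + 1) = t + 2 + i := fun i => by omega
    simp only [e1, add_zero]
    congr 1
    ring_nf
  have eSn : S (t + 2 + m) = S t := by
    have : t + 2 + m = t + n := by omega
    rw [this, hS]
  have ewn : w (t + 2 + m) = w t := by
    have : t + 2 + m = t + n := by omega
    rw [this, hw]
  have eδn : δ t = δ (t + 2 + m) := by
    have : t + 2 + m = t + n := by omega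
    rw [this, hδ']
  rw [eSn] at hop
  have h1 := hZρ (t + 1)
  have h2 := hZδ t
  have hzl1 : zl (t + 1) = (chain (S (t + 1)).Hx).length + ρ (t + 1) := h1
  have hzl2 : zl (t + 2 + m) = (chain (S t).Hy).length + δ t := by
    simp only [hzl, eSn]
    exact h2
  have hsumZ2 : ∑ i ∈ range m, (chain (S (t + 2 + i)).Z).length = ∑ i ∈ range m, zl (t + 2 + i) := rfl
  rw [hsumZ2] at hop
  -- the totals
  set W := ∑ i ∈ range n, w i with hW
  set ZZ := ∑ i ∈ range n, zl i with hZZ
  set P := ∑ i ∈ range n, p i with hP
  set DD := ∑ i ∈ range n, δ i with hDD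
  set RR := ∑ i ∈ range n, ρ i with hRR
  have hb : ∑ i ∈ range n, (ρ (i + 1) + δ i) = RR + DD := by
    rw [Finset.sum_add_distrib]
    congr 1
    have := sum_shift ρ n hρ' 1
    simp only [hRR, ← this]
    apply Finset.sum_congr rfl
    intro i _
    congr 1
    omega
  rw [hb] at hav
  have hWlt : W ≤ 2 * P := by
    have : ∑ i ∈ range n, w i ≤ ∑ i ∈ range n, (p i + p (i + 1)) :=
      Finset.sum_le_sum fun i _ => (hFW i).le
    have e2 : ∑ i ∈ range n, p (i + 1) = P := by
      have := sum_shift p n hp 1
      simp only [hP, ← this]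
      apply Finset.sum_congr rfl
      intro i _
      congr 1
      omega
    rw [Finset.sum_add_distrib, e2] at this
    omega
  have hDle : DD ≤ P := Finset.sum_le_sum fun i _ => hδ i
  have hRle : RR ≤ P := Finset.sum_le_sum fun i _ => hρ i
  have hZ2 : 2 * ZZ = ∑ i ∈ range n, ((chain (S i).Hy).length + (chain (S i).Hx).length) + DD + RR := by
    simp only [hZZ, hDD, hRR]
    rw [Finset.mul_sum, ← Finset.sum_add_distrib, ← Finset.sum_add_distrib]
    apply Finset.sum_congr rfl
    intro i _
    have e1 := hZδ i
    have e2 := hZρ i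
    simp only [hzl]
    omega
  -- arithmetic: 2 (w_t - g_t) ≤ 2 P - (R + D)
  have key : 2 * w t + (RR + DD) ≤ 2 * P + 2 * (ρ (t + 1) + δ t) := by
    by_cases hcase : w t ≤ ρ (t + 1) + δ t
    · omega
    · -- positive excess
      have hexc : 2 * (w t - (ρ (t + 1) + δ t)) ≤ n * (w t - (ρ (t + 1) + δ t)) :=
        Nat.mul_le_mul_right _ (by omega)
      have hn2 : n * w t = n * (w t - (ρ (t + 1) + δ t)) + n * (ρ (t + 1) + δ t) := by
        rw [← Nat.mul_add]
        congr 1
        omega
      omega
  omega

/-- A walk with one segment: the better of the two cuts. -/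
theorem best_open_one (H₁ H₂ : ℕ) (W P : ℕ) (hW : W ≤ P) :
    2 * min H₁ H₂ + 2 * W ≤ (H₁ + H₂) + 2 * P := by
  omega

end avg

section members

variable (S : ℕ → Seg) (c : ℕ → List Str)

lemma mem_midL {b m i : ℕ} (hi : i < m) {v : Str} (hv : v ∈ (S (b + i)).Z) :
    v ∈ (midL S b m).flatten := by
  induction m generalizing b i with
  | zero => omega
  | succ m ih =>
    simp only [midL, List.flatten_cons, List.mem_append]
    cases i with
    | zero => exact Or.inl (by simpa using hv)
    | succ i =>
      refine Or.inr (ih (b := b + 1) (i := i) (by omega) ?_)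
      rwa [show b + 1 + i = b + (i + 1) by omega]

/-- Every carrier of the walk appears in each opening. -/
theorem mem_openLists {n : ℕ} (hn : 2 ≤ n) (hc : ∀ i, c (i + n) = c i)
    (hZ : ∀ i, ∀ v ∈ c i, v ∈ (S i).Z) (hy : ∀ i, ∀ v ∈ c i, v ∈ (S i).Hy)
    (hx : ∀ i, ∀ v ∈ c i, v ∈ (S i).Hx) (t j : ℕ) {v : Str} (hv : v ∈ c j) :
    v ∈ (openLists S n t).flatten := by
  have hper : Function.Periodic c n := fun i => hc i
  set i := (j + (t + 1) * (n - 1)) % n with hi
  have hilt : i < n := Nat.mod_lt _ (by omega)
  have hmod : (t + 1 + i) % n = j % n := by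
    have e : t + 1 + i ≡ j [MOD n] := by
      have h1 : i ≡ j + (t + 1) * (n - 1) [MOD n] := Nat.mod_modEq _ _
      have h2 : t + 1 + i ≡ t + 1 + (j + (t + 1) * (n - 1)) [MOD n] := h1.add_left _
      refine h2.trans ?_
      have e3 : t + 1 + (j + (t + 1) * (n - 1)) = j + (t + 1) * n := by
        obtain ⟨m, rfl⟩ : ∃ m, n = m + 1 := ⟨n - 1, by omega⟩
        simp only [Nat.add_sub_cancel]
        ring
      rw [e3]
      simp [Nat.ModEq]
    exact e
  have hv' : v ∈ c (t + 1 + i) := by
    rw [← hper.map_mod_nat (t + 1 + i), hmod, hper.map_mod_nat]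
    exact hv
  unfold openLists
  simp only [List.flatten_cons, List.flatten_append, List.mem_append, List.flatten_nil, List.append_nil]
  by_cases h0 : i = 0
  · rw [h0] at hv'
    exact Or.inl (hx _ _ hv')
  · right
    by_cases h1 : i = n - 1
    · right
      have e : t + 1 + i = t + 2 + (n - 2) := by omega
      rw [e] at hv'
      simpa using hy _ _ hv'
    · left
      refine mem_midL S (b := t + 2) (m := n - 2) (i := i - 1) (by omega) ?_
      have e : t + 1 + i = t + 2 + (i - 1) := by omega
      rw [e] at hv'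
      exact hZ _ _ hv'

end members

section ring

variable {L : List Str} (hfree : ∀ a ∈ L, ∀ b ∈ L, a ≠ b → ¬ a <:+: b)

lemma ovLen_le_right (a b : Str) : ovLen (a, b) ≤ b.length := (validOv_ovLen a b).2.1

lemma ovLen_le_left (a b : Str) : ovLen (a, b) ≤ a.length := (validOv_ovLen a b).1

include hfree in
/-- **The segment of a ring with ports.**  For `y` in `L` and `x` in the cycle of `y` there is a segment
with in-port `y`, out-port `x`: `|Hy| = p + im y`, `|Hx| = p + om x`, `|Z| = |Hy| + δ = |Hx| + ρ`,
`δ, ρ ≤ p`, and all three lists contain the whole cycle.  Here `z` is the predecessor of `y`. -/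
theorem exists_ringSeg {y x z : Str} (hy : y ∈ L) (hx : x ∈ ringList L y)
    (hz : (ringList L y).getLast? = some z) :
    ∃ (S : Seg) (δ ρ : ℕ), S.y = y ∧ S.x = x ∧ δ ≤ ringP L y ∧ ρ ≤ ringP L y ∧
      (chain S.Z).length = (chain S.Hy).length + δ ∧ (chain S.Z).length = (chain S.Hx).length + ρ ∧
      (chain S.Hy).length = ringP L y + ovLen (z, y) ∧
      (chain S.Hx).length = ringP L y + ovLen (x, nxt (mgreedy L) x) ∧
      (∀ v ∈ ringList L y, v ∈ S.Z ∧ v ∈ S.Hy ∧ v ∈ S.Hx) := by
  obtain ⟨hm, hi⟩ := ringList_hyps L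
  obtain ⟨z', h0, h3, hzn, hzL, h4⟩ := ringList_cost hfree hy
  have e : z' = z := by rw [h3] at hz; exact Option.some.inj hz
  subst e
  obtain ⟨r, hr, hch, hlast⟩ := orbit_walk (clock := L) hm hi hy le_rfl
  have hnd : (ringList L y).Nodup := orbit_nodup (clock := L) hm hi hy le_rfl
  have hmemL : ∀ a ∈ ringList L y, a ∈ L := fun a ha => orbit_subset (clock := L) hm hi hy le_rfl ha
  obtain ⟨s, t, hst⟩ := List.append_of_mem hx
  rw [show s ++ x :: t = (s ++ [x]) ++ t by simp] at hst
  set P := s ++ [x] with hP
  have hPl : P.getLast? = some x := by simp [hP]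
  cases t with
  | nil =>
    -- consistent ports
    have hlx : (ringList L y).getLast? = some x := by rw [hst]; simp [hP]
    have exz : x = z' := by rw [h3] at hlx; exact (Option.some.inj hlx).symm
    subst exz
    refine ⟨⟨ringList L y, ringList L y, ringList L y, y, x, h0, h3, h0, h3⟩, 0, 0, rfl, rfl,
      Nat.zero_le _, Nat.zero_le _, rfl, rfl, h4, ?_, fun v hv => ⟨hv, hv, hv⟩⟩
    simp only
    rw [hzn, h4]
  | cons b t =>
    set Q := b :: t with hQ
    have hQh : Q.head? = some b := by simp [hQ]
    have hQl : Q.getLast? = some z' := by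
      rw [hst, List.getLast?_append] at h3
      have : Q.getLast? ≠ none := by simp [hQ]
      cases hq : Q.getLast? with
      | none => exact absurd hq this
      | some q => simpa [hq] using h3
    have hPh : P.head? = some y := by
      rw [hst] at h0
      cases hp : P with
      | nil => simp [hP] at hp
      | cons u v =>
        rw [hp] at h0
        simpa using h0
    -- arcs
    have hyz : z' ≠ y := by
      intro hc
      rw [hst] at hnd
      have h5 := List.disjoint_of_nodup_append hnd
      have h6 : y ∈ P := List.mem_of_mem_head? hPh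
      have h7 : z' ∈ Q := List.mem_of_mem_getLast? hQl
      exact h5 h6 (hc ▸ h7)
    have hxb : x ≠ b := by
      intro hc
      rw [hst] at hnd
      have h5 := List.disjoint_of_nodup_append hnd
      have h6 : x ∈ P := List.mem_of_mem_getLast? hPl
      have h7 : b ∈ Q := List.mem_of_mem_head? hQh
      exact h5 h6 (hc ▸ h7)
    have hxL : x ∈ L := hmemL x hx
    have hbL : b ∈ L := hmemL b (by rw [hst]; simp [hQ])
    have e1 : ov z' y = ovLen (z', y) := ov_eq_ovLen hfree hzL hy hyz
    have e2 : ov x b = ovLen (x, b) := ov_eq_ovLen hfree hxL hbL hxb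
    have hnxb : nxt (mgreedy L) x = b := by
      have hch' : List.IsChain (fun a b => nxt (mgreedy L) a = b) (P ++ Q) := by
        rw [← hst, show ringList L y = y :: r from hr]
        exact hch
      rw [List.isChain_append] at hch'
      exact hch'.2.2 x (by simpa using hPl) b (by simpa using hQh)
    -- lengths
    have hc1 := cost_append hPl hQh
    have hc2 := cost_rotate (A := P) (B := Q) hPl hPh hQh hQl
    have hc3 := cost_append (L₁ := P ++ Q) (L₂ := P) (getLast?_append_of_last hQl) hPh
    have h4' : (chain (P ++ Q)).length = ringP L y + ovLen (z', y) := by rw [← hst]; exact h4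
    have hxP : x.length ≤ (chain P).length := (last_suffix_chain hPl).length_le
    have hyP : y.length ≤ (chain P).length := (head_prefix_chain hPh).length_le
    have hbQ : b.length ≤ (chain Q).length := (head_prefix_chain hQh).length_le
    have hzQ : z'.length ≤ (chain Q).length := (last_suffix_chain hQl).length_le
    have ov1 := ovLen_le_right z' y
    have ov2 := ovLen_le_left z' y
    have ov3 := ovLen_le_left x b
    have ov4 := ovLen_le_right x b
    refine ⟨⟨(P ++ Q) ++ P, P ++ Q, Q ++ P, y, x, head?_append_of_head (head?_append_of_head hPh),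
      getLast?_append_of_last hPl, head?_append_of_head hPh, getLast?_append_of_last hPl⟩,
      (chain P).length - ovLen (z', y), (chain P).length - ovLen (x, b), rfl, rfl, ?_, ?_, ?_, ?_, h4',
      ?_, ?_⟩
    · omega
    · omega
    · show (chain ((P ++ Q) ++ P)).length = (chain (P ++ Q)).length + ((chain P).length - ovLen (z', y))
      omega
    · show (chain ((P ++ Q) ++ P)).length = (chain (Q ++ P)).length + ((chain P).length - ovLen (x, b))
      omega
    · show (chain (Q ++ P)).length = ringP L y + ovLen (x, nxt (mgreedy L) x)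
      rw [hnxb]
      omega
    · intro v hv
      rw [hst] at hv
      simp only [List.mem_append] at hv ⊢
      tauto

end ring

end Crest.Agent.SS.Alg
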