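/-
S0432: hosted blocks.  A block is a list order around two anchors `y` (in) and `x` (out), with rings hosted
on both sides.  All declared values of a plan are valid overlaps of the anchors (original strings); the
block turns them into real overlaps of its two ends, losing the gains `gl`, `gr`; the effective length
`|chain l| + gl + gr` pays exactly the period per hosted ring.
-/
import Crest.Agent.SS.Open

set_option autoImplicit false

namespace Crest.Agent.SS.Alg

open Crest.Agent.SS

/-- A block with anchors `y`, `x` and gains. -/
structure Blk where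
  /-- the list order -/
  l : List Str
  /-- in-anchor -/
  y : Str
  /-- out-anchor -/
  x : Str
  /-- left gain -/
  gl : ℕ
  /-- right gain -/
  gr : ℕ
  /-- largest declared value on the left for which the left end still works -/
  Fl : ℕ
  /-- largest declared value on the right -/
  Fr : ℕ
  /-- the head of the list -/
  h : Str
  /-- the last member of the list -/
  t : Str
  hh : l.head? = some h
  ht : l.getLast? = some t
  hl : ∀ z c, ValidOv z y c → c ≤ Fl → ValidOv z h (c - gl)
  hr : ∀ z c, ValidOv x z c → c ≤ Fr → ValidOv t z (c - gr)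

/-- The effective length. -/
def Blk.eff (B : Blk) : ℕ := (chain B.l).length + B.gl + B.gr

/-- A plain list as a block. -/
def Blk.base (l : List Str) (y x : Str) (hh : l.head? = some y) (ht : l.getLast? = some x) : Blk where
  l := l
  y := y
  x := x
  gl := 0
  gr := 0
  Fl := y.length
  Fr := x.length
  h := y
  t := x
  hh := hh
  ht := ht
  hl := fun _ _ hc _ => by simpa using hc
  hr := fun _ _ hc _ => by simpa using hc

lemma Blk.eff_base (l : List Str) (y x : Str) (hh : l.head? = some y) (ht : l.getLast? = some x) :
    (Blk.base l y x hh ht).eff = (chain l).length := by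
  simp [Blk.eff, Blk.base]

/-- **Left host.**  The ring list `R` (head `H`, last `x₀`, own overlap `om` closing it) goes in front of
the block; `x₀` has the declared hot overlap `F ≥ om` with the anchor `y`, within the range of the block.
The effective length grows by `|chain R| - om`, the period. -/
def Blk.hostL (B : Blk) (R : List Str) (H x₀ : Str) (F om : ℕ) (hH : R.head? = some H)
    (hx : R.getLast? = some x₀) (hF : ValidOv x₀ B.y F) (hom : ValidOv x₀ H om) (h1 : om ≤ F) : Blk where
  l := R ++ B.l
  y := B.y
  x := B.x
  gl := F - om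
  gr := B.gr
  Fl := F
  Fr := B.Fr
  h := H
  t := B.t
  hh := head?_append_of_head hH
  ht := getLast?_append_of_last B.ht
  hl := fun z c hc hcF => by
    have m := ValidOv.monge hF hc hom hcF h1
    have e : c + om - F = c - (F - om) := by omega
    rwa [e] at m
  hr := B.hr

theorem Blk.eff_hostL (B : Blk) (R : List Str) (H x₀ : Str) (F om : ℕ) (hH : R.head? = some H)
    (hx : R.getLast? = some x₀) (hF : ValidOv x₀ B.y F) (hom : ValidOv x₀ H om) (h1 : om ≤ F)
    (h2 : F ≤ B.Fl) :
    (B.hostL R H x₀ F om hH hx hF hom h1).eff + om ≤ B.eff + (chain R).length := by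
  have hv := B.hl x₀ F hF h2
  have hc := cost_append_le (L₁ := R) (L₂ := B.l) hx B.hh hv
  simp only [Blk.eff, Blk.hostL]
  omega

/-- **Right host.**  The ring list `R` goes behind the block; the anchor `x` has the declared hot overlap
`G ≥ om` with the head `H` of `R`. -/
def Blk.hostR (B : Blk) (R : List Str) (H x₀ : Str) (G om : ℕ) (hH : R.head? = some H)
    (hx : R.getLast? = some x₀) (hG : ValidOv B.x H G) (hom : ValidOv x₀ H om) (h1 : om ≤ G) : Blk where
  l := B.l ++ R
  y := B.y
  x := B.x
  gl := B.gl
  gr := G - om
  Fl := B.Fl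
  Fr := G
  h := B.h
  t := x₀
  hh := head?_append_of_head B.hh
  ht := getLast?_append_of_last hx
  hl := B.hl
  hr := fun z c hc hcG => by
    have m := ValidOv.monge hG hom hc h1 hcG
    have e : om + c - G = c - (G - om) := by omega
    rwa [e] at m

theorem Blk.eff_hostR (B : Blk) (R : List Str) (H x₀ : Str) (G om : ℕ) (hH : R.head? = some H)
    (hx : R.getLast? = some x₀) (hG : ValidOv B.x H G) (hom : ValidOv x₀ H om) (h1 : om ≤ G)
    (h2 : G ≤ B.Fr) :
    (B.hostR R H x₀ G om hH hx hG hom h1).eff + om ≤ B.eff + (chain R).length := by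
  have hv := B.hr H G hG h2
  have hc := cost_append_le (L₁ := B.l) (L₂ := R) B.ht hH hv
  simp only [Blk.eff, Blk.hostR]
  omega

/-- Real overlap of two blocks from a declared overlap of their anchors. -/
lemma Blk.arc (B B' : Blk) {c : ℕ} (hc : ValidOv B.x B'.y c) (h1 : c ≤ B.Fr) (h2 : c - B.gr ≤ B'.Fl) :
    ValidOv B.t B'.h (c - B.gr - B'.gl) :=
  B'.hl _ _ (B.hr _ _ hc h1) h2

/-- Consecutive declared arcs along a list of blocks. -/
def BlkArcs : List Blk → List ℕ → Prop
  | [], [] => True
  | [_], [] => True
  | B :: B' :: r, c :: cs => (ValidOv B.x B'.y c ∧ c ≤ B.Fr ∧ c - B.gr ≤ B'.Fl) ∧ BlkArcs (B' :: r) cs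
  | _, _ => False

/-- **The chain of a line of blocks.** -/
theorem blks_chain_le (Bs : List Blk) (cs : List ℕ) (h : BlkArcs Bs cs) (B₀ : Blk) (hB : Bs.head? = some B₀) :
    (chain (Bs.map Blk.l).flatten).length + cs.sum + B₀.gl ≤ (Bs.map Blk.eff).sum := by
  induction Bs generalizing cs B₀ with
  | nil => simp at hB
  | cons B r ih =>
    simp only [List.head?_cons, Option.some.injEq] at hB
    subst hB
    cases r with
    | nil =>
      cases cs with
      | nil => simp [Blk.eff]
      | cons c cs => simp [BlkArcs] at h
    | cons B' r =>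
      cases cs with
      | nil => simp [BlkArcs] at h
      | cons c cs =>
        obtain ⟨⟨hc, h1, h2⟩, hr⟩ := h
        have hih := ih cs hr B' rfl
        have hv := Blk.arc B B' hc h1 h2
        have hhead : ((B' :: r).map Blk.l).flatten.head? = some B'.h := by
          simp only [List.map_cons, List.flatten_cons]
          exact head?_append_of_head B'.hh
        have hca := cost_append_le (L₁ := B.l) (L₂ := ((B' :: r).map Blk.l).flatten) B.ht hhead hv
        simp only [List.map_cons, List.flatten_cons, List.sum_cons, Blk.eff] at hih hca ⊢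
        omega

/-- Every member of a block of the line is in the flattened list. -/
lemma mem_blks {Bs : List Blk} {B : Blk} (hB : B ∈ Bs) {v : Str} (hv : v ∈ B.l) :
    v ∈ (Bs.map Blk.l).flatten := by
  simp only [List.mem_flatten, List.mem_map]
  exact ⟨B.l, ⟨B, hB, rfl⟩, hv⟩

end Crest.Agent.SS.Alg
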