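/-
S0432: the Overlap Lemma (Fine-Wilf for covers).  Two different cycles of an optimal cover of a substring-free
family overlap by less than the sum of their costs.  The proof: a long overlap puts both cycles on one line of
period `gcd`; going once around that line in the order of the phases is a permutation of the two cycles of cost
at most `gcd`, against the optimality of the cover.
-/
import Crest.Agent.SS.MgPerm

set_option autoImplicit false

namespace Crest.Agent.SS.Alg

open Crest.Agent.SS Equiv

/-! ### Arithmetic -/

lemma exists_shift (b i p : ℕ) (hp : 0 < p) : ∃ j, b ≤ j ∧ j < b + p ∧ j % p = i % p := by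
  refine ⟨b + (i + (p - b % p)) % p, by omega, ?_, ?_⟩
  · have := Nat.mod_lt (i + (p - b % p)) hp
    omega
  · have h1 : (b + (i + (p - b % p)) % p) ≡ b + (i + (p - b % p)) [MOD p] :=
      (Nat.mod_modEq _ _).add_left _
    have hr := Nat.mod_lt b hp
    have hd := Nat.div_add_mod b p
    have e : b + (i + (p - b % p)) = i + p * (b / p + 1) := by
      rw [Nat.mul_add, Nat.mul_one]
      omega
    rw [e] at h1
    have h2 : i + p * (b / p + 1) ≡ i [MOD p] := by
      unfold Nat.ModEq
      exact Nat.add_mul_mod_self_left _ _ _
    exact h1.trans h2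

/-! ### A periodic word with a long window of a smaller period -/

lemma getElem?_infix {u w v : Str} (i : ℕ) (hi : i < w.length) :
    (u ++ w ++ v)[u.length + i]? = w[i]? := by
  rw [List.append_assoc, List.getElem?_append_right (by omega)]
  simp only [Nat.add_sub_cancel_left]
  rw [List.getElem?_append_left hi]

/-- A `p`-periodic word with a window of length `≥ p + g` of period `g ∣ p` has period `g`. -/
lemma hasPeriod_of_window {G w : Str} {p g : ℕ} (hG : G.HasPeriod p) (hw : w.HasPeriod g)
    (hinf : w <:+: G) (hp : 0 < p) (hlen : p + g ≤ w.length) : G.HasPeriod g := by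
  obtain ⟨u, v, rfl⟩ := hinf
  rw [List.hasPeriod_iff_getElem?]
  intro i hi
  have hlenG : (u ++ w ++ v).length = u.length + w.length + v.length := by simp; omega
  obtain ⟨j, hj1, hj2, hj3⟩ := exists_shift u.length i p hp
  set G := u ++ w ++ v with hGdef
  have h1 : G[i]? = G[j]? := by
    rw [← hG.getElem?_mod p i G (by omega), ← hG.getElem?_mod p j G (by omega), hj3]
  have h2 : G[i + g]? = G[j + g]? := by
    have hm : (i + g) % p = (j + g) % p := by
      have : i % p = j % p := hj3.symm
      exact (Nat.ModEq.add_right g (show i ≡ j [MOD p] from this))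
    rw [← hG.getElem?_mod p (i + g) G (by omega), ← hG.getElem?_mod p (j + g) G (by omega), hm]
  obtain ⟨d, rfl⟩ : ∃ d, j = u.length + d := ⟨j - u.length, by omega⟩
  have h3 : G[u.length + d]? = w[d]? := getElem?_infix d (by omega)
  have h4 : G[u.length + d + g]? = w[d + g]? := by
    rw [Nat.add_assoc]
    exact getElem?_infix (d + g) (by omega)
  rw [h1, h2, h3, h4]
  exact (List.hasPeriod_iff_getElem?.mp hw) d (by omega)

/-! ### The line through a word -/

/-- `z` sits at phase `s` on the line of period `g` through the word `w`. -/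
def OnLine (w : Str) (g : ℕ) (z : Str) (s : ℕ) : Prop :=
  ∀ i, i < z.length → z[i]? = w[(s + i) % g]?

lemma exists_phase {G w z : Str} {g : ℕ} (hg : 0 < g) (hG : G.HasPeriod g) (hw : w <:+: G)
    (hlen : g ≤ w.length) (hz : z <:+: G) : ∃ s, s < g ∧ OnLine w g z s := by
  obtain ⟨u, v, rfl⟩ := hw
  obtain ⟨a, c, hz⟩ := hz
  set G := u ++ w ++ v with hGdef
  have hlenG : G.length = u.length + w.length + v.length := by simp [hGdef]; omega
  have hlenG' : G.length = a.length + z.length + c.length := by rw [← hz]; simp; omega
  refine ⟨(a.length + (g - u.length % g)) % g, Nat.mod_lt _ hg, ?_⟩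
  intro i hi
  set s := (a.length + (g - u.length % g)) % g with hs
  have hj : (s + i) % g < g := Nat.mod_lt _ hg
  have e1 : z[i]? = G[a.length + i]? := by
    rw [← hz, List.append_assoc, List.getElem?_append_right (by omega)]
    simp only [Nat.add_sub_cancel_left]
    rw [List.getElem?_append_left hi]
  have e2 : G[u.length + (s + i) % g]? = w[(s + i) % g]? := getElem?_infix _ (by omega)
  rw [e1, ← e2]
  have hmod : (a.length + i) % g = (u.length + (s + i) % g) % g := by
    have h1 : (u.length + (s + i) % g) ≡ u.length + (s + i) [MOD g] :=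
      (Nat.mod_modEq _ _).add_left _
    have h2 : s + i ≡ (a.length + (g - u.length % g)) + i [MOD g] :=
      (Nat.mod_modEq _ _).add_right _
    have hr := Nat.mod_lt u.length hg
    have hd := Nat.div_add_mod u.length g
    have e : u.length + ((a.length + (g - u.length % g)) + i) = (a.length + i) + g * (u.length / g + 1) := by
      rw [Nat.mul_add, Nat.mul_one]
      omega
    have h3 : u.length + (s + i) ≡ a.length + i [MOD g] := by
      have h4 := h2.add_left u.length
      rw [e] at h4
      refine h4.trans ?_
      unfold Nat.ModEq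
      exact Nat.add_mul_mod_self_left _ _ _
    exact (h1.trans h3).symm
  rw [← hG.getElem?_mod g (a.length + i) G (by omega),
    ← hG.getElem?_mod g (u.length + (s + i) % g) G (by omega), hmod]

lemma prefix_of_letters {a b : Str} (hlen : a.length ≤ b.length)
    (h : ∀ i, i < a.length → a[i]? = b[i]?) : a <+: b := by
  rw [List.prefix_iff_eq_take]
  apply List.ext_getElem?
  intro i
  by_cases hi : i < a.length
  · rw [List.getElem?_take_of_lt hi]
    exact h i hi
  · rw [List.getElem?_eq_none_iff.mpr (by omega), List.getElem?_eq_none_iff.mpr]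
    simp
    omega

/-- Equal phases: one of the two is a prefix of the other. -/
lemma OnLine.prefix {w z z' : Str} {g s : ℕ} (h : OnLine w g z s) (h' : OnLine w g z' s)
    (hlen : z.length ≤ z'.length) : z <+: z' :=
  prefix_of_letters hlen fun i hi => by rw [h i hi, h' i (by omega)]

lemma modEq_shift {g s s' d i : ℕ} (hd : (s + d) % g = s' % g) : (s + (d + i)) % g = (s' + i) % g := by
  have h : s + d ≡ s' [MOD g] := hd
  have := h.add_right i
  rwa [Nat.add_assoc] at this

/-- A string inside the extent of another one on the same line is a factor of it. -/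
lemma OnLine.infix {w z z' : Str} {g s s' d : ℕ} (h : OnLine w g z s) (h' : OnLine w g z' s')
    (hd : (s + d) % g = s' % g) (hlen : d + z'.length ≤ z.length) : z' <:+: z := by
  have h1 : z' <+: z.drop d := by
    refine prefix_of_letters (by simp; omega) fun i hi => ?_
    rw [List.getElem?_drop, h (d + i) (by omega), h' i hi, modEq_shift hd]
  exact h1.isInfix.trans (List.drop_suffix _ _).isInfix

/-- Two strings on one line, the second one `d` further: a valid overlap. -/
lemma OnLine.validOv {w z z' : Str} {g s s' d : ℕ} (h : OnLine w g z s) (h' : OnLine w g z' s')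
    (hd : (s + d) % g = s' % g) (hfree : ¬ z' <:+: z) : ValidOv z z' (z.length - d) := by
  rw [validOv_iff]
  have hle : z.length - d ≤ z'.length := by
    by_contra hcon
    exact hfree (h.infix h' hd (by omega))
  refine ⟨by omega, hle, fun i hi => ?_⟩
  have e : z.length - (z.length - d) + i = d + i := by omega
  rw [e, h (d + i) (by omega), h' i (by omega), modEq_shift hd]

/-! ### The word of a cycle -/

section cycle

variable {ι : Type} (M : ι → ι) (s : ι → Str) (v : ι → ℕ)

/-- The chain along `k` steps of the orbit. -/
def orbChain : ℕ → ι → List (ℕ × Str)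
  | 0, _ => []
  | k + 1, a => (v a, s (M a)) :: orbChain k (M a)

variable {M s v}

lemma orbChain_chainOv (hv : ∀ a, ValidOv (s a) (s (M a)) (v a)) (k : ℕ) (a : ι) :
    Order.ChainOv (s a) (orbChain M s v k a) := by
  induction k generalizing a with
  | zero => trivial
  | succ k ih => exact ⟨hv a, ih (M a)⟩

lemma orbChain_mem (k : ℕ) (a : ι) {j : ℕ} (hj : j < k) :
    (v (M^[j] a), s (M^[j + 1] a)) ∈ orbChain M s v k a := by
  induction k generalizing a j with
  | zero => omega
  | succ k ih =>
    cases j with
    | zero => simp [orbChain]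
    | succ j =>
      have := ih (M a) (j := j) (by omega)
      simp only [orbChain, List.mem_cons]
      right
      simpa only [Function.iterate_succ_apply] using this

lemma orbChain_sum_fst (k : ℕ) (a : ι) :
    ((orbChain M s v k a).map Prod.fst).sum = ∑ j ∈ Finset.range k, v (M^[j] a) := by
  induction k generalizing a with
  | zero => simp [orbChain]
  | succ k ih =>
    rw [Finset.sum_range_succ']
    simp only [orbChain, List.map_cons, List.sum_cons, ih, Function.iterate_succ_apply,
      Function.iterate_zero, id]
    omega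

lemma orbChain_sum_snd (k : ℕ) (a : ι) :
    ((orbChain M s v k a).map fun p => p.2.length).sum
      = ∑ j ∈ Finset.range k, (s (M^[j + 1] a)).length := by
  induction k generalizing a with
  | zero => simp [orbChain]
  | succ k ih =>
    rw [Finset.sum_range_succ']
    simp only [orbChain, List.map_cons, List.sum_cons, ih, Function.iterate_succ_apply]
    simp only [Function.iterate_zero, id]
    omega

lemma glue_suffix (hv : ∀ a, ValidOv (s a) (s (M a)) (v a)) (k : ℕ) (a : ι) :
    ∃ u, Order.glue (s a) (orbChain M s v k a) = u ++ s (M^[k] a) := by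
  induction k generalizing a with
  | zero => exact ⟨[], by simp [Order.glue, Order.glueTail, orbChain]⟩
  | succ k ih =>
    obtain ⟨u, hu⟩ := Order.exists_append_drop (hv a)
    obtain ⟨u', hu'⟩ := ih (M a)
    refine ⟨u ++ u', ?_⟩
    simp only [Function.iterate_succ_apply]
    simp only [Order.glue, orbChain, Order.glueTail] at hu' ⊢
    rw [← List.append_assoc, hu, List.append_assoc, hu', List.append_assoc]

/-- The word of a closed orbit: it has the cost of the orbit as a period and contains the orbit. -/
theorem exists_word_of_orbit (hv : ∀ a, ValidOv (s a) (s (M a)) (v a)) {m : ℕ} {x : ι}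
    (hm : M^[m] x = x) :
    ∃ G : Str, G.HasPeriod (∑ j ∈ Finset.range m, ((s (M^[j] x)).length - v (M^[j] x))) ∧
      s x <:+: G ∧ ∀ j, j < m → s (M^[j] x) <:+: G := by
  set p := ∑ j ∈ Finset.range m, ((s (M^[j] x)).length - v (M^[j] x)) with hp
  set G := Order.glue (s x) (orbChain M s v m x) with hG
  have hchain := orbChain_chainOv hv m x
  have hpre : s x <+: G := List.prefix_append _ _
  obtain ⟨u, hu⟩ := glue_suffix hv m x
  rw [hm] at hu
  have hu' : G = u ++ s x := hu
  have hlen : G.length + ((orbChain M s v m x).map Prod.fst).sum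
      = (s x).length + ((orbChain M s v m x).map fun p => p.2.length).sum := Order.glue_length hchain
  rw [orbChain_sum_fst, orbChain_sum_snd] at hlen
  have hcyc : ∑ j ∈ Finset.range m, (s (M^[j + 1] x)).length
      = ∑ j ∈ Finset.range m, (s (M^[j] x)).length := by
    have h1 := Finset.sum_range_succ (fun j => (s (M^[j] x)).length) m
    have h2 := Finset.sum_range_succ' (fun j => (s (M^[j] x)).length) m
    simp only [hm, Function.iterate_zero, id] at h1 h2
    omega
  have hsum : p + ∑ j ∈ Finset.range m, v (M^[j] x)
      = ∑ j ∈ Finset.range m, (s (M^[j] x)).length := by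
    rw [hp, ← Finset.sum_add_distrib]
    refine Finset.sum_congr rfl fun j _ => ?_
    have := (hv (M^[j] x)).1
    omega
  have hlenG : G.length = (s x).length + p := by
    rw [hcyc, ← hsum] at hlen
    omega
  have hlenu : u.length = p := by
    have := congrArg List.length hu'
    simp only [List.length_append] at this
    omega
  refine ⟨G, ?_, hpre.isInfix, ?_⟩
  · rw [List.hasPeriod_iff_getElem?]
    intro i hi
    obtain ⟨t, ht⟩ := hpre
    have e1 : G[i]? = (s x)[i]? := by
      rw [← ht, List.getElem?_append_left (by omega)]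
    have e2 : G[i + p]? = (s x)[i]? := by
      rw [hu', List.getElem?_append_right (by omega)]
      congr 1
      omega
    rw [e1, e2]
  · intro j hj
    cases j with
    | zero => simpa using hpre.isInfix
    | succ j =>
      have := orbChain_mem (M := M) (s := s) (v := v) m x (j := j) (by omega)
      exact Order.glue_contains hchain _ this

end cycle

/-! ### Once around the line -/

section around

variable {κ : Type}

/-- The shift to the next one on the circle. -/
def shiftTo (t : κ → ℕ) (g : ℕ) (next : κ → κ) (z : κ) : ℕ :=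
  if t z < t (next z) then t (next z) - t z else g + t (next z) - t z

lemma shiftTo_mod {t : κ → ℕ} {g : ℕ} {next : κ → κ} (ht : ∀ z, t z < g) (z : κ) :
    (t z + shiftTo t g next z) % g = t (next z) % g := by
  have := ht z
  unfold shiftTo
  split_ifs with h
  · congr 1
    omega
  · have e : t z + (g + t (next z) - t z) = t (next z) + g := by omega
    rw [e, Nat.add_mod_right]

lemma shiftTo_pos {t : κ → ℕ} {g : ℕ} {next : κ → κ} (ht : ∀ z, t z < g) (z : κ) :
    0 < shiftTo t g next z := by
  have := ht z
  unfold shiftTo
  split_ifs with h <;> omega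

lemma sum_shiftTo (t : κ → ℕ) (g : ℕ) (next : κ → κ) :
    ∀ (L : List κ) (x : κ), (x :: L).Pairwise (fun i j => t i < t j) →
      (∀ k (h : k + 1 < (x :: L).length), next (x :: L)[k] = (x :: L)[k + 1]) →
      ((x :: L).map (shiftTo t g next)).sum + t x
        = t ((x :: L).getLast (by simp)) + shiftTo t g next ((x :: L).getLast (by simp)) := by
  intro L
  induction L with
  | nil =>
    intro x _ _
    simp
    omega
  | cons y L ih =>
    intro x hs hn
    have hs' := List.pairwise_cons.mp hs
    have hxy : t x < t y := hs'.1 y (by simp)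
    have hnx : next x = y := hn 0 (by simp)
    have := ih y hs'.2 (fun k h => hn (k + 1) (by simp at h ⊢; omega))
    have e1 : ((x :: y :: L).map (shiftTo t g next)).sum
        = shiftTo t g next x + ((y :: L).map (shiftTo t g next)).sum := by simp
    have e2 : shiftTo t g next x = t y - t x := by
      unfold shiftTo
      rw [hnx, if_pos hxy]
    have e3 : (x :: y :: L).getLast (by simp) = (y :: L).getLast (by simp) :=
      List.getLast_cons (by simp)
    rw [e1, e2, e3]
    omega

/-- Going once around a circle of circumference `g`, in the order of the phases. -/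
theorem sum_shift_formPerm [Fintype κ] [DecidableEq κ] {t : κ → ℕ} {g : ℕ} (ht : ∀ z, t z < g)
    {O : List κ} (hnd : O.Nodup) (hall : ∀ z, z ∈ O) (hsort : O.Pairwise fun i j => t i < t j)
    (h2 : 2 ≤ O.length) : ∑ z, shiftTo t g O.formPerm z = g := by
  cases O with
  | nil => simp at h2
  | cons x r =>
    have hr : r ≠ [] := by
      rintro rfl
      simp at h2
    have huniv : (x :: r).toFinset = Finset.univ := by
      ext i
      simp only [List.mem_toFinset, Finset.mem_univ, iff_true]
      exact hall i
    have e1 : ∑ z, shiftTo t g (x :: r).formPerm z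
        = ((x :: r).map (shiftTo t g (x :: r).formPerm)).sum := by
      rw [← huniv, List.sum_toFinset _ hnd]
    rw [e1]
    have hb := sum_shiftTo t g (x :: r).formPerm r x hsort
      (fun k h => List.formPerm_apply_lt_getElem (x :: r) hnd k h)
    set e := (x :: r).getLast (by simp) with he
    have hnext : (x :: r).formPerm e = x := by
      have := List.formPerm_apply_getLast x r
      rwa [← he] at this
    have hxe : t x < t e := by
      have hmem : e ∈ r := by
        rw [he, List.getLast_cons hr]
        exact List.getLast_mem hr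
      exact (List.pairwise_cons.mp hsort).1 e hmem
    have hsh : shiftTo t g (x :: r).formPerm e = g + t x - t e := by
      unfold shiftTo
      rw [hnext, if_neg (by omega)]
    have := ht e
    rw [hsh] at hb
    omega

end around

/-! ### The Overlap Lemma -/

section main

variable {ι : Type} [Fintype ι] [DecidableEq ι]

/-- The orbit of `x` as a finset. -/
def orbitS (M : Perm ι) (x : ι) : Finset ι := Finset.univ.filter fun z => M.SameCycle x z

/-- The cost of the cycle through `x`. -/
def cycCost (M : Perm ι) (s : ι → Str) (v : ι → ℕ) (x : ι) : ℕ :=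
  ∑ z ∈ orbitS M x, ((s z).length - v z)

lemma mem_orbitS {M : Perm ι} {x z : ι} : z ∈ orbitS M x ↔ M.SameCycle x z := by
  simp [orbitS]

omit [DecidableEq ι] in
lemma minimalPeriod_pos_perm (M : Perm ι) (x : ι) : 0 < Function.minimalPeriod M x := by
  apply Function.minimalPeriod_pos_of_mem_periodicPts
  apply Function.mk_mem_periodicPts (orderOf_pos M)
  show M^[orderOf M] x = x
  rw [Equiv.Perm.iterate_eq_pow, pow_orderOf_eq_one]
  rfl

lemma mem_orbitS_iff_iterate {M : Perm ι} {x z : ι} :
    z ∈ orbitS M x ↔ ∃ j, j < Function.minimalPeriod M x ∧ M^[j] x = z := by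
  rw [mem_orbitS]
  constructor
  · intro h
    obtain ⟨i, -, hi⟩ := h.exists_pow_eq'
    refine ⟨i % Function.minimalPeriod M x, Nat.mod_lt _ (minimalPeriod_pos_perm M x), ?_⟩
    rw [Function.iterate_mod_minimalPeriod_eq, Equiv.Perm.iterate_eq_pow, hi]
  · rintro ⟨j, -, rfl⟩
    rw [Equiv.Perm.iterate_eq_pow]
    exact (Equiv.Perm.sameCycle_pow_right).mpr (Equiv.Perm.SameCycle.refl M x)

/-- A sum over the orbit is a sum along the orbit. -/
lemma sum_orbitS (M : Perm ι) (x : ι) (f : ι → ℕ) :
    ∑ z ∈ orbitS M x, f z = ∑ j ∈ Finset.range (Function.minimalPeriod M x), f (M^[j] x) := by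
  have e : orbitS M x = (Finset.range (Function.minimalPeriod M x)).image fun j => M^[j] x := by
    ext z
    simp only [mem_orbitS_iff_iterate, Finset.mem_image, Finset.mem_range]
  rw [e, Finset.sum_image]
  intro a ha b hb hab
  exact Function.iterate_injOn_Iio_minimalPeriod (by simpa using ha) (by simpa using hb) hab

/-- **The Overlap Lemma.**  Two different cycles of an optimal cover of a substring-free family overlap by less
than the sum of the costs of the two cycles. -/
theorem overlap_lt_cycCost (M : Perm ι) (s : ι → Str) (v : ι → ℕ)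
    (hv : ∀ a, ValidOv (s a) (s (M a)) (v a))
    (hlt : ∀ a, v a < (s a).length)
    (hfree : ∀ i j, i ≠ j → ¬ s i <:+: s j)
    (hopt : ∀ (π : Perm ι) (val : ι → ℕ), (∀ a, ValidOv (s a) (s (π a)) (val a)) →
        (∀ a, val a = 0 ∨ val a < (s a).length) → ∑ a, val a ≤ ∑ a, v a)
    {x y : ι} (hxy : ¬ M.SameCycle x y) {k : ℕ} (hk : ValidOv (s x) (s y) k) :
    k < cycCost M s v x + cycCost M s v y := by
  classical
  by_contra hcon
  have hcon := not_lt.mp hcon
  set p := cycCost M s v x with hp
  set q := cycCost M s v y with hq
  have hne : x ≠ y := fun h => hxy (h ▸ Equiv.Perm.SameCycle.refl M x)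
  have hposOf : ∀ a, 0 < cycCost M s v a := fun a =>
    Finset.sum_pos' (fun _ _ => Nat.zero_le _)
      ⟨a, mem_orbitS.mpr (Equiv.Perm.SameCycle.refl M a), by have := hlt a; omega⟩
  have hppos : 0 < p := hposOf x
  have hqpos : 0 < q := hposOf y
  -- the window
  set w := (s x).drop ((s x).length - k) with hw
  have hwx : w <:+ s x := List.drop_suffix _ _
  have hwy : w <+: s y := by
    rw [hw, hk.2.2]
    exact List.take_prefix _ _
  have hwlen : w.length = k := by
    have := hk.1
    simp only [hw, List.length_drop]
    omega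
  -- the words of the two cycles
  obtain ⟨GA, hGA, hxA, hallA⟩ := exists_word_of_orbit (M := M) (s := s) (v := v) hv
    (m := Function.minimalPeriod M x) (x := x) Function.iterate_minimalPeriod
  obtain ⟨GB, hGB, hyB, hallB⟩ := exists_word_of_orbit (M := M) (s := s) (v := v) hv
    (m := Function.minimalPeriod M y) (x := y) Function.iterate_minimalPeriod
  rw [← sum_orbitS M x fun z => (s z).length - v z] at hGA
  rw [← sum_orbitS M y fun z => (s z).length - v z] at hGB
  change GA.HasPeriod p at hGA
  change GB.HasPeriod q at hGB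
  have hwA : w <:+: GA := hwx.isInfix.trans hxA
  have hwB : w <:+: GB := hwy.isInfix.trans hyB
  have hwp : w.HasPeriod p := hGA.infix hwA
  have hwq : w.HasPeriod q := hGB.infix hwB
  set g := Nat.gcd p q with hg
  have hgpos : 0 < g := Nat.gcd_pos_of_pos_left _ hppos
  have hgp : g ≤ p := Nat.le_of_dvd hppos (Nat.gcd_dvd_left _ _)
  have hgq : g ≤ q := Nat.le_of_dvd hqpos (Nat.gcd_dvd_right _ _)
  have hwg : w.HasPeriod g := hwp.gcd hwq (by omega)
  have hGAg : GA.HasPeriod g := hasPeriod_of_window hGA hwg hwA hppos (by omega)
  have hGBg : GB.HasPeriod g := hasPeriod_of_window hGB hwg hwB hqpos (by omega)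
  -- the phases
  let S : Finset ι := orbitS M x ∪ orbitS M y
  have hphase : ∀ z : {z // z ∈ S}, ∃ t, t < g ∧ OnLine w g (s z.1) t := by
    rintro ⟨z, hz⟩
    rcases Finset.mem_union.mp hz with h | h
    · obtain ⟨j, hj, rfl⟩ := mem_orbitS_iff_iterate.mp h
      exact exists_phase hgpos hGAg hwA (by omega) (hallA j hj)
    · obtain ⟨j, hj, rfl⟩ := mem_orbitS_iff_iterate.mp h
      exact exists_phase hgpos hGBg hwB (by omega) (hallB j hj)
  choose t ht hon using hphase
  have hinj : Function.Injective t := by
    intro a b hab
    by_contra hne'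
    have hne'' : a.1 ≠ b.1 := fun h => hne' (Subtype.ext h)
    rcases le_total (s a.1).length (s b.1).length with hle | hle
    · exact hfree _ _ hne'' ((hon a).prefix (by rw [hab]; exact hon b) hle).isInfix
    · exact hfree _ _ hne''.symm ((hon b).prefix (by rw [← hab]; exact hon a) hle).isInfix
  obtain ⟨O, hnd, hall, hsort⟩ := Order.exists_sorted_list t hinj
  have hxS : x ∈ S := Finset.mem_union_left _ (mem_orbitS.mpr (Equiv.Perm.SameCycle.refl M x))
  have hyS : y ∈ S := Finset.mem_union_right _ (mem_orbitS.mpr (Equiv.Perm.SameCycle.refl M y))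
  have hlenO : 2 ≤ O.length := by
    have h1 : ({⟨x, hxS⟩, ⟨y, hyS⟩} : Finset {z // z ∈ S}) ⊆ O.toFinset := by
      intro a _
      exact List.mem_toFinset.mpr (hall a)
    have h2 := Finset.card_le_card h1
    rw [Finset.card_pair (fun h => hne (congrArg Subtype.val h))] at h2
    exact h2.trans (List.toFinset_card_le O)
  let τ : Perm {z // z ∈ S} := O.formPerm
  have hτne : ∀ z, τ z ≠ z := by
    intro z
    exact (List.formPerm_apply_mem_ne_self_iff O hnd z (hall z)).mpr hlenO
  let sh : {z // z ∈ S} → ℕ := shiftTo t g τ
  let val : {z // z ∈ S} → ℕ := fun z => (s z.1).length - sh z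
  have hsumsh : ∑ z, sh z = g := sum_shift_formPerm ht hnd hall hsort hlenO
  have hshpos : ∀ z, 0 < sh z := shiftTo_pos ht
  have hvalid : ∀ z, ValidOv (s z.1) (s (τ z).1) (val z) := fun z =>
    (hon z).validOv (hon (τ z)) (shiftTo_mod ht z)
      (hfree _ _ fun h => hτne z (Subtype.ext h))
  -- the permutation
  have hinv : ∀ z, M z ∈ S ↔ z ∈ S := by
    intro z
    simp only [S, Finset.mem_union, mem_orbitS, Equiv.Perm.sameCycle_apply_right]
  let M' : Perm {z // ¬ z ∈ S} := M.subtypePerm fun z => not_congr (hinv z)
  let σ : Perm ι := Equiv.Perm.subtypeCongr τ M'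
  let val' : ι → ℕ := fun z => if h : z ∈ S then val ⟨z, h⟩ else v z
  have hmain := hopt σ val' (by
      intro a
      by_cases h : a ∈ S
      · have e : σ a = (τ ⟨a, h⟩).1 := Equiv.Perm.subtypeCongr.left_apply τ M' h
        simp only [val', dif_pos h, e]
        exact hvalid ⟨a, h⟩
      · have e : σ a = M a := Equiv.Perm.subtypeCongr.right_apply τ M' h
        simp only [val', dif_neg h, e]
        exact hv a) (by
      intro a
      by_cases h : a ∈ S
      · simp only [val', dif_pos h]
        have := hshpos ⟨a, h⟩
        by_cases h0 : (s a).length = 0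
        · left
          show (s a).length - _ = 0
          omega
        · right
          show (s a).length - _ < _
          omega
      · simp only [val', dif_neg h]
        exact Or.inr (hlt a))
  -- the sums
  have e1 : ∑ a, val' a = ∑ z : {z // z ∈ S}, val z + ∑ a ∈ Sᶜ, v a := by
    rw [← Finset.sum_add_sum_compl S val']
    congr 1
    · rw [← Finset.sum_coe_sort S val']
      refine Finset.sum_congr rfl fun z _ => ?_
      simp only [val', dif_pos z.2]
    · refine Finset.sum_congr rfl fun a ha => ?_
      simp only [val', dif_neg (Finset.mem_compl.mp ha)]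
  have e2 : ∑ a, v a = ∑ z : {z // z ∈ S}, v z.1 + ∑ a ∈ Sᶜ, v a := by
    rw [← Finset.sum_add_sum_compl S v, Finset.sum_coe_sort S v]
  have h3 : ∑ z : {z // z ∈ S}, val z ≤ ∑ z : {z // z ∈ S}, v z.1 := by
    rw [e1, e2] at hmain
    omega
  have h4 : ∑ z : {z // z ∈ S}, (s z.1).length ≤ g + ∑ z : {z // z ∈ S}, val z := by
    rw [← hsumsh, ← Finset.sum_add_distrib]
    refine Finset.sum_le_sum fun z _ => ?_
    show _ ≤ sh z + ((s z.1).length - sh z)
    omega
  have hdisj : Disjoint (orbitS M x) (orbitS M y) := by
    rw [Finset.disjoint_left]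
    intro z h1 h2
    exact hxy ((mem_orbitS.mp h1).trans (mem_orbitS.mp h2).symm)
  have h5 : p + q + ∑ z : {z // z ∈ S}, v z.1 = ∑ z : {z // z ∈ S}, (s z.1).length := by
    have e3 : p + q = ∑ z ∈ S, ((s z).length - v z) := (Finset.sum_union hdisj).symm
    have e4 : ∑ z ∈ S, ((s z).length - v z) = ∑ z : {z // z ∈ S}, ((s z.1).length - v z.1) :=
      (Finset.sum_coe_sort S fun z => (s z).length - v z).symm
    rw [e3, e4, ← Finset.sum_add_distrib]
    refine Finset.sum_congr rfl fun z _ => ?_
    have := hlt z.1
    omega
  omega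

end main

/-! ### For the greedy cover -/

/-- The string of an element of the list. -/
abbrev strOf (L : List Str) (z : {x // x ∈ L}) : Str := z.1

/-- The overlap of the greedy cover at an element. -/
noncomputable def mgVal (L : List Str) (z : {x // x ∈ L}) : ℕ := vM L z (mgPerm L z)

/-- The cost of the cycle of the greedy cover through `x`. -/
noncomputable def mgCyc (L : List Str) (x : {x // x ∈ L}) : ℕ := cycCost (mgPerm L) (strOf L) (mgVal L) x

/-- **The Overlap Lemma for the greedy cover**, for every valid overlap. -/
theorem validOv_lt_mgCyc {L : List Str} (hfree : ∀ a ∈ L, ∀ b ∈ L, a ≠ b → ¬ a <:+: b)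
    {x y : {x // x ∈ L}} (hxy : ¬ (mgPerm L).SameCycle x y) {k : ℕ} (hk : ValidOv x.1 y.1 k) :
    k < mgCyc L x + mgCyc L y := by
  have hne : x ≠ y := fun h => hxy (h ▸ Equiv.Perm.SameCycle.refl _ x)
  have hnil : ∀ z : {x // x ∈ L}, z.1 ≠ [] := by
    intro z hz
    by_cases h : z = x
    · apply hfree z.1 z.2 y.1 y.2
      · intro he
        exact hne (Subtype.ext (by rw [← h, he]))
      · rw [hz]
        exact List.nil_infix
    · apply hfree z.1 z.2 x.1 x.2
      · intro he
        exact h (Subtype.ext he)
      · rw [hz]
        exact List.nil_infix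
  exact overlap_lt_cycCost (mgPerm L) (strOf L) (mgVal L)
    (fun a => validOv_ovLen a.1 _)
    (fun a => ovLen_lt (hnil a))
    (fun i j hij h => hfree i.1 i.2 j.1 j.2 (fun he => hij (Subtype.ext he)) h)
    (fun π val h1 h2 => mgPerm_optimal_declared L π val h1 h2) hxy hk

/-- **The Overlap Lemma for the greedy cover.** -/
theorem ovLen_lt_mgCyc {L : List Str} (hfree : ∀ a ∈ L, ∀ b ∈ L, a ≠ b → ¬ a <:+: b)
    {x y : {x // x ∈ L}} (hxy : ¬ (mgPerm L).SameCycle x y) :
    ovLen (x.1, y.1) < mgCyc L x + mgCyc L y :=
  validOv_lt_mgCyc hfree hxy (validOv_ovLen x.1 y.1)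

/-- Every string of a cycle of the greedy cover has the cost of the cycle as a period. -/
theorem hasPeriod_mgCyc (L : List Str) (x : {x // x ∈ L}) {z : {x // x ∈ L}}
    (hz : (mgPerm L).SameCycle x z) : z.1.HasPeriod (mgCyc L x) := by
  obtain ⟨G, hG, -, hall⟩ := exists_word_of_orbit (M := mgPerm L) (s := strOf L) (v := mgVal L)
    (fun a => validOv_ovLen a.1 _) (m := Function.minimalPeriod (mgPerm L) x) (x := x)
    Function.iterate_minimalPeriod
  rw [← sum_orbitS (mgPerm L) x fun z => (strOf L z).length - mgVal L z] at hG
  obtain ⟨j, hj, rfl⟩ := mem_orbitS_iff_iterate.mp (mem_orbitS.mpr hz)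
  exact hG.infix (hall j hj)

end Crest.Agent.SS.Alg
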