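/-
S0432: the Circle Lemma.  Pieces of the circles of a permutation, with weights on the elements.  If the
pieces cover a closed set, the heads can be paired with the ends so that the forward distances, plus the
whole mass of the set, are at most the total span of the pieces.
-/
import Crest.Agent.SS.FW

set_option autoImplicit false

namespace Crest.Agent.SS.Alg

open Crest.Agent.SS Equiv

section circle

variable {ι : Type} [Fintype ι] [DecidableEq ι] (M : Perm ι) (mass : ι → ℕ)

/-- The mass of `n` consecutive elements from `y`. -/
def seg (y : ι) (n : ℕ) : ℕ := ∑ e ∈ Finset.range n, mass (M^[e] y)

variable {M mass}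

lemma seg_add (y : ι) (a b : ℕ) : seg M mass y (a + b) = seg M mass y a + seg M mass (M^[a] y) b := by
  unfold seg
  rw [Finset.sum_range_add]
  congr 1
  refine Finset.sum_congr rfl fun e _ => ?_
  rw [← Function.iterate_add_apply, Nat.add_comm]

lemma seg_one (y : ι) : seg M mass y 1 = mass y := by simp [seg]

lemma seg_mono (y : ι) {a b : ℕ} (h : a ≤ b) : seg M mass y a ≤ seg M mass y b := by
  obtain ⟨c, rfl⟩ := Nat.exists_eq_add_of_le h
  rw [seg_add]
  omega

omit [Fintype ι] [DecidableEq ι] in
lemma iterate_inj (M : Perm ι) {k : ℕ} {a b : ι} (h : M^[k] a = M^[k] b) : a = b :=
  (M.injective.iterate k) h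

lemma seg_orbit (y : ι) : seg M mass y (Function.minimalPeriod M y) = ∑ z ∈ orbitS M y, mass z := by
  rw [sum_orbitS]
  rfl

/-- The whole mass of the circle, from any of its points. -/
lemma seg_rotate {y z : ι} (hz : z ∈ orbitS M y) :
    seg M mass z (Function.minimalPeriod M z) = seg M mass y (Function.minimalPeriod M y) := by
  rw [seg_orbit, seg_orbit]
  have : orbitS M z = orbitS M y := by
    ext w
    simp only [mem_orbitS]
    have h := mem_orbitS.mp hz
    exact ⟨fun h' => h.trans h', fun h' => h.symm.trans h'⟩
  rw [this]

/-- **The Circle Lemma.** -/
theorem circle_lemma :
    ∀ (N : ℕ) (ps : List (ι × ℕ)) (C : Finset ι), ps.length = N →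
      (∀ w ∈ C, M w ∈ C) → (∀ q ∈ ps, q.1 ∈ C) →
      (∀ w ∈ C, ∃ q ∈ ps, ∃ e, e < q.2 ∧ M^[e] q.1 = w) →
      ∃ g : List (ι × ℕ), (g.map Prod.fst).Perm (ps.map Prod.fst) ∧
        (g.map fun q => M^[q.2] q.1).Perm (ps.map fun q => M^[q.2] q.1) ∧
        (g.map fun q => seg M mass q.1 q.2).sum + ∑ w ∈ C, mass w
          ≤ (ps.map fun q => seg M mass q.1 q.2).sum := by
  intro N
  induction N using Nat.strong_induction_on with
  | _ N ih =>
    intro ps C hN hcl hin hcov
    cases ps with
    | nil =>
      have hC : C = ∅ := by
        apply Finset.eq_empty_of_forall_notMem
        intro w hw
        obtain ⟨q, hq, -⟩ := hcov w hw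
        simp at hq
      exact ⟨[], by simp, by simp, by simp [hC]⟩
    | cons A rest =>
      obtain ⟨y, n⟩ := A
      simp only [List.length_cons] at hN
      have hyC : y ∈ C := hin (y, n) (by simp)
      set m := Function.minimalPeriod M y with hm
      have hm0 : 0 < m := minimalPeriod_pos_perm M y
      by_cases hnm : m ≤ n
      · -- the piece goes once around its circle
        set R := orbitS M y with hR
        have hRC : R ⊆ C := by
          intro w hw
          obtain ⟨j, -, rfl⟩ := mem_orbitS_iff_iterate.mp hw
          clear hw
          induction j with
          | zero => simpa using hyC
          | succ j ihj =>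
            rw [Function.iterate_succ_apply']
            exact hcl _ ihj
        set self := rest.filter fun q => decide (q.1 ∈ R) with hself
        set other := rest.filter fun q => !decide (q.1 ∈ R) with hother
        have hperm : (self ++ other).Perm rest := List.filter_append_perm _ _
        have hlen : other.length < N := by
          have := List.length_filter_le (fun q : ι × ℕ => !decide (q.1 ∈ R)) rest
          have h2 : other.length = (rest.filter fun q => !decide (q.1 ∈ R)).length := rfl
          omega
        have hmemR : ∀ w, M w ∈ R ↔ w ∈ R := by
          intro w
          simp only [hR, mem_orbitS, Equiv.Perm.sameCycle_apply_right]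
        have hiterR : ∀ (e : ℕ) (w : ι), M^[e] w ∈ R ↔ w ∈ R := by
          intro e
          induction e with
          | zero => simp
          | succ e ihe =>
            intro w
            rw [Function.iterate_succ_apply', hmemR, ihe]
        obtain ⟨g', h1, h2, h3⟩ := ih other.length hlen other (C \ R) rfl
          (by
            intro w hw
            simp only [Finset.mem_sdiff] at hw ⊢
            exact ⟨hcl w hw.1, fun h => hw.2 ((hmemR w).mp h)⟩)
          (by
            intro q hq
            simp only [hother, List.mem_filter, decide_not, Bool.not_eq_true', decide_eq_false_iff_not] at hq
            simp only [Finset.mem_sdiff]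
            exact ⟨hin q (List.mem_cons_of_mem _ hq.1), hq.2⟩)
          (by
            intro w hw
            simp only [Finset.mem_sdiff] at hw
            obtain ⟨q, hq, e, he, hqe⟩ := hcov w hw.1
            have hqnot : q.1 ∉ R := fun h => hw.2 (hqe ▸ (hiterR e q.1).mpr h)
            rcases List.mem_cons.mp hq with rfl | hq
            · exact absurd (mem_orbitS.mpr (Equiv.Perm.SameCycle.refl M y)) hqnot
            · exact ⟨q, by simp [hother, hq, hqnot], e, he, hqe⟩)
        refine ⟨(y, n - m) :: (self ++ g'), ?_, ?_, ?_⟩
        · simp only [List.map_cons, List.map_append]
          refine List.Perm.cons _ ?_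
          refine ((h1.append_left _)).trans ?_
          rw [← List.map_append]
          exact hperm.map _
        · simp only [List.map_cons, List.map_append]
          have e : M^[n - m] y = M^[n] y := by
            have : n = (n - m) + m := by omega
            conv_rhs => rw [this, Function.iterate_add_apply, Function.iterate_minimalPeriod]
          rw [e]
          refine List.Perm.cons _ ?_
          refine ((h2.append_left _)).trans ?_
          rw [← List.map_append]
          exact hperm.map _
        · simp only [List.map_cons, List.sum_cons, List.map_append, List.sum_append]
          have hs := (hperm.map fun q : ι × ℕ => seg M mass q.1 q.2).sum_eq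
          simp only [List.map_append, List.sum_append] at hs
          have e1 : seg M mass y n = seg M mass y (n - m) + ∑ w ∈ R, mass w := by
            have : n = (n - m) + m := by omega
            conv_lhs => rw [this, seg_add]
            congr 1
            have hz : M^[n - m] y ∈ R := (hiterR _ _).mpr (mem_orbitS.mpr (Equiv.Perm.SameCycle.refl M y))
            have hper : Function.minimalPeriod M (M^[n - m] y) = m := by
              apply Function.minimalPeriod_apply_iterate
              apply Function.minimalPeriod_pos_iff_mem_periodicPts.mp hm0
            have := seg_rotate (M := M) (mass := mass) hz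
            rw [hper] at this
            rw [this, seg_orbit]
          have e2 : ∑ w ∈ C, mass w = ∑ w ∈ C \ R, mass w + ∑ w ∈ R, mass w :=
            (Finset.sum_sdiff hRC).symm
          omega
      · -- a short piece
        push Not at hnm
        by_cases hrem : ∀ w ∈ C, ∃ q ∈ rest, ∃ e, e < q.2 ∧ M^[e] q.1 = w
        · obtain ⟨g', h1, h2, h3⟩ := ih rest.length (by omega) rest C rfl hcl
            (fun q hq => hin q (List.mem_cons_of_mem _ hq)) hrem
          refine ⟨(y, n) :: g', ?_, ?_, ?_⟩
          · simpa using h1
          · simpa using h2
          · simp only [List.map_cons, List.sum_cons]
            omega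
        · push Not at hrem
          obtain ⟨w₀, hw₀, hnot⟩ := hrem
          -- `w₀` is covered by the first piece only
          obtain ⟨q₀, hq₀, e₀, he₀, hqe₀⟩ := hcov w₀ hw₀
          have hq₀' : q₀ = (y, n) := by
            rcases List.mem_cons.mp hq₀ with h | h
            · exact h
            · exact absurd hqe₀ (hnot q₀ h e₀ he₀)
          subst hq₀'
          simp only at he₀ hqe₀
          -- the gap after the first piece
          have hiterC : ∀ (e : ℕ), M^[e] y ∈ C := by
            intro e
            induction e with
            | zero => simpa using hyC
            | succ e ihe =>
              rw [Function.iterate_succ_apply']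
              exact hcl _ ihe
          obtain ⟨B, hB, e, he, hBe⟩ := hcov (M^[n] y) (hiterC n)
          obtain ⟨yB, nB⟩ := B
          simp only at he hBe
          have hBrest : (yB, nB) ∈ rest := by
            rcases List.mem_cons.mp hB with h | h
            · exfalso
              have h1 : yB = y := congrArg Prod.fst h
              have h2 : nB = n := congrArg Prod.snd h
              subst h1 h2
              have h3 := Function.iterate_injOn_Iio_minimalPeriod (f := M) (x := yB)
                (x₁ := e) (x₂ := nB) (by simpa using he.trans hnm) (by simpa using hnm) hBe
              omega
            · exact h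
          have hne : e ≤ n := by
            by_contra hcon
            push Not at hcon
            -- `B` covers all of the first piece
            have hy : M^[e - n] yB = y := by
              apply iterate_inj M (k := n)
              rw [← Function.iterate_add_apply]
              have : n + (e - n) = e := by omega
              rw [this, hBe]
            apply hnot (yB, nB) hBrest (e - n + e₀) (by simp only; omega)
            simp only
            rw [← hqe₀, ← hy, ← Function.iterate_add_apply, Nat.add_comm]
          set j := n - e with hj
          have hjy : M^[j] y = yB := by
            apply iterate_inj M (k := e)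
            rw [← Function.iterate_add_apply]
            have : e + j = n := by omega
            rw [this, hBe]
          obtain ⟨rest', hrest'⟩ : ∃ r, rest.Perm ((yB, nB) :: r) :=
            ⟨_, List.perm_cons_erase hBrest⟩
          have hlen' : (rest'.length + 1) < N := by
            have := hrest'.length_eq
            simp only [List.length_cons] at this
            omega
          have hmemrest : ∀ q, q ∈ rest ↔ q = (yB, nB) ∨ q ∈ rest' := by
            intro q
            rw [hrest'.mem_iff, List.mem_cons]
          obtain ⟨g', h1, h2, h3⟩ := ih (rest'.length + 1) hlen' ((y, j + nB) :: rest') C
            (by simp) hcl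
            (by
              intro q hq
              rcases List.mem_cons.mp hq with rfl | hq
              · exact hyC
              · exact hin q (List.mem_cons_of_mem _ ((hmemrest q).mpr (Or.inr hq))))
            (by
              intro w hw
              obtain ⟨q, hq, e', he', hqe'⟩ := hcov w hw
              rcases List.mem_cons.mp hq with rfl | hq
              · exact ⟨(y, j + nB), by simp, e', by simp only at he' ⊢; omega, hqe'⟩
              · rcases (hmemrest q).mp hq with rfl | hq'
                · refine ⟨(y, j + nB), by simp, j + e', by simp only at he' ⊢; omega, ?_⟩
                  simp only at hqe' ⊢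
                  rw [Nat.add_comm, Function.iterate_add_apply, hjy, hqe']
                · exact ⟨q, List.mem_cons_of_mem _ hq', e', he', hqe'⟩)
          refine ⟨(yB, e) :: g', ?_, ?_, ?_⟩
          · simp only [List.map_cons]
            refine (h1.cons _).trans ?_
            simp only [List.map_cons]
            refine (List.Perm.swap _ _ _).trans ?_
            refine List.Perm.cons _ ?_
            have := (hrest'.map (Prod.fst : ι × ℕ → ι)).symm
            simpa using this
          · simp only [List.map_cons]
            refine (h2.cons _).trans ?_
            simp only [List.map_cons]
            have e1 : M^[j + nB] y = M^[nB] yB := by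
              rw [Nat.add_comm, Function.iterate_add_apply, hjy]
            rw [e1, hBe]
            refine List.Perm.cons _ ?_
            have := (hrest'.map fun q : ι × ℕ => M^[q.2] q.1).symm
            simpa using this
          · have hs := (hrest'.map fun q : ι × ℕ => seg M mass q.1 q.2).sum_eq
            simp only [List.map_cons, List.sum_cons] at hs h3 ⊢
            have e1 : seg M mass y (j + nB) = seg M mass y j + seg M mass yB nB := by
              rw [seg_add, hjy]
            have e2 : seg M mass y n = seg M mass y j + seg M mass yB e := by
              have : n = j + e := by omega
              rw [this, seg_add, hjy]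
            omega

end circle

end Crest.Agent.SS.Alg
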