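/-
S0432: the lower bound on the relaxation.  Any arrangement `T` of a substring-free family, compared with an
optimal cycle cover `M`: crossing arcs of `T` plus a pairing of the heads and the tails of the pieces of
every circle, with the forward distances, cost at most `2 (|T| - D)`.
-/
import Crest.Agent.SS.Circle
import Crest.Agent.SS.RingFW

set_option autoImplicit false

namespace Crest.Agent.SS.Alg

open Crest.Agent.SS Equiv

/-! ### A ring has no shorter period -/

lemma validOv_self_period {a : Str} {g : ℕ} (hg : a.HasPeriod g) : ValidOv a a (a.length - g) := by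
  rw [validOv_iff]
  refine ⟨by omega, by omega, fun i hi => ?_⟩
  have h := (List.hasPeriod_iff_getElem?.mp hg) i (by omega)
  have e : a.length - (a.length - g) + i = i + g := by omega
  rw [e, h]

section line

variable {ι : Type} [Fintype ι] [DecidableEq ι] {M : Perm ι} {s : ι → Str} {v : ι → ℕ}

/-- **A word of period `g` through a whole cycle of an optimal cover: the cost of the cycle is at most
`g`.** -/
theorem primitive_line (hv : ∀ a, ValidOv (s a) (s (M a)) (v a))
    (hlt : ∀ a, v a < (s a).length)
    (hfree : ∀ i j, i ≠ j → ¬ s i <:+: s j)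
    (hopt : ∀ (π : Perm ι) (val : ι → ℕ), (∀ a, ValidOv (s a) (s (π a)) (val a)) →
        (∀ a, val a = 0 ∨ val a < (s a).length) → ∑ a, val a ≤ ∑ a, v a)
    (x : ι) {G : Str} {g : ℕ} (hg : 0 < g) (hG : G.HasPeriod g) (hlen : g ≤ G.length)
    (hall : ∀ z, z ∈ orbitS M x → s z <:+: G) :
    cycCost M s v x ≤ g := by
  classical
  let S : Finset ι := orbitS M x
  have hxS : x ∈ S := mem_orbitS.mpr (Equiv.Perm.SameCycle.refl M x)
  have hphase : ∀ z : {z // z ∈ S}, ∃ t, t < g ∧ OnLine G g (s z.1) t := fun z =>
    exists_phase hg hG List.infix_rfl hlen (hall z.1 z.2)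
  choose t ht hon using hphase
  have hinj : Function.Injective t := by
    intro a b hab
    by_contra hne'
    have hne'' : a.1 ≠ b.1 := fun h => hne' (Subtype.ext h)
    rcases le_total (s a.1).length (s b.1).length with hle | hle
    · exact hfree _ _ hne'' ((hon a).prefix (by rw [hab]; exact hon b) hle).isInfix
    · exact hfree _ _ hne''.symm ((hon b).prefix (by rw [← hab]; exact hon a) hle).isInfix
  obtain ⟨O, hnd, hall', hsort⟩ := Order.exists_sorted_list t hinj
  -- the permutation of the cycle, with shifts
  obtain ⟨τ, sh, hvalid, hshpos, hsumsh⟩ : ∃ (τ : Perm {z // z ∈ S}) (sh : {z // z ∈ S} → ℕ),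
      (∀ z, ValidOv (s z.1) (s (τ z).1) ((s z.1).length - sh z)) ∧ (∀ z, 0 < sh z) ∧
        ∑ z, sh z = g := by
    by_cases hlenO : 2 ≤ O.length
    · let τ : Perm {z // z ∈ S} := O.formPerm
      have hτne : ∀ z, τ z ≠ z := by
        intro z
        exact (List.formPerm_apply_mem_ne_self_iff O hnd z (hall' z)).mpr hlenO
      refine ⟨τ, shiftTo t g τ, fun z => ?_, shiftTo_pos ht, sum_shift_formPerm ht hnd hall' hsort hlenO⟩
      exact (hon z).validOv (hon (τ z)) (shiftTo_mod ht z)
        (hfree _ _ fun h => hτne z (Subtype.ext h))
    · have hsub : ∀ a b : {z // z ∈ S}, a = b := by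
        intro a b
        have ha := hall' a
        have hb := hall' b
        cases O with
        | nil => simp at ha
        | cons c r =>
          cases r with
          | nil =>
            simp only [List.mem_singleton] at ha hb
            rw [ha, hb]
          | cons d r => simp at hlenO
      have : Subsingleton {z // z ∈ S} := ⟨hsub⟩
      refine ⟨1, fun _ => g, fun z => ?_, fun _ => hg, ?_⟩
      · simp only [Equiv.Perm.coe_one, id]
        exact validOv_self_period (hG.infix (hall z.1 z.2))
      · rw [Fintype.sum_subsingleton _ (⟨x, hxS⟩ : {z // z ∈ S})]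
  let val : {z // z ∈ S} → ℕ := fun z => (s z.1).length - sh z
  -- the permutation
  have hinv : ∀ z, M z ∈ S ↔ z ∈ S := by
    intro z
    simp only [S, mem_orbitS, Equiv.Perm.sameCycle_apply_right]
  let M' : Perm {z // ¬ z ∈ S} := M.subtypePerm fun z => not_congr (hinv z)
  let σ : Perm ι := Equiv.Perm.subtypeCongr τ M'
  let val' : ι → ℕ := fun z => if h : z ∈ S then val ⟨z, h⟩ else v z
  have hmain := hopt σ val' (by
      intro a
      by_cases h : a ∈ S
      · have e : σ a = (τ ⟨a, h⟩).1 := Equiv.Perm.subtypeCongr.left_apply τ M' h
        simp only [val', dif_pos h, e]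
        exact hvalid ⟨a, h⟩
      · have e : σ a = M a := Equiv.Perm.subtypeCongr.right_apply τ M' h
        simp only [val', dif_neg h, e]
        exact hv a) (by
      intro a
      by_cases h : a ∈ S
      · simp only [val', dif_pos h]
        have := hshpos ⟨a, h⟩
        by_cases h0 : (s a).length = 0
        · left
          show (s a).length - _ = 0
          omega
        · right
          show (s a).length - _ < _
          omega
      · simp only [val', dif_neg h]
        exact Or.inr (hlt a))
  have e1 : ∑ a, val' a = ∑ z : {z // z ∈ S}, val z + ∑ a ∈ Sᶜ, v a := by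
    rw [← Finset.sum_add_sum_compl S val']
    congr 1
    · rw [← Finset.sum_coe_sort S val']
      refine Finset.sum_congr rfl fun z _ => ?_
      simp only [val', dif_pos z.2]
    · refine Finset.sum_congr rfl fun a ha => ?_
      simp only [val', dif_neg (Finset.mem_compl.mp ha)]
  have e2 : ∑ a, v a = ∑ z : {z // z ∈ S}, v z.1 + ∑ a ∈ Sᶜ, v a := by
    rw [← Finset.sum_add_sum_compl S v, Finset.sum_coe_sort S v]
  have h3 : ∑ z : {z // z ∈ S}, val z ≤ ∑ z : {z // z ∈ S}, v z.1 := by
    rw [e1, e2] at hmain
    omega
  have h4 : ∑ z : {z // z ∈ S}, (s z.1).length ≤ g + ∑ z : {z // z ∈ S}, val z := by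
    rw [← hsumsh, ← Finset.sum_add_distrib]
    refine Finset.sum_le_sum fun z _ => ?_
    show _ ≤ sh z + ((s z.1).length - sh z)
    omega
  have h5 : cycCost M s v x + ∑ z : {z // z ∈ S}, v z.1 = ∑ z : {z // z ∈ S}, (s z.1).length := by
    have e4 : cycCost M s v x = ∑ z : {z // z ∈ S}, ((s z.1).length - v z.1) :=
      (Finset.sum_coe_sort S fun z => (s z).length - v z).symm
    rw [e4, ← Finset.sum_add_distrib]
    refine Finset.sum_congr rfl fun z _ => ?_
    have := hlt z.1
    omega
  omega

/-! ### Positions on the hull -/

/-- The offset of the `j`-th string on the hull. -/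
def off (M : Perm ι) (s : ι → Str) (v : ι → ℕ) (a : ι) (j : ℕ) : ℕ :=
  ∑ i ∈ Finset.range j, ((s (M^[i] a)).length - v (M^[i] a))

omit [Fintype ι] [DecidableEq ι] in
lemma off_succ (a : ι) (j : ℕ) :
    off M s v a (j + 1) = ((s a).length - v a) + off M s v (M a) j := by
  unfold off
  rw [Finset.sum_range_succ']
  simp only [Function.iterate_succ_apply, Function.iterate_zero, id]
  omega

omit [Fintype ι] [DecidableEq ι] in
lemma sitsAt_append {T w : Str} {p : ℕ} (h : SitsAt T w p) (u : Str) :
    SitsAt (u ++ T) w (u.length + p) := by
  refine ⟨by simp; have := h.1; omega, fun i hi => ?_⟩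
  rw [List.getElem?_append_right (by omega)]
  have e : u.length + p + i - u.length = p + i := by omega
  rw [e]
  exact h.2 i hi

omit [Fintype ι] [DecidableEq ι] in
lemma sits_along (hv : ∀ a, ValidOv (s a) (s (M a)) (v a)) (k : ℕ) (a : ι) (j : ℕ) (hj : j ≤ k) :
    SitsAt (Order.glue (s a) (orbChain (⇑M) s v k a)) (s (M^[j] a)) (off M s v a j) := by
  induction k generalizing a j with
  | zero =>
    obtain rfl : j = 0 := by omega
    refine ⟨by simp [Order.glue, off], fun i hi => ?_⟩
    simp only [off, Finset.range_zero, Finset.sum_empty, Nat.zero_add, Function.iterate_zero, id,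
      Order.glue]
    rw [List.getElem?_append_left (by simpa using hi)]
  | succ k ih =>
    cases j with
    | zero =>
      refine ⟨by simp [Order.glue, off], fun i hi => ?_⟩
      simp only [off, Finset.range_zero, Finset.sum_empty, Nat.zero_add, Function.iterate_zero, id,
        Order.glue]
      rw [List.getElem?_append_left (by simpa using hi)]
    | succ j =>
      obtain ⟨u, hu⟩ := Order.exists_append_drop (hv a)
      have h1 := ih (M a) j (by omega)
      have hlenu : u.length = (s a).length - v a := by
        have := congrArg List.length hu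
        simp only [List.length_append, List.length_drop] at this
        have h3 := (hv a).1
        have h4 := (hv a).2.1
        omega
      have e : Order.glue (s a) (orbChain (⇑M) s v (k + 1) a)
          = u ++ Order.glue (s (M a)) (orbChain (⇑M) s v k (M a)) := by
        simp only [Order.glue, orbChain, Order.glueTail]
        rw [← List.append_assoc, hu, List.append_assoc]
      rw [e, off_succ, Function.iterate_succ_apply, ← hlenu]
      exact sitsAt_append h1 u

omit [Fintype ι] [DecidableEq ι] in
/-- The word of a closed orbit, with the positions of the strings. -/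
theorem exists_word_sits (hv : ∀ a, ValidOv (s a) (s (M a)) (v a)) {m : ℕ} {x : ι}
    (hm : M^[m] x = x) :
    ∃ G : Str, G.HasPeriod (off M s v x m) ∧ G.length = (s x).length + off M s v x m ∧
      ∀ j, j ≤ m → SitsAt G (s (M^[j] x)) (off M s v x j) := by
  set p := off M s v x m with hp
  set G := Order.glue (s x) (orbChain (⇑M) s v m x) with hG
  have hchain := orbChain_chainOv hv m x
  have hpre : s x <+: G := List.prefix_append _ _
  obtain ⟨u, hu⟩ := glue_suffix hv m x
  rw [hm] at hu
  have hu' : G = u ++ s x := hu
  have hlen : G.length + ((orbChain (⇑M) s v m x).map Prod.fst).sum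
      = (s x).length + ((orbChain (⇑M) s v m x).map fun p => p.2.length).sum := Order.glue_length hchain
  rw [orbChain_sum_fst, orbChain_sum_snd] at hlen
  have hcyc : ∑ j ∈ Finset.range m, (s (M^[j + 1] x)).length
      = ∑ j ∈ Finset.range m, (s (M^[j] x)).length := by
    have h1 := Finset.sum_range_succ (fun j => (s (M^[j] x)).length) m
    have h2 := Finset.sum_range_succ' (fun j => (s (M^[j] x)).length) m
    simp only [hm, Function.iterate_zero, id] at h1 h2
    omega
  have hsum : p + ∑ j ∈ Finset.range m, v (M^[j] x)
      = ∑ j ∈ Finset.range m, (s (M^[j] x)).length := by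
    rw [hp, off, ← Finset.sum_add_distrib]
    refine Finset.sum_congr rfl fun j _ => ?_
    have := (hv (M^[j] x)).1
    omega
  have hlenG : G.length = (s x).length + p := by
    rw [hcyc, ← hsum] at hlen
    omega
  have hlenu : u.length = p := by
    have := congrArg List.length hu'
    simp only [List.length_append] at this
    omega
  refine ⟨G, ?_, hlenG, fun j hj => sits_along hv m x j hj⟩
  rw [List.hasPeriod_iff_getElem?]
  intro i hi
  obtain ⟨t, ht⟩ := hpre
  have e1 : G[i]? = (s x)[i]? := by
    rw [← ht, List.getElem?_append_left (by omega)]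
  have e2 : G[i + p]? = (s x)[i]? := by
    rw [hu', List.getElem?_append_right (by omega)]
    congr 1
    omega
  rw [e1, e2]

/-- Two agreeing stretches of length at least the period, in a word without shorter period. -/
lemma agree_mod {G : Str} {p a b k : ℕ} (hp : 0 < p) (hG : G.HasPeriod p)
    (hprim : ∀ g, 0 < g → G.HasPeriod g → g ≤ G.length → p ≤ g) (hk : p ≤ k) (hab : a < b)
    (hb : b + k ≤ G.length) (hag : ∀ i, i < k → G[a + i]? = G[b + i]?) : p ∣ b - a := by
  set d := b - a with hd
  have hd0 : 0 < d := by omega
  set W := (G.drop a).take (d + k) with hW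
  have hWlen : W.length = d + k := by
    simp only [hW, List.length_take, List.length_drop]
    omega
  have hWget : ∀ i, i < d + k → W[i]? = G[a + i]? := by
    intro i hi
    simp only [hW]
    rw [List.getElem?_take_of_lt hi, List.getElem?_drop]
  have hWinf : W <:+: G :=
    (List.take_prefix _ _).isInfix.trans (List.drop_suffix _ _).isInfix
  have hW1 : W.HasPeriod d := by
    rw [List.hasPeriod_iff_getElem?]
    intro i hi
    rw [hWlen] at hi
    rw [hWget i (by omega), hWget (i + d) (by omega), hag i (by omega)]
    congr 1
    omega
  have hW2 : W.HasPeriod p := hG.infix hWinf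
  have hWg : W.HasPeriod (Nat.gcd d p) := hW1.gcd hW2 (by omega)
  have hg0 : 0 < Nat.gcd d p := Nat.gcd_pos_of_pos_left _ hd0
  have hgd : Nat.gcd d p ≤ d := Nat.le_of_dvd hd0 (Nat.gcd_dvd_left _ _)
  have hGg : G.HasPeriod (Nat.gcd d p) := hasPeriod_of_window hG hWg hWinf hp (by omega)
  have hgle : Nat.gcd d p ≤ G.length := by omega
  have h1 := hprim _ hg0 hGg hgle
  have h2 : Nat.gcd d p ≤ p := Nat.le_of_dvd hp (Nat.gcd_dvd_right _ _)
  have h3 : Nat.gcd d p = p := by omega
  rw [← h3]
  exact Nat.gcd_dvd_left _ _

variable (M s v) in
/-- The mass of a string: twice its trimmed body. -/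
def ringMass (w : ι) : ℕ := 2 * (s w).length - v w - v (M.symm w)

/-- The sum of the masses strictly between two strings of a circle. -/
lemma seg_identity (hlt : ∀ a, v a < (s a).length) (hle : ∀ a, v (M.symm a) ≤ (s a).length) (z : ι) (t : ℕ) :
    seg M (ringMass M s v) (M z) t + 2 * (s z).length
      = v z + v (M^[t] z) + 2 * off M s v z (t + 1) := by
  induction t with
  | zero =>
    have := hlt z
    simp [seg, off]
    omega
  | succ t ih =>
    have e1 : seg M (ringMass M s v) (M z) (t + 1)
        = seg M (ringMass M s v) (M z) t + ringMass M s v (M^[t + 1] z) := by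
      rw [seg_add, seg_one, Function.iterate_succ_apply]
    have e2 : off M s v z (t + 1 + 1)
        = off M s v z (t + 1) + ((s (M^[t + 1] z)).length - v (M^[t + 1] z)) := by
      unfold off
      rw [Finset.sum_range_succ]
    have e3 : M.symm (M^[t + 1] z) = M^[t] z := by
      rw [Function.iterate_succ_apply', Equiv.symm_apply_apply]
    have h1 := hlt (M^[t + 1] z)
    have h2 := hle (M^[t + 1] z)
    have e4 : ringMass M s v (M^[t + 1] z)
        = 2 * (s (M^[t + 1] z)).length - v (M^[t + 1] z) - v (M^[t] z) := by
      unfold ringMass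
      rw [e3]
    rw [e3] at h2
    rw [e1, e2, e4]
    omega

/-- **Line arc.**  A declared overlap of at least the cost of the cycle, between two strings of one cycle,
`t` steps apart: at most the overlap on the line; in terms of the masses. -/
theorem line_arc (hv : ∀ a, ValidOv (s a) (s (M a)) (v a))
    (hlt : ∀ a, v a < (s a).length)
    (hfree : ∀ i j, i ≠ j → ¬ s i <:+: s j)
    (hopt : ∀ (π : Perm ι) (val : ι → ℕ), (∀ a, ValidOv (s a) (s (π a)) (val a)) →
        (∀ a, val a = 0 ∨ val a < (s a).length) → ∑ a, val a ≤ ∑ a, v a)
    {z : ι} {t k : ℕ} (ht1 : 1 ≤ t) (ht2 : t < Function.minimalPeriod M z)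
    (hk : ValidOv (s z) (s (M^[t] z)) k) (hkp : cycCost M s v z ≤ k) (hkl : k < (s z).length) :
    2 * k + seg M (ringMass M s v) (M z) (t - 1) ≤ v z + v (M^[t - 1] z) := by
  set m := Function.minimalPeriod M z with hm
  have hm0 : 0 < m := minimalPeriod_pos_perm M z
  obtain ⟨G, hG, hlen, hsits⟩ := exists_word_sits (M := M) (s := s) (v := v) hv (m := m) (x := z)
    Function.iterate_minimalPeriod
  have hp : off M s v z m = cycCost M s v z := by
    unfold cycCost
    rw [sum_orbitS]
    rfl
  rw [hp] at hG hlen
  set p := cycCost M s v z with hpdef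
  have hoff : off M s v z t < p := by
    rw [← hp]
    unfold off
    have hsub : Finset.range t ⊂ Finset.range m := by
      rw [Finset.ssubset_iff_of_subset (Finset.range_subset_range.mpr (by omega))]
      exact ⟨t, by simpa using ht2, by simp⟩
    exact Finset.sum_lt_sum_of_subset hsub.1 (Finset.mem_range.mpr ht2) (by simp)
      (by have := hlt (M^[t] z); omega) (fun _ _ _ => Nat.zero_le _)
  have hpos : 0 < p := by omega
  have hmain : k + off M s v z t ≤ (s z).length := by
    by_contra hcon
    push Not at hcon
    set a := (s z).length - k with ha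
    set b := off M s v z t with hb
    have hab : a < b := by omega
    have hsz := hsits 0 (by omega)
    have hsy := hsits t (by omega)
    simp only [Function.iterate_zero, id, off, Finset.range_zero, Finset.sum_empty,
      Nat.zero_add] at hsz
    have hdvd : p ∣ b - a := by
      refine agree_mod hpos hG ?_ hkp hab ?_ ?_
      · intro g hg hgG hgl
        refine primitive_line hv hlt hfree hopt z hg hgG hgl fun w hw => ?_
        obtain ⟨j, hj, rfl⟩ := mem_orbitS_iff_iterate.mp hw
        have := hsits j (by omega)
        exact infix_of_getElem this.1 this.2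
      · have := hsy.1
        have h2 := hk.2.1
        omega
      · intro i hi
        have h1 := hk.get hi
        have h2 := hsy.2 i (by have := hk.2.1; omega)
        have h3 := hsz.2 (a + i) (by omega)
        rw [Nat.zero_add] at h3
        rw [h3, h2, h1]
    have : p ≤ b - a := Nat.le_of_dvd (by omega) hdvd
    omega
  have hid := seg_identity (M := M) (s := s) (v := v) hlt
    (fun a => by have := (hv (M.symm a)).2.1; simpa using this) z (t - 1)
  have e : t - 1 + 1 = t := by omega
  rw [e] at hid
  omega

end line

/-! ### Pieces of a list -/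

section runs

variable {ι : Type} [Fintype ι] [DecidableEq ι] {M : Perm ι} {mass : ι → ℕ}

/-- The maximal runs of internal arcs of a list, as pieces of the circles of `M`: (head, number of elements
walked). -/
def runs (I : ι → Prop) [DecidablePred I] (t : ι → ℕ) : List ι → List (ι × ℕ)
  | [] => []
  | w :: r =>
    if I w then
      match runs I t r with
      | (_, n) :: q => (w, t w + n) :: q
      | [] => [(w, 1)]
    else (w, 1) :: runs I t r

/-- What a list has to satisfy. -/
def RunsOk (M : Perm ι) (I : ι → Prop) (t : ι → ℕ) (nx : ι → ι) : List ι → Prop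
  | [] => True
  | [w] => ¬ I w
  | w :: b :: r => nx w = b ∧ (I w → M^[t w] w = b ∧ 1 ≤ t w) ∧ RunsOk M I t nx (b :: r)

variable {I : ι → Prop} [DecidablePred I] {t : ι → ℕ} {nx : ι → ι}

lemma runs_head (w : ι) (r : List ι) (h : RunsOk M I t nx (w :: r)) :
    ∃ n q, runs I t (w :: r) = (w, n) :: q ∧ 1 ≤ n := by
  induction r generalizing w with
  | nil =>
    have h' : ¬ I w := h
    exact ⟨1, [], by simp [runs, h'], le_rfl⟩
  | cons b r ih =>
    obtain ⟨h1, h2, h3⟩ := h
    obtain ⟨n, q, hq, hn⟩ := ih b h3
    by_cases hI : I w
    · refine ⟨t w + n, q, ?_, by omega⟩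
      rw [runs, if_pos hI, hq]
    · exact ⟨1, runs I t (b :: r), by rw [runs, if_neg hI], le_rfl⟩

lemma runs_sum (O : List ι) (h : RunsOk M I t nx O) :
    ((runs I t O).map fun q => seg M mass q.1 q.2).sum
      = (O.map mass).sum + (O.map fun w => if I w then seg M mass (M w) (t w - 1) else 0).sum := by
  induction O with
  | nil => simp [runs]
  | cons w r ih =>
    cases r with
    | nil =>
      have h' : ¬ I w := h
      simp [runs, h', seg_one]
    | cons b r =>
      obtain ⟨h1, h2, h3⟩ := h
      have hih := ih h3
      by_cases hI : I w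
      · obtain ⟨n, q, hq, hn⟩ := runs_head b r h3
        obtain ⟨h4, h5⟩ := h2 hI
        have e1 : seg M mass w (t w + n) = seg M mass w (t w) + seg M mass b n := by
          rw [seg_add, h4]
        have e2 : seg M mass w (t w) = mass w + seg M mass (M w) (t w - 1) := by
          have : t w = 1 + (t w - 1) := by omega
          conv_lhs => rw [this, seg_add, seg_one]
          rfl
        rw [hq] at hih
        rw [runs, if_pos hI, hq]
        simp only [List.map_cons, List.sum_cons, if_pos hI] at hih ⊢
        omega
      · rw [runs, if_neg hI]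
        simp only [List.map_cons, List.sum_cons, if_neg hI, seg_one] at hih ⊢
        omega

lemma runs_ends (O : List ι) (h : RunsOk M I t nx O) :
    (runs I t O).map (fun q => M^[q.2] q.1) = (O.filter fun w => ¬ I w).map M := by
  induction O with
  | nil => simp [runs]
  | cons w r ih =>
    cases r with
    | nil =>
      have h' : ¬ I w := h
      simp [runs, h']
    | cons b r =>
      obtain ⟨h1, h2, h3⟩ := h
      have hih := ih h3
      by_cases hI : I w
      · obtain ⟨n, q, hq, hn⟩ := runs_head b r h3
        obtain ⟨h4, h5⟩ := h2 hI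
        rw [hq] at hih
        rw [runs, if_pos hI, hq, List.filter_cons, if_neg (by simpa using hI), ← hih]
        simp only [List.map_cons]
        rw [Nat.add_comm, Function.iterate_add_apply, h4]
      · rw [runs, if_neg hI, List.filter_cons, if_pos (by simpa using hI)]
        simp only [List.map_cons]
        rw [hih]
        rfl

lemma runs_heads (w : ι) (r : List ι) (h : RunsOk M I t nx (w :: r)) :
    (runs I t (w :: r)).map Prod.fst = w :: ((w :: r).dropLast.filter fun w => ¬ I w).map nx := by
  induction r generalizing w with
  | nil =>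
    have h' : ¬ I w := h
    simp [runs, h']
  | cons b r ih =>
    obtain ⟨h1, h2, h3⟩ := h
    have hih := ih b h3
    obtain ⟨n, q, hq, hn⟩ := runs_head b r h3
    rw [List.dropLast_cons_cons]
    by_cases hI : I w
    · rw [hq] at hih
      simp only [List.map_cons, List.cons.injEq, true_and] at hih
      rw [runs, if_pos hI, hq, List.filter_cons, if_neg (by simpa using hI)]
      simp only [List.map_cons, List.cons.injEq, true_and]
      exact hih
    · rw [runs, if_neg hI, List.filter_cons, if_pos (by simpa using hI)]
      simp only [List.map_cons, List.cons.injEq, true_and]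
      rw [hih, h1]

lemma runs_cover (O : List ι) (h : RunsOk M I t nx O) :
    ∀ a ∈ O, ∃ q ∈ runs I t O, ∃ e, e < q.2 ∧ M^[e] q.1 = a := by
  induction O with
  | nil => simp
  | cons w r ih =>
    intro a ha
    obtain ⟨n, q, hq, hn⟩ := runs_head w r h
    rcases List.mem_cons.mp ha with rfl | ha
    · exact ⟨(a, n), by simp [hq], 0, hn, rfl⟩
    · cases r with
      | nil => simp at ha
      | cons b r =>
        obtain ⟨h1, h2, h3⟩ := h
        obtain ⟨c, hc, e, he, hce⟩ := ih h3 a ha
        by_cases hI : I w
        · obtain ⟨n', q', hq', hn'⟩ := runs_head b r h3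
          obtain ⟨h4, h5⟩ := h2 hI
          rw [hq'] at hc
          rcases List.mem_cons.mp hc with rfl | hc
          · refine ⟨(w, t w + n'), by rw [runs, if_pos hI, hq']; simp, t w + e, by simp only at he ⊢; omega, ?_⟩
            simp only at hce ⊢
            rw [Nat.add_comm, Function.iterate_add_apply, h4, hce]
          · exact ⟨c, by rw [runs, if_pos hI, hq']; exact List.mem_cons_of_mem _ hc, e, he, hce⟩
        · exact ⟨c, by rw [runs, if_neg hI]; exact List.mem_cons_of_mem _ hc, e, he, hce⟩

lemma runs_meet (O : List ι) (h : RunsOk M I t nx O) :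
    ∀ a ∈ O, ∃ x ∈ O, ¬ I x ∧ M.SameCycle a x := by
  induction O with
  | nil => simp
  | cons w r ih =>
    intro a ha
    have hw : ∃ x ∈ w :: r, ¬ I x ∧ M.SameCycle w x := by
      cases r with
      | nil => exact ⟨w, by simp, h, Equiv.Perm.SameCycle.refl M w⟩
      | cons b r =>
        obtain ⟨h1, h2, h3⟩ := h
        by_cases hI : I w
        · obtain ⟨x, hx, hxI, hc⟩ := ih h3 b (by simp)
          refine ⟨x, List.mem_cons_of_mem _ hx, hxI, ?_⟩
          obtain ⟨h4, -⟩ := h2 hI
          have : M.SameCycle w b := by
            rw [← h4, Equiv.Perm.iterate_eq_pow]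
            exact (Equiv.Perm.sameCycle_pow_right).mpr (Equiv.Perm.SameCycle.refl M w)
          exact this.trans hc
        · exact ⟨w, by simp, hI, Equiv.Perm.SameCycle.refl M w⟩
    rcases List.mem_cons.mp ha with rfl | ha
    · exact hw
    · cases r with
      | nil => simp at ha
      | cons b r =>
        obtain ⟨x, hx, hxI, hc⟩ := ih h.2.2 a ha
        exact ⟨x, List.mem_cons_of_mem _ hx, hxI, hc⟩

end runs

/-! ### The family of an arrangement -/

section family

variable {ι : Type} [Fintype ι] [DecidableEq ι] {M : Perm ι} {s : ι → Str} {v : ι → ℕ}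

/-- **The lower bound.**  `T` any word containing a substring-free family, `M` an optimal cover with overlaps
`v`.  There are a permutation `π` with declared overlaps `val`, a set `X` of tails of crossing arcs meeting
every cycle of `M`, and a pairing `g` of the heads `π x` with the gaps after the tails `M x`, such that the
crossing costs and the masses of the pairing are at most `2 (|T| - D)`. -/
theorem lb_family (hv : ∀ a, ValidOv (s a) (s (M a)) (v a))
    (hlt : ∀ a, v a < (s a).length)
    (hfree : ∀ i j, i ≠ j → ¬ s i <:+: s j)
    (hopt : ∀ (π : Perm ι) (val : ι → ℕ), (∀ a, ValidOv (s a) (s (π a)) (val a)) →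
        (∀ a, val a = 0 ∨ val a < (s a).length) → ∑ a, val a ≤ ∑ a, v a)
    {T : Str} (hT : ∀ i, s i <:+: T) :
    ∃ (π : Perm ι) (val : ι → ℕ) (X : Finset ι) (g : List (ι × ℕ)),
      (∀ x, ValidOv (s x) (s (π x)) (val x)) ∧
      (∀ x, val x = 0 ∨ val x < (s x).length) ∧
      (∀ a, ∃ x ∈ X, M.SameCycle a x) ∧
      (g.map Prod.fst).Perm (X.toList.map π) ∧
      (g.map fun q => M^[q.2] q.1).Perm (X.toList.map M) ∧
      2 * ∑ x, ((s x).length - v x) + ∑ x ∈ X, (v x + v (M.symm (π x)))
          + (g.map fun q => seg M (ringMass M s v) q.1 q.2).sum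
        ≤ 2 * T.length + 2 * ∑ x ∈ X, val x := by
  classical
  obtain ⟨O, val, hnd, hall, h1, h2, hlast, hsum⟩ := Order.exists_cyclic_order s hfree T hT
  set π : Perm ι := O.formPerm with hπ
  have hcostpos : ∀ a, 0 < cycCost M s v a := fun a =>
    Finset.sum_pos' (fun _ _ => Nat.zero_le _)
      ⟨a, mem_orbitS.mpr (Equiv.Perm.SameCycle.refl M a), by have := hlt a; omega⟩
  let I : ι → Prop := fun x => M.SameCycle x (π x) ∧ π x ≠ x ∧ cycCost M s v x ≤ val x
  have htex : ∀ x, ∃ k, I x → 1 ≤ k ∧ k < Function.minimalPeriod M x ∧ M^[k] x = π x := by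
    intro x
    by_cases hI : I x
    · obtain ⟨j, hj, hje⟩ := mem_orbitS_iff_iterate.mp (mem_orbitS.mpr hI.1)
      refine ⟨j, fun _ => ⟨?_, hj, hje⟩⟩
      rcases Nat.eq_zero_or_pos j with rfl | h0
      · exact absurd hje.symm hI.2.1
      · exact h0
    · exact ⟨0, fun h => absurd h hI⟩
  choose t ht using htex
  -- the list is fine
  have hok : ∀ (B A : List ι), O = A ++ B → RunsOk M I t π B := by
    intro B
    induction B with
    | nil => intro _ _; trivial
    | cons w r ih =>
      intro A hA
      cases r with
      | nil =>
        intro hI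
        have hl : w ∈ O.getLast? := by
          rw [hA]
          simp
        have := hlast w hl
        have h3 := hcostpos w
        have h4 := hI.2.2
        omega
      | cons b r =>
        have hr := ih (A ++ [w]) (by rw [hA]; simp)
        refine ⟨?_, fun hI => ?_, hr⟩
        · have hlt' : A.length + 1 < O.length := by rw [hA]; simp
          have e1 : O[A.length]'(by omega) = w := by
            simp only [hA]
            simp
          have e2 : O[A.length + 1]'hlt' = b := by
            simp only [hA]
            simp
          have := List.formPerm_apply_lt_getElem O hnd A.length hlt'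
          rw [e1, e2] at this
          exact this
        · have h5 := ht w hI
          have hb : π w = b := by
            have hlt' : A.length + 1 < O.length := by rw [hA]; simp
            have e1 : O[A.length]'(by omega) = w := by
              simp only [hA]
              simp
            have e2 : O[A.length + 1]'hlt' = b := by
              simp only [hA]
              simp
            have := List.formPerm_apply_lt_getElem O hnd A.length hlt'
            rw [e1, e2] at this
            exact this
          exact ⟨h5.2.2.trans hb, h5.1⟩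
  have hO : RunsOk M I t π O := hok O [] rfl
  set X : Finset ι := Finset.univ.filter fun x => ¬ I x with hX
  have hXmem : ∀ x, x ∈ X ↔ ¬ I x := by
    intro x
    simp [hX]
  have hXperm : (O.filter fun w => ¬ I w).Perm X.toList := by
    rw [List.perm_ext_iff_of_nodup (hnd.filter _) (Finset.nodup_toList _)]
    intro a
    simp [hXmem, hall a]
  -- the circle lemma
  obtain ⟨g, hg1, hg2, hg3⟩ := circle_lemma (M := M) (mass := ringMass M s v) _ (runs I t O)
    Finset.univ rfl (fun _ _ => Finset.mem_univ _) (fun _ _ => Finset.mem_univ _)
    (fun w _ => runs_cover O hO w (hall w))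
  have hlistsum : ∀ f : ι → ℕ, (O.map f).sum = ∑ x, f x := by
    intro f
    have huniv : O.toFinset = Finset.univ := by
      ext i
      simp [hall i]
    rw [← huniv, List.sum_toFinset _ hnd]
  refine ⟨π, val, X, g, h1, fun x => (h2 x).imp id fun h => h.1, ?_, ?_, ?_, ?_⟩
  · intro a
    obtain ⟨x, -, hx, hc⟩ := runs_meet O hO a (hall a)
    exact ⟨x, (hXmem x).mpr hx, hc⟩
  · refine hg1.trans ?_
    cases O with
    | nil =>
      have hXe : X = ∅ := by
        apply Finset.eq_empty_of_forall_notMem
        intro x _
        simpa using hall x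
      simp [runs, hXe]
    | cons w r =>
      rw [runs_heads w r hO]
      have hne : (w :: r) ≠ [] := by simp
      have hdec := List.dropLast_append_getLast hne
      have hlastI : ¬ I ((w :: r).getLast hne) := by
        have := hok [(w :: r).getLast hne] (w :: r).dropLast hdec.symm
        exact this
      have hπlast : π ((w :: r).getLast hne) = w := List.formPerm_apply_getLast w r
      have hf : ((w :: r).filter fun w => ¬ I w)
          = ((w :: r).dropLast.filter fun w => ¬ I w) ++ [(w :: r).getLast hne] := by
        conv_lhs => rw [← hdec]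
        rw [List.filter_append, List.filter_singleton]
        have hd : decide (¬ I ((w :: r).getLast hne)) = true := by simpa using hlastI
        rw [hd]
        rfl
      have h3 := hXperm.map π
      rw [hf, List.map_append] at h3
      simp only [List.map_singleton, hπlast] at h3
      exact (List.perm_append_singleton _ _).symm.trans h3
  · rw [runs_ends O hO] at hg2
    exact hg2.trans (hXperm.map _)
  · have hruns := runs_sum (M := M) (mass := ringMass M s v) (I := I) (t := t) O hO
    rw [hruns, hlistsum, hlistsum] at hg3
    set cost : ι → ℕ := fun x => seg M (ringMass M s v) (M x) (t x - 1) with hcost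
    have hite : ∑ x, (if I x then cost x else 0) = ∑ x ∈ Xᶜ, cost x := by
      rw [← Finset.sum_add_sum_compl X]
      have e1 : ∑ x ∈ X, (if I x then cost x else 0) = 0 :=
        Finset.sum_eq_zero fun x hx => if_neg ((hXmem x).mp hx)
      have e2 : ∑ x ∈ Xᶜ, (if I x then cost x else 0) = ∑ x ∈ Xᶜ, cost x := by
        refine Finset.sum_congr rfl fun x hx => if_pos ?_
        have := (hXmem x).not.mp (Finset.mem_compl.mp hx)
        simpa using this
      rw [e1, e2, Nat.zero_add]
    rw [hite] at hg3
    have hJ : ∑ x ∈ Xᶜ, (2 * val x + cost x) ≤ ∑ x ∈ Xᶜ, (v x + v (M.symm (π x))) := by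
      refine Finset.sum_le_sum fun x hx => ?_
      have hI : I x := by
        have := (hXmem x).not.mp (Finset.mem_compl.mp hx)
        simpa using this
      obtain ⟨h5, h6, h7⟩ := ht x hI
      have hk : ValidOv (s x) (s (M^[t x] x)) (val x) := by
        rw [h7]
        exact h1 x
      have hkl : val x < (s x).length := by
        rcases h2 x with h | h
        · have h3 := hcostpos x
          have h4 := hI.2.2
          omega
        · exact h.1
      have hmain := line_arc hv hlt hfree hopt h5 h6 hk hI.2.2 hkl
      have e : M^[t x - 1] x = M.symm (π x) := by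
        rw [← h7]
        have : t x = (t x - 1) + 1 := by omega
        conv_rhs => rw [this, Function.iterate_succ_apply', Equiv.symm_apply_apply]
      rw [e] at hmain
      exact hmain
    rw [Finset.sum_add_distrib, Finset.sum_add_distrib, ← Finset.mul_sum] at hJ
    have hv1 := Finset.sum_add_sum_compl X v
    have hv2 := Finset.sum_add_sum_compl X fun x => v (M.symm (π x))
    have hv3 := Finset.sum_add_sum_compl X val
    have hv4 : ∑ x, v (M.symm (π x)) = ∑ x, v x := by
      have e1 : ∑ x, v (M.symm (π x)) = ∑ x, v (M.symm x) :=
        Equiv.sum_comp π fun x => v (M.symm x)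
      rw [e1]
      exact Equiv.sum_comp M.symm v
    have hD : ∑ x, ((s x).length - v x) + ∑ x, v x = ∑ x, (s x).length := by
      rw [← Finset.sum_add_distrib]
      refine Finset.sum_congr rfl fun x _ => ?_
      have := hlt x
      omega
    rw [Finset.sum_add_distrib]
    omega

end family

end Crest.Agent.SS.Alg
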