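/-
The machine side of S0432: Greedy, on the codes of families of strings, is a polynomial time map of bit
strings.  What remains of S0432 is the hypothesis `h` of `superstring_of_ratio`: the greedy conjecture.
-/
import Crest.Agent.SS.GreedyPT
import Crest.Agent.PolyLib.Codes

set_option autoImplicit false

namespace Crest.Agent.SS

open Crest.Agent.PolyLib Crest.Enc

/-- The map on bit strings. -/
def superF (x : List Bool) : List Bool := printList (greedy (decode x))

theorem polyTime_superF : Crest.Complexity.PolyTime superF :=
  PT.polyTime (pt_printList (pt_greedy.comp pt_decode))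

theorem superF_code (S : List (List ℕ)) :
    superF (natCode S.length ++ (S.map listCode).flatten) = listCode (greedy S) := by
  unfold superF
  rw [decode_code, greedy_map bits_injective, printList_map]

/-- The statement of S0432 follows from the greedy conjecture. -/
theorem superstring_of_ratio
    (h : ∀ (S : List (List ℕ)) (T' : List ℕ), (∀ s ∈ S, s <:+: T') →
      (greedy S).length ≤ 2 * T'.length) :
    ∃ f : List Bool → List Bool, Crest.Complexity.PolyTime f ∧
      ∀ S : List (List ℕ), ∃ T : List ℕ,
        f (natCode S.length ++ (S.map listCode).flatten) = listCode T ∧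
        (∀ s ∈ S, s <:+: T) ∧
        ∀ T' : List ℕ, (∀ s ∈ S, s <:+: T') → T.length ≤ 2 * T'.length :=
  ⟨superF, polyTime_superF, fun S =>
    ⟨greedy S, superF_code S, fun _ hs => infix_greedy hs, fun T' hT' => h S T' hT'⟩⟩

end Crest.Agent.SS
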