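/-
S0432: `best_open` in inequality form and with bridges (the stretches of helper95 #2162 / helper25 #2148,
the composite closers of helper22 #2167).

`z i` is any upper bound for the chain of the `Z` list of segment `i`; the `Hy`, `Hx` lists save `δ i`, `ρ i`
against it.  Opening at arc `t` costs `w t - ρ (t+1) - δ t`.  A bridge `B` behind a segment is carried by the
segment (`Seg.bridge`): the `Hy` variant does not contain it, so the deleted stretch is exactly the bridge of
the opened arc.  All statements are list orders, no ring, no period.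
-/
import Crest.Agent.SS.Open

set_option autoImplicit false

namespace Crest.Agent.SS.Alg

open Crest.Agent.SS Finset

section gen

variable (S : ℕ → Seg) (w z δ ρ q : ℕ → ℕ)

/-- One opening, summed over the whole period. -/
theorem open_gen {n : ℕ} (hn : 2 ≤ n) (hS : ∀ i, S (i + n) = S i) (hw : ∀ i, w (i + n) = w i)
    (hz' : ∀ i, z (i + n) = z i) (hδ' : ∀ i, δ (i + n) = δ i)
    (harc : ∀ i, ValidOv (S i).x (S (i + 1)).y (w i))
    (hz : ∀ i, (chain (S i).Z).length ≤ z i)
    (hy : ∀ i, (chain (S i).Hy).length + δ i ≤ z i)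
    (hx : ∀ i, (chain (S i).Hx).length + ρ i ≤ z i) (t : ℕ) :
    (chain (openLists S n t).flatten).length + ∑ i ∈ range n, w i + ρ (t + 1) + δ t ≤
      ∑ i ∈ range n, z i + w t := by
  obtain ⟨m, rfl⟩ : ∃ m, n = m + 2 := ⟨n - 2, by omega⟩
  have hm : m + 2 - 2 = m := by omega
  have hop := open_le S w harc (m + 2) t
  rw [hm] at hop
  have hsumZ : ∑ i ∈ range (m + 2), z (t + 1 + i) = ∑ i ∈ range (m + 2), z i :=
    sum_shift z (m + 2) hz' (t + 1)
  have hsumW : ∑ i ∈ range (m + 2), w (t + 1 + i) = ∑ i ∈ range (m + 2), w i :=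
    sum_shift w (m + 2) hw (t + 1)
  have split : ∀ f : ℕ → ℕ, ∑ i ∈ range (m + 2), f (t + 1 + i) =
      f (t + 1) + ∑ i ∈ range m, f (t + 2 + i) + f (t + 2 + m) := by
    intro f
    rw [Finset.sum_range_succ, Finset.sum_range_succ']
    have e1 : ∀ i, t + 1 + (i + 1) = t + 2 + i := fun i => by omega
    simp only [e1, add_zero]
    omega
  have eT : t + 2 + m = t + (m + 2) := by omega
  have h1 := split z
  have h2 := split w
  rw [hsumZ] at h1
  rw [hsumW] at h2
  have e3 : z (t + 2 + m) = z t := by rw [eT, hz']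
  have e4 : w (t + 2 + m) = w t := by rw [eT, hw]
  rw [e3] at h1
  rw [e4] at h2
  rw [eT, hS] at hop
  have h3 : ∑ i ∈ range m, (chain (S (t + 2 + i)).Z).length ≤ ∑ i ∈ range m, z (t + 2 + i) :=
    Finset.sum_le_sum fun i _ => hz _
  have h4 := hx (t + 1)
  have h5 := hy t
  omega

/-- **Opening at the best arc, general form.**  If each arc exceeds the savings of its ends by at most
`q i`, then some opening satisfies `n (|chain| + Σ w) ≤ n Σ z + Σ q`. -/
theorem best_open_gen {n : ℕ} (hn : 2 ≤ n) (hS : ∀ i, S (i + n) = S i) (hw : ∀ i, w (i + n) = w i)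
    (hz' : ∀ i, z (i + n) = z i) (hδ' : ∀ i, δ (i + n) = δ i)
    (harc : ∀ i, ValidOv (S i).x (S (i + 1)).y (w i))
    (hz : ∀ i, (chain (S i).Z).length ≤ z i)
    (hy : ∀ i, (chain (S i).Hy).length + δ i ≤ z i)
    (hx : ∀ i, (chain (S i).Hx).length + ρ i ≤ z i)
    (hq : ∀ i, w i ≤ ρ (i + 1) + δ i + q i) :
    ∃ t, t < n ∧ n * ((chain (openLists S n t).flatten).length + ∑ i ∈ range n, w i) ≤
      n * ∑ i ∈ range n, z i + ∑ i ∈ range n, q i := by
  by_contra hcon
  have hc : ∀ t ∈ range n, n * ∑ i ∈ range n, z i + ∑ i ∈ range n, q i <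
      n * ((chain (openLists S n t).flatten).length + ∑ i ∈ range n, w i) := by
    intro t ht
    have := fun h => hcon ⟨t, Finset.mem_range.mp ht, h⟩
    exact not_le.mp this
  set W := ∑ i ∈ range n, w i with hW
  set Z := ∑ i ∈ range n, z i with hZ
  set Q := ∑ i ∈ range n, q i with hQ
  -- each opening is at most the excess of its arc
  have h2 : ∀ t, (chain (openLists S n t).flatten).length + W ≤ Z + q t := by
    intro t
    have := open_gen S w z δ ρ hn hS hw hz' hδ' harc hz hy hx t
    have h3 := hq t
    omega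
  have hne : (range n).Nonempty := ⟨0, Finset.mem_range.mpr (by omega)⟩
  have h3 : ∀ t ∈ range n, n * Z + Q < n * (Z + q t) := fun t ht =>
    lt_of_lt_of_le (hc t ht) (Nat.mul_le_mul_left _ (h2 t))
  have h4 := Finset.sum_lt_sum_of_nonempty hne h3
  simp only [Finset.sum_const, Finset.card_range, smul_eq_mul, ← Finset.mul_sum,
    Finset.sum_add_distrib, ← hQ] at h4
  omega

/-- A string of the walk which sits in the `Z` and `Hx` lists of segment `j` (its bridge, say) survives every
opening at an arc other than the arc behind `j`. -/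
theorem mem_open_of_ne {n : ℕ} (hn : 2 ≤ n) (hS : ∀ i, S (i + n) = S i) (t j : ℕ) {v : Str}
    (hne : j % n ≠ t % n) (hZ : v ∈ (S j).Z) (hx : v ∈ (S j).Hx) :
    v ∈ (openLists S n t).flatten := by
  have hper : ∀ k a, S (a + k * n) = S a := by
    intro k a
    induction k with
    | zero => simp
    | succ k ih => rw [show a + (k + 1) * n = a + k * n + n by ring, hS, ih]
  set i := (j + (t + 1) * (n - 1)) % n with hi
  have hilt : i < n := Nat.mod_lt _ (by omega)
  have hmod : (t + 1 + i) % n = j % n := by
    have e : t + 1 + i ≡ j [MOD n] := by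
      have h1 : i ≡ j + (t + 1) * (n - 1) [MOD n] := Nat.mod_modEq _ _
      have h2 : t + 1 + i ≡ t + 1 + (j + (t + 1) * (n - 1)) [MOD n] := h1.add_left _
      refine h2.trans ?_
      have e3 : t + 1 + (j + (t + 1) * (n - 1)) = j + (t + 1) * n := by
        obtain ⟨m, rfl⟩ : ∃ m, n = m + 1 := ⟨n - 1, by omega⟩
        simp only [Nat.add_sub_cancel]
        ring
      rw [e3]
      simp [Nat.ModEq]
    exact e
  have hSmod : ∀ a, S a = S (a % n) := by
    intro a
    conv_lhs => rw [← Nat.mod_add_div a n, Nat.mul_comm n, hper]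
  have hSe : S (t + 1 + i) = S j := by rw [hSmod (t + 1 + i), hmod, ← hSmod j]
  have hi1 : i ≠ n - 1 := by
    intro h
    apply hne
    have e : t + 1 + i = t + n := by omega
    rw [e, Nat.add_mod_right] at hmod
    omega
  unfold openLists
  simp only [List.flatten_cons, List.flatten_append, List.mem_append, List.flatten_nil, List.append_nil]
  by_cases h0 : i = 0
  · rw [h0] at hSe
    refine Or.inl ?_
    simp only [add_zero] at hSe
    rw [hSe]
    exact hx
  · refine Or.inr (Or.inl ?_)
    refine mem_midL S (b := t + 2) (m := n - 2) (i := i - 1) (by omega) ?_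
    rw [show t + 2 + (i - 1) = t + 1 + i by omega, hSe]
    exact hZ

end gen

/-- The bridge behind a segment: the lists `Z`, `Hx` are followed by `B`, the list `Hy` is not. -/
def Seg.bridge (s : Seg) (B : List Str) (b : Str) (hb : B.getLast? = some b) : Seg where
  Z := s.Z ++ B
  Hy := s.Hy
  Hx := s.Hx ++ B
  y := s.y
  x := b
  zh := head?_append_of_head s.zh
  zl := getLast?_append_of_last hb
  hh := s.hh
  hl := getLast?_append_of_last hb

/-- Chains of a bridged segment: with a valid arc `K` into the bridge, `Z` and `Hx` lengthen by at most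
`|chain B| - K`. -/
lemma Seg.bridge_len (s : Seg) {B : List Str} {a b : Str} (ha : B.head? = some a)
    (hb : B.getLast? = some b) {K : ℕ} (hK : ValidOv s.x a K) :
    (chain (s.bridge B b hb).Z).length + K ≤ (chain s.Z).length + (chain B).length ∧
      (chain (s.bridge B b hb).Hx).length + K ≤ (chain s.Hx).length + (chain B).length := by
  constructor
  · exact cost_append_le s.zl ha hK
  · exact cost_append_le s.hl ha hK

end Crest.Agent.SS.Alg
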