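/-
S0432: the machine for the ORCC line (helper54 #1949, helper30 #2043, #2080), as plain Lean functions.
A state is a list of items (word `w`, expansion `E`).  One step takes the maximal overlap over ordered pairs of
different items (full overlap allowed) and proper borders of the words, merges on ties.  A merge glues the words
and the expansions at the same overlap; a closure replaces the word by its border and keeps the expansion.
When all overlaps are zero the output is the concatenation of the expansions.  Only exact duplicates of items are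
dropped.  The level never rises and `E` keeps the first and last `l` letters of `w`, so every merge is legal on the
expansions and `Σ|E| - Σ|w|` is exactly the total of the closure periods.
-/
import Crest.Agent.SS.Greedy

set_option autoImplicit false

namespace Crest.Agent.SS.Orcc

open Crest.Agent.SS

variable {β : Type} [DecidableEq β]

/-- An item: the current word and its expansion. -/
abbrev Item (β : Type) := List β × List β

/-- The longest proper border. -/
def bord (a : List β) : List β := ovl a.tail a

/-- Ordered pairs of different items. -/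
def dpairs (L : List (Item β)) : List (Item β × Item β) :=
  (L.flatMap fun a => L.map fun b => (a, b)).filter fun p => !decide (p.1 = p.2)

/-- The overlap of the words of a pair. -/
def mv (p : Item β × Item β) : ℕ := (ovl p.1.1 p.2.1).length

/-- Keep the pair of larger overlap. -/
def betterP (p q : Item β × Item β) : Item β × Item β := if mv p < mv q then q else p

/-- The first pair of maximal overlap. -/
def bestP (L : List (Item β)) : Item β × Item β :=
  (dpairs L).tail.foldl betterP ((dpairs L).headD (([], []), ([], [])))

/-- Keep the item of larger border. -/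
def betterB (x y : Item β) : Item β := if (bord x.1).length < (bord y.1).length then y else x

/-- The first item of maximal border. -/
def bestB (L : List (Item β)) : Item β := L.tail.foldl betterB (L.headD ([], []))

/-- The merge of two items at the overlap of their words. -/
def mergeI (a b : Item β) : Item β :=
  (merge a.1 b.1, a.2 ++ b.2.drop (ovl a.1 b.1).length)

/-- The state after a merge. -/
def stMerge (L : List (Item β)) (a b : Item β) : List (Item β) :=
  mergeI a b :: ((L.erase a).erase b)

/-- The state after a closure. -/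
def stClose (L : List (Item β)) (x : Item β) : List (Item β) :=
  (bord x.1, x.2) :: L.erase x

/-- One step on a duplicate free list. -/
def oStep0 (L : List (Item β)) : List (Item β) :=
  if (bord (bestB L).1).length ≤ mv (bestP L) then
    if mv (bestP L) = 0 then L else stMerge L (bestP L).1 (bestP L).2
  else stClose L (bestB L)

/-- One step. -/
def oStep (L : List (Item β)) : List (Item β) := oStep0 L.dedup

/-- The first state. -/
def init (S : List (List β)) : List (Item β) := S.map fun s => (s, s)

/-- The final state: as many steps as the total length plus the number of strings. -/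
def finalSt (S : List (List β)) : List (Item β) :=
  S.foldl (fun s _ => oStep s) (S.flatten.foldl (fun s _ => oStep s) (init S))

/-- **The algorithm.** -/
def orcc (S : List (List β)) : List β := ((finalSt S).map Prod.snd).flatten

/-! ### Selection -/

omit [DecidableEq β] in
lemma foldl_max {γ : Type} (v : γ → ℕ) (r : List γ) (s : γ) :
    let t := r.foldl (fun p q => if v p < v q then q else p) s
    (t = s ∨ t ∈ r) ∧ v s ≤ v t ∧ ∀ q ∈ r, v q ≤ v t := by
  induction r generalizing s with
  | nil => simp
  | cons y r ih =>
    simp only [List.foldl_cons]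
    by_cases h : v s < v y
    · simp only [h, if_true]
      obtain ⟨h1, h2, h3⟩ := ih y
      refine ⟨?_, by omega, ?_⟩
      · rcases h1 with h1 | h1
        · right; rw [h1]; simp
        · right; exact List.mem_cons_of_mem _ h1
      · intro q hq
        rcases List.mem_cons.mp hq with rfl | hq
        · exact h2
        · exact h3 q hq
    · simp only [h, if_false]
      obtain ⟨h1, h2, h3⟩ := ih s
      refine ⟨?_, h2, ?_⟩
      · rcases h1 with h1 | h1
        · exact Or.inl h1
        · right; exact List.mem_cons_of_mem _ h1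
      · intro q hq
        rcases List.mem_cons.mp hq with rfl | hq
        · omega
        · exact h3 q hq

lemma mem_dpairs {L : List (Item β)} {p : Item β × Item β} :
    p ∈ dpairs L ↔ p.1 ∈ L ∧ p.2 ∈ L ∧ p.1 ≠ p.2 := by
  rcases p with ⟨a, b⟩
  simp [dpairs, List.mem_flatMap, and_assoc]

/-- The best pair is a pair, and it is maximal. -/
lemma bestP_spec {L : List (Item β)} (hne : dpairs L ≠ []) :
    (bestP L) ∈ dpairs L ∧ ∀ q ∈ dpairs L, mv q ≤ mv (bestP L) := by
  cases h : dpairs L with
  | nil => exact absurd h hne
  | cons s r =>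
    have := foldl_max (mv : Item β × Item β → ℕ) r s
    simp only at this
    obtain ⟨h1, h2, h3⟩ := this
    have e : bestP L = r.foldl (fun p q => if mv p < mv q then q else p) s := by
      simp [bestP, h]
      rfl
    rw [e]
    refine ⟨?_, ?_⟩
    · rcases h1 with h1 | h1
      · rw [h1]; simp
      · exact List.mem_cons_of_mem _ h1
    · intro q hq
      rcases List.mem_cons.mp hq with rfl | hq
      · exact h2
      · exact h3 q hq

lemma mv_eq_zero_of_dpairs_nil {L : List (Item β)} (h : dpairs L = []) : mv (bestP L) = 0 := by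
  simp [bestP, h, mv, ovl]

/-- The best border. -/
lemma bestB_spec {L : List (Item β)} (hne : L ≠ []) :
    (bestB L) ∈ L ∧ ∀ q ∈ L, (bord q.1).length ≤ (bord (bestB L).1).length := by
  cases h : L with
  | nil => exact absurd h hne
  | cons s r =>
    have := foldl_max (fun x : Item β => (bord x.1).length) r s
    simp only at this
    obtain ⟨h1, h2, h3⟩ := this
    have e : bestB (s :: r) = r.foldl (fun p q => if (bord p.1).length < (bord q.1).length then q else p) s := by
      simp [bestB]
      rfl
    rw [e]
    refine ⟨?_, ?_⟩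
    · rcases h1 with h1 | h1
      · rw [h1]; simp
      · exact List.mem_cons_of_mem _ h1
    · intro q hq
      rcases List.mem_cons.mp hq with rfl | hq
      · exact h2
      · exact h3 q hq

lemma bord_nil_of_nil : (bord ([] : List β)) = [] := by simp [bord, ovl]

/-! ### Strings -/

lemma bord_suffix (a : List β) : bord a <:+ a.tail := ovl_suffix _ _

lemma bord_prefix (a : List β) : bord a <+: a := ovl_prefix _ _

lemma bord_length_lt {a : List β} (ha : a ≠ []) : (bord a).length < a.length := by
  have := (bord_suffix a).length_le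
  have h2 : 0 < a.length := List.length_pos_iff.mpr ha
  simp only [List.length_tail] at this
  omega

/-- A proper border is at most the longest one. -/
lemma le_bord {a w : List β} (h1 : w <:+ a) (h2 : w <+: a) (h3 : w.length < a.length) :
    w.length ≤ (bord a).length := by
  refine le_ovl_length ?_ h2
  cases a with
  | nil => simp at h3
  | cons x r =>
    rcases List.suffix_cons_iff.mp h1 with h | h
    · rw [h] at h3
      simp at h3
    · simpa using h

/-- A suffix of `merge a b` longer than the overlap, seen on `a` and `b`. -/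
lemma suffix_merge_split {a b u : List β} (hu : u <:+ merge a b) (hk : b.length ≤ u.length) :
    ∃ u1, u1 <:+ a ∧ u = u1 ++ b.drop (ovl a b).length := by
  have hs : b.drop (ovl a b).length <:+ merge a b := List.suffix_append _ _
  have hle : (b.drop (ovl a b).length).length ≤ u.length := by
    simp only [List.length_drop]
    omega
  have hb : b.drop (ovl a b).length <:+ u := List.suffix_of_suffix_length_le hs hu hle
  obtain ⟨u1, e1⟩ := hb
  refine ⟨u1, ?_, e1.symm⟩
  obtain ⟨t, e2⟩ := hu
  rw [← e1, merge] at e2
  have e3 : t ++ u1 = a := by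
    have : (t ++ u1) ++ b.drop (ovl a b).length = a ++ b.drop (ovl a b).length := by
      rw [List.append_assoc]; exact e2
    exact List.append_cancel_right this
  exact ⟨t, e3⟩

/-- A prefix of `merge a b` longer than `a`, seen on `a` and `b`. -/
lemma prefix_merge_split {a b u : List β} (hu : u <+: merge a b) (hk : a.length ≤ u.length) :
    ∃ u2, u = a ++ u2 ∧ ovl a b ++ u2 <+: b := by
  have ha : a <+: u := List.prefix_of_prefix_length_le (prefix_merge a b) hu hk
  obtain ⟨u2, rfl⟩ := ha
  refine ⟨u2, rfl, ?_⟩
  have h2 : u2 <+: b.drop (ovl a b).length := by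
    rw [merge] at hu
    exact (List.prefix_append_right_inj a).mp hu
  obtain ⟨v, hv⟩ := h2
  obtain ⟨w, hw⟩ := ovl_prefix a b
  refine ⟨v, ?_⟩
  have e : b.drop (ovl a b).length = w := by
    have h3 := congrArg (List.drop (ovl a b).length) hw
    simpa using h3.symm
  rw [e] at hv
  rw [List.append_assoc, hv, hw]

/-- Overlaps out of a merge. -/
lemma ovl_merge_left_le {a b z : List β} {c : ℕ} (hc : (ovl a b).length = c) (h1 : (ovl b z).length ≤ c)
    (h2 : (ovl a z).length ≤ c) : (ovl (merge a b) z).length ≤ c := by
  by_contra hcon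
  have hk : c < (ovl (merge a b) z).length := not_le.mp hcon
  set u := ovl (merge a b) z with hu
  have hs : u <:+ merge a b := ovl_suffix _ _
  have hp : u <+: z := ovl_prefix _ _
  by_cases hb : u.length ≤ b.length
  · have : u <:+ b := List.suffix_of_suffix_length_le hs (suffix_merge a b) hb
    have := le_ovl_length this hp
    omega
  · obtain ⟨u1, h3, h4⟩ := suffix_merge_split hs (by omega)
    have h5 : u1 <+: z := by
      rw [h4] at hp
      exact (List.prefix_append _ _).trans hp
    have h6 := le_ovl_length h3 h5
    have h7 : u.length = u1.length + (b.length - (ovl a b).length) := by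
      rw [h4]; simp
    have h8 := (ovl_prefix a b).length_le
    omega

/-- Overlaps into a merge. -/
lemma ovl_merge_right_le {a b z : List β} {c : ℕ} (hc : (ovl a b).length = c) (h1 : (ovl z a).length ≤ c)
    (h2 : (ovl z b).length ≤ c) : (ovl z (merge a b)).length ≤ c := by
  by_contra hcon
  have hk : c < (ovl z (merge a b)).length := not_le.mp hcon
  set u := ovl z (merge a b) with hu
  have hs : u <:+ z := ovl_suffix _ _
  have hp : u <+: merge a b := ovl_prefix _ _
  by_cases ha : u.length ≤ a.length
  · have : u <+: a := List.prefix_of_prefix_length_le hp (prefix_merge a b) ha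
    have := le_ovl_length hs this
    omega
  · obtain ⟨u2, h3, h4⟩ := prefix_merge_split hp (by omega)
    have h5 : ovl a b ++ u2 <:+ z := by
      refine List.IsSuffix.trans ?_ hs
      rw [h3]
      obtain ⟨t, ht⟩ := ovl_suffix a b
      refine ⟨t, ?_⟩
      rw [← List.append_assoc, ht]
    have h6 := le_ovl_length h5 h4
    have h7 : u.length = a.length + u2.length := by rw [h3]; simp
    simp only [List.length_append] at h6
    omega

/-- The border of a merge. -/
lemma bord_merge_le {a b : List β} {c : ℕ} (hc : (ovl a b).length = c) (h1 : (ovl b a).length ≤ c)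
    (h2 : (bord a).length ≤ c) (h3 : (bord b).length ≤ c) : (bord (merge a b)).length ≤ c := by
  by_contra hcon
  have hk : c < (bord (merge a b)).length := not_le.mp hcon
  set u := bord (merge a b) with hu
  have hp : u <+: merge a b := bord_prefix _
  have hs0 : u <:+ (merge a b).tail := bord_suffix _
  have hs : u <:+ merge a b := hs0.trans (List.tail_suffix _)
  have hlt : u.length < (merge a b).length := by
    have := hs0.length_le
    simp only [List.length_tail] at this
    have h5 : 0 < (merge a b).length := by omega
    omega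
  have hml := merge_length a b
  have ho1 := (ovl_prefix a b).length_le
  have ho2 := (ovl_suffix a b).length_le
  by_cases hb : b.length < u.length
  · -- long: a border of `a`
    obtain ⟨u1, h4, h5⟩ := suffix_merge_split hs hb.le
    have e1 : u.length = u1.length + (b.length - (ovl a b).length) := by rw [h5]; simp
    have h6 : u1 <+: u := by rw [h5]; exact List.prefix_append _ _
    have h7 : u1 <+: merge a b := h6.trans hp
    have h8 : u1 <+: a :=
      List.prefix_of_prefix_length_le h7 (prefix_merge a b) h4.length_le
    have h9 := le_bord h4 h8 (by omega)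
    omega
  · by_cases ha : a.length < u.length
    · -- a border of `b`
      obtain ⟨u2, h4, h5⟩ := prefix_merge_split hp ha.le
      have e1 : u.length = a.length + u2.length := by rw [h4]; simp
      have h6 : u <:+ b := List.suffix_of_suffix_length_le hs (suffix_merge a b) (by omega)
      have h7 : ovl a b ++ u2 <:+ u := by
        rw [h4]
        obtain ⟨t, ht⟩ := ovl_suffix a b
        refine ⟨t, ?_⟩
        rw [← List.append_assoc, ht]
      have h8 := le_bord (h7.trans h6) h5 (by simp only [List.length_append]; omega)
      simp only [List.length_append] at h8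
      omega
    · -- both short: an overlap `b → a`
      have h6 : u <:+ b := List.suffix_of_suffix_length_le hs (suffix_merge a b) (by omega)
      have h7 : u <+: a := List.prefix_of_prefix_length_le hp (prefix_merge a b) (by omega)
      have := le_ovl_length h6 h7
      omega

/-! ### The level and the expansions -/

/-- All overlaps and borders are at most `c`. -/
def Lev (c : ℕ) (L : List (Item β)) : Prop :=
  (∀ a ∈ L, ∀ b ∈ L, a ≠ b → (ovl a.1 b.1).length ≤ c) ∧ ∀ a ∈ L, (bord a.1).length ≤ c

/-- The expansion keeps the first and the last `l` letters of the word. -/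
def Exp (l : ℕ) (x : Item β) : Prop :=
  x.1.take l <+: x.2 ∧ x.1.drop (x.1.length - l) <:+ x.2 ∧ x.1.length ≤ x.2.length

/-- The invariant of the run. -/
def Inv (l : ℕ) (L : List (Item β)) : Prop := Lev l L ∧ ∀ x ∈ L, Exp l x

omit [DecidableEq β] in
lemma Exp.mono {l c : ℕ} {x : Item β} (h : Exp l x) (hc : c ≤ l) : Exp c x := by
  obtain ⟨h1, h2, h3⟩ := h
  refine ⟨?_, ?_, h3⟩
  · refine List.IsPrefix.trans ?_ h1
    refine List.prefix_of_prefix_length_le (List.take_prefix _ _) (List.take_prefix _ _) ?_
    simp only [List.length_take]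
    omega
  · refine List.IsSuffix.trans ?_ h2
    refine List.suffix_of_suffix_length_le (List.drop_suffix _ _) (List.drop_suffix _ _) ?_
    simp only [List.length_drop]
    omega

lemma Lev.mono {l c : ℕ} {L : List (Item β)} (h : Lev c L) (hc : c ≤ l) : Lev l L :=
  ⟨fun a ha b hb hab => (h.1 a ha b hb hab).trans hc, fun a ha => (h.2 a ha).trans hc⟩

lemma Lev.sublist {l : ℕ} {L M : List (Item β)} (h : Lev l L) (hs : ∀ x ∈ M, x ∈ L) : Lev l M :=
  ⟨fun a ha b hb hab => h.1 a (hs a ha) b (hs b hb) hab, fun a ha => h.2 a (hs a ha)⟩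

/-- A merge is legal on the expansions. -/
lemma mergeI_exp {a b : Item β} {c : ℕ} (hc : (ovl a.1 b.1).length = c) (ha : Exp c a) (hb : Exp c b) :
    Exp c (mergeI a b) ∧ a.2 <+: (mergeI a b).2 ∧ b.2 <:+ (mergeI a b).2 ∧
      (mergeI a b).2.length + c = a.2.length + b.2.length ∧
      (mergeI a b).1.length + c = a.1.length + b.1.length := by
  obtain ⟨ha1, ha2, ha3⟩ := ha
  obtain ⟨hb1, hb2, hb3⟩ := hb
  set ov := ovl a.1 b.1 with hov
  have hs : ov <:+ a.1 := ovl_suffix _ _
  have hp : ov <+: b.1 := ovl_prefix _ _
  have e1 : ov = a.1.drop (a.1.length - c) := by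
    have := List.suffix_iff_eq_drop.mp hs
    rwa [hc] at this
  have e2 : ov = b.1.take c := by
    have := List.prefix_iff_eq_take.mp hp
    rwa [hc] at this
  have h1 : ov <:+ a.2 := by rw [e1]; exact ha2
  have h2 : ov <+: b.2 := by rw [e2]; exact hb1
  obtain ⟨t, ht⟩ := h1
  obtain ⟨v, hv⟩ := h2
  have hdrop : b.2.drop c = v := by
    rw [← hc, ← hv]
    simp
  have hE : (mergeI a b).2 = t ++ b.2 := by
    show a.2 ++ b.2.drop (ovl a.1 b.1).length = _
    rw [← hov, hc, hdrop, ← ht, ← hv, List.append_assoc]
  have hsuf : b.2 <:+ (mergeI a b).2 := by rw [hE]; exact List.suffix_append _ _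
  have hpre : a.2 <+: (mergeI a b).2 := List.prefix_append _ _
  have hlen : (mergeI a b).2.length + c = a.2.length + b.2.length := by
    rw [hE, ← ht, ← hc]
    simp only [List.length_append]
    omega
  have hwl : (mergeI a b).1.length + c = a.1.length + b.1.length := by
    have := merge_length a.1 b.1
    rw [← hov, hc] at this
    exact this
  have hcA : c ≤ a.1.length := by rw [← hc]; exact hs.length_le
  have hcB : c ≤ b.1.length := by rw [← hc]; exact hp.length_le
  refine ⟨⟨?_, ?_, ?_⟩, hpre, hsuf, hlen, hwl⟩
  · -- the first `c` letters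
    have : (mergeI a b).1.take c = a.1.take c := by
      show (merge a.1 b.1).take c = _
      rw [merge, List.take_append_of_le_length hcA]
    rw [this]
    exact ha1.trans hpre
  · -- the last `c` letters
    have hW : b.1 <:+ (mergeI a b).1 := suffix_merge a.1 b.1
    have h3 : (mergeI a b).1.drop ((mergeI a b).1.length - c) = b.1.drop (b.1.length - c) := by
      apply List.IsSuffix.eq_of_length
      · exact List.suffix_of_suffix_length_le (List.drop_suffix _ _)
          ((List.drop_suffix _ _).trans hW) (by simp only [List.length_drop]; omega)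
      · simp only [List.length_drop]
        omega
    rw [h3]
    exact hb2.trans hsuf
  · omega

/-- A closure keeps the expansion. -/
lemma close_exp {x : Item β} {c : ℕ} (hc : (bord x.1).length = c) (hx : Exp c x) :
    Exp c (bord x.1, x.2) := by
  obtain ⟨h1, h2, h3⟩ := hx
  have hp : bord x.1 <+: x.1 := bord_prefix _
  have hs : bord x.1 <:+ x.1 := (bord_suffix _).trans (List.tail_suffix _)
  have e1 : bord x.1 = x.1.take c := by
    have := List.prefix_iff_eq_take.mp hp
    rwa [hc] at this
  have e2 : bord x.1 = x.1.drop (x.1.length - c) := by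
    have := List.suffix_iff_eq_drop.mp hs
    rwa [hc] at this
  refine ⟨?_, ?_, ?_⟩
  · show (bord x.1).take c <+: x.2
    have e3 : (bord x.1).take c = bord x.1 := by rw [← hc]; exact List.take_length
    rw [e3, e1]
    exact h1
  · show (bord x.1).drop ((bord x.1).length - c) <:+ x.2
    rw [hc, Nat.sub_self, List.drop_zero, e2]
    exact h2
  · exact hs.length_le.trans h3

/-- The level after a merge. -/
lemma lev_merge {L : List (Item β)} (hL : L.Nodup) {a b : Item β} {c : ℕ} (hc : (ovl a.1 b.1).length = c)
    (hl : Lev c L) (ha : a ∈ L) (hb : b ∈ L) (hab : a ≠ b) : Lev c (stMerge L a b) := by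
  have hm : ∀ z ∈ (L.erase a).erase b, z ∈ L ∧ z ≠ a ∧ z ≠ b := by
    intro z hz
    have h1 : z ≠ b := fun h => by
      rw [h] at hz
      exact ((hL.erase a).not_mem_erase) hz
    have h2 : z ∈ L.erase a := List.mem_of_mem_erase hz
    have h3 : z ≠ a := fun h => by
      rw [h] at h2
      exact hL.not_mem_erase h2
    exact ⟨List.mem_of_mem_erase h2, h3, h1⟩
  refine ⟨?_, ?_⟩
  · intro u hu v hv huv
    rcases List.mem_cons.mp hu with rfl | hu
    · rcases List.mem_cons.mp hv with rfl | hv
      · exact absurd rfl huv
      · obtain ⟨h1, h2, h3⟩ := hm v hv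
        exact ovl_merge_left_le hc (hl.1 b hb v h1 (Ne.symm h3)) (hl.1 a ha v h1 (Ne.symm h2))
    · obtain ⟨h1, h2, h3⟩ := hm u hu
      rcases List.mem_cons.mp hv with rfl | hv
      · exact ovl_merge_right_le hc (hl.1 u h1 a ha h2) (hl.1 u h1 b hb h3)
      · exact hl.1 u h1 v (hm v hv).1 huv
  · intro u hu
    rcases List.mem_cons.mp hu with rfl | hu
    · exact bord_merge_le hc (hl.1 b hb a ha (Ne.symm hab)) (hl.2 a ha) (hl.2 b hb)
    · exact hl.2 u (hm u hu).1

/-- The level after a closure. -/
lemma lev_close {L : List (Item β)} {x : Item β} {c : ℕ} (hc : (bord x.1).length = c)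
    (hl : Lev c L) : Lev c (stClose L x) := by
  have hm : ∀ z ∈ L.erase x, z ∈ L := fun z hz => List.mem_of_mem_erase hz
  have hword : ∀ z : List β, (ovl (bord x.1) z).length ≤ c := fun z => by
    rw [← hc]; exact (ovl_suffix _ _).length_le
  have hword2 : ∀ z : List β, (ovl z (bord x.1)).length ≤ c := fun z => by
    rw [← hc]; exact (ovl_prefix _ _).length_le
  refine ⟨?_, ?_⟩
  · intro u hu v hv huv
    rcases List.mem_cons.mp hu with rfl | hu
    · exact hword _
    · rcases List.mem_cons.mp hv with rfl | hv
      · exact hword2 _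
      · exact hl.1 u (hm u hu) v (hm v hv) huv
  · intro u hu
    rcases List.mem_cons.mp hu with rfl | hu
    · show (bord (bord x.1)).length ≤ c
      have := (bord_suffix (bord x.1)).length_le
      simp only [List.length_tail] at this
      omega
    · exact hl.2 u (hm u hu)

/-! ### The cases of a step -/

/-- All overlaps and borders vanish. -/
def Fixed (L : List (Item β)) : Prop := Lev 0 L

/-- The three cases of a step on a duplicate free list. -/
theorem oStep0_cases (L : List (Item β)) :
    (oStep0 L = L ∧ Fixed L) ∨
    (∃ a b c, a ∈ L ∧ b ∈ L ∧ a ≠ b ∧ 0 < c ∧ (ovl a.1 b.1).length = c ∧ Lev c L ∧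
      oStep0 L = stMerge L a b) ∨
    (∃ x c, x ∈ L ∧ 0 < c ∧ (bord x.1).length = c ∧ Lev c L ∧
      (∀ a ∈ L, ∀ b ∈ L, a ≠ b → (ovl a.1 b.1).length < c) ∧ oStep0 L = stClose L x) := by
  have hpairs : ∀ a ∈ L, ∀ b ∈ L, a ≠ b → (ovl a.1 b.1).length ≤ mv (bestP L) := by
    intro a ha b hb hab
    have hmem : (a, b) ∈ dpairs L := mem_dpairs.mpr ⟨ha, hb, hab⟩
    exact (bestP_spec (List.ne_nil_of_mem hmem)).2 _ hmem
  have hbord : ∀ a ∈ L, (bord a.1).length ≤ (bord (bestB L).1).length := fun a ha =>
    (bestB_spec (List.ne_nil_of_mem ha)).2 a ha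
  by_cases h1 : (bord (bestB L).1).length ≤ mv (bestP L)
  · by_cases h2 : mv (bestP L) = 0
    · left
      refine ⟨by unfold oStep0; rw [if_pos h1, if_pos h2], ?_, ?_⟩
      · intro a ha b hb hab
        have := hpairs a ha b hb hab
        omega
      · intro a ha
        have := hbord a ha
        omega
    · right; left
      have hne : dpairs L ≠ [] := fun h => h2 (mv_eq_zero_of_dpairs_nil h)
      obtain ⟨h3, -⟩ := bestP_spec hne
      obtain ⟨h4, h5, h6⟩ := mem_dpairs.mp h3
      refine ⟨(bestP L).1, (bestP L).2, mv (bestP L), h4, h5, h6, by omega, rfl, ⟨hpairs, ?_⟩, ?_⟩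
      · intro a ha
        exact (hbord a ha).trans h1
      · unfold oStep0; rw [if_pos h1, if_neg h2]
  · right; right
    have hlt : mv (bestP L) < (bord (bestB L).1).length := not_le.mp h1
    have hne : L ≠ [] := by
      rintro rfl
      simp [bestB, bord, ovl] at hlt
    obtain ⟨h3, -⟩ := bestB_spec hne
    refine ⟨bestB L, _, h3, by omega, rfl, ⟨?_, hbord⟩, ?_, ?_⟩
    · intro a ha b hb hab
      exact (hpairs a ha b hb hab).trans hlt.le
    · intro a ha b hb hab
      exact lt_of_le_of_lt (hpairs a ha b hb hab) hlt
    · unfold oStep0; rw [if_neg h1]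

/-! ### Termination -/

/-- The measure: total length plus number of items. -/
def meas (L : List (Item β)) : ℕ := (L.map fun x => x.1.length + 1).sum

lemma meas_perm {L M : List (Item β)} (h : L.Perm M) : meas L = meas M := (h.map _).sum_eq

lemma meas_erase {L : List (Item β)} {x : Item β} (h : x ∈ L) :
    meas L = x.1.length + 1 + meas (L.erase x) := by
  have := meas_perm (List.perm_cons_erase h)
  rw [this]
  simp [meas]

lemma meas_sublist {L M : List (Item β)} (h : L.Sublist M) : meas L ≤ meas M := by
  induction h with
  | slnil => exact le_rfl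
  | cons a _ ih => simp only [meas, List.map_cons, List.sum_cons] at ih ⊢; omega
  | cons_cons a _ ih => simp only [meas, List.map_cons, List.sum_cons] at ih ⊢; omega

lemma length_le_meas (L : List (Item β)) : L.length ≤ meas L := by
  induction L with
  | nil => simp [meas]
  | cons a L ih => simp only [meas, List.map_cons, List.sum_cons, List.length_cons] at ih ⊢; omega

lemma meas_sublist_lt {L M : List (Item β)} (h : L.Sublist M) (hlen : L.length < M.length) :
    meas L < meas M := by
  induction h with
  | slnil => simp at hlen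
  | cons a h2 ih =>
    have := meas_sublist h2
    simp only [meas, List.map_cons, List.sum_cons] at this ⊢
    omega
  | cons_cons a h2 ih =>
    simp only [List.length_cons] at hlen
    have := ih (by omega)
    simp only [meas, List.map_cons, List.sum_cons] at this ⊢
    omega

lemma meas_stMerge {L : List (Item β)} {a b : Item β} {c : ℕ} (ha : a ∈ L) (hb : b ∈ L) (hab : a ≠ b)
    (hc0 : 0 < c) (hc : (ovl a.1 b.1).length = c) : meas (stMerge L a b) < meas L := by
  have h1 := meas_erase ha
  have h2 := meas_erase ((List.mem_erase_of_ne hab.symm).mpr hb)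
  have h3 := merge_length a.1 b.1
  simp only [stMerge, meas, List.map_cons, List.sum_cons, mergeI] at h1 h2 ⊢
  omega

lemma meas_stClose {L : List (Item β)} {x : Item β} {c : ℕ} (hx : x ∈ L) (hc0 : 0 < c)
    (hc : (bord x.1).length = c) : meas (stClose L x) < meas L := by
  have h1 := meas_erase hx
  have hne : x.1 ≠ [] := by
    intro h
    rw [h, bord_nil_of_nil] at hc
    simp at hc
    omega
  have h2 := bord_length_lt hne
  simp only [stClose, meas, List.map_cons, List.sum_cons] at h1 ⊢
  omega

/-- A step either decreases the measure or does nothing, on a fixed duplicate free list. -/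
theorem oStep_dec (L : List (Item β)) :
    meas (oStep L) < meas L ∨ (oStep L = L ∧ L.Nodup ∧ Fixed L) := by
  by_cases hn : L.Nodup
  · have e : L.dedup = L := List.dedup_eq_self.mpr hn
    rw [oStep, e]
    rcases oStep0_cases L with ⟨h1, h2⟩ | ⟨a, b, c, ha, hb, hab, hc0, hc, -, h⟩ | ⟨x, c, hx, hc0, hc, -, -, h⟩
    · exact Or.inr ⟨h1, hn, h2⟩
    · left; rw [h]; exact meas_stMerge ha hb hab hc0 hc
    · left; rw [h]; exact meas_stClose hx hc0 hc
  · left
    have hs : L.dedup.Sublist L := List.dedup_sublist L
    have hlen : L.dedup.length < L.length := by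
      by_contra hcon
      have hle := hs.length_le
      have heq : L.dedup = L := hs.eq_of_length (by omega)
      exact hn (by rw [← heq]; exact List.nodup_dedup L)
    have hlt := meas_sublist_lt hs hlen
    rw [oStep]
    rcases oStep0_cases L.dedup with ⟨h1, -⟩ | ⟨a, b, c, ha, hb, hab, hc0, hc, -, h⟩ | ⟨x, c, hx, hc0, hc, -, -, h⟩
    · rw [h1]; exact hlt
    · rw [h]; exact (meas_stMerge ha hb hab hc0 hc).trans hlt
    · rw [h]; exact (meas_stClose hx hc0 hc).trans hlt

/-- Iterations. -/
def iter {γ : Type} (r : List γ) (L : List (Item β)) : List (Item β) := r.foldl (fun s _ => oStep s) L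

lemma iter_fixed {γ : Type} (r : List γ) {L : List (Item β)} (h : oStep L = L) : iter r L = L := by
  induction r with
  | nil => rfl
  | cons x r ih =>
    simp only [iter, List.foldl_cons, h]
    exact ih

/-- After `meas` steps the state is fixed. -/
theorem iter_stable {γ : Type} (r : List γ) (L : List (Item β)) (hn : meas L ≤ r.length) :
    oStep (iter r L) = iter r L ∧ (iter r L).Nodup ∧ Fixed (iter r L) := by
  induction r generalizing L with
  | nil =>
    have hm : meas L = 0 := by simpa using hn
    have hlen := length_le_meas L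
    have : L = [] := List.length_eq_zero_iff.mp (by omega)
    subst this
    have h := oStep_dec ([] : List (Item β))
    rcases h with h | ⟨h1, h2, h3⟩
    · simp [meas] at h
    · exact ⟨h1, h2, h3⟩
  | cons x r ih =>
    rcases oStep_dec L with h | ⟨h1, h2, h3⟩
    · have := ih (oStep L) (by simp only [List.length_cons] at hn; omega)
      simpa only [iter, List.foldl_cons] using this
    · rw [iter_fixed _ h1]
      exact ⟨h1, h2, h3⟩

lemma meas_init (S : List (List β)) : meas (init S) = S.flatten.length + S.length := by
  induction S with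
  | nil => simp [meas, init]
  | cons s S ih =>
    simp only [meas, init, List.map_map, List.map_cons, List.sum_cons, List.flatten_cons,
      List.length_append, List.length_cons] at ih ⊢
    simp only [Function.comp_def] at ih ⊢
    omega

lemma finalSt_eq (S : List (List β)) :
    finalSt S = iter (S.flatten.map (fun _ => ()) ++ S.map (fun _ => ())) (init S) := by
  simp only [finalSt, iter, List.foldl_append, List.foldl_map]

/-- The final state is fixed. -/
theorem finalSt_stable (S : List (List β)) :
    (finalSt S).Nodup ∧ Fixed (finalSt S) := by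
  rw [finalSt_eq]
  have := iter_stable (S.flatten.map (fun _ => ()) ++ S.map (fun _ => ())) (init S)
    (by rw [meas_init]; simp only [List.length_append, List.length_map]; exact le_rfl)
  exact ⟨this.2.1, this.2.2⟩

/-! ### The invariant along the run -/

/-- The expansions keep the strings. -/
def Keeps (S : List (List β)) (L : List (Item β)) : Prop := ∀ s ∈ S, ∃ x ∈ L, s <:+: x.2

/-- The sum of `|E| - |w|`. -/
def gap (L : List (Item β)) : ℕ := (L.map fun x => x.2.length - x.1.length).sum

lemma gap_perm {L M : List (Item β)} (h : L.Perm M) : gap L = gap M := (h.map _).sum_eq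

lemma gap_erase {L : List (Item β)} {x : Item β} (h : x ∈ L) :
    gap L = (x.2.length - x.1.length) + gap (L.erase x) := by
  rw [gap_perm (List.perm_cons_erase h)]
  simp [gap]

lemma gap_sublist {L M : List (Item β)} (h : L.Sublist M) : gap L ≤ gap M := by
  induction h with
  | slnil => exact le_rfl
  | cons a _ ih => simp only [gap, List.map_cons, List.sum_cons] at ih ⊢; omega
  | cons_cons a _ ih => simp only [gap, List.map_cons, List.sum_cons] at ih ⊢; omega

/-- The sum of the word lengths. -/
def wlen (L : List (Item β)) : ℕ := (L.map fun x => x.1.length).sum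

/-- The sum of the expansion lengths. -/
def elen (L : List (Item β)) : ℕ := (L.map fun x => x.2.length).sum

lemma elen_eq {L : List (Item β)} (h : ∀ x ∈ L, x.1.length ≤ x.2.length) : elen L = wlen L + gap L := by
  induction L with
  | nil => simp [elen, wlen, gap]
  | cons a L ih =>
    have h1 := h a List.mem_cons_self
    have h2 := ih fun x hx => h x (List.mem_cons_of_mem _ hx)
    simp only [elen, wlen, gap, List.map_cons, List.sum_cons] at h2 ⊢
    omega

/-- The invariant after a merge. -/
lemma inv_merge {L : List (Item β)} (hL : L.Nodup) {a b : Item β} {c l : ℕ} (hI : Inv l L)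
    (hcl : c ≤ l) (hc : (ovl a.1 b.1).length = c)
    (hl : Lev c L) (ha : a ∈ L) (hb : b ∈ L) (hab : a ≠ b) :
    Inv c (stMerge L a b) ∧ gap (stMerge L a b) = gap L ∧
      (∀ s : List β, (∃ x ∈ L, s <:+: x.2) → ∃ x ∈ stMerge L a b, s <:+: x.2) := by
  have hEa := (hI.2 a ha).mono hcl
  have hEb := (hI.2 b hb).mono hcl
  obtain ⟨h1, h2, h3, h4, h5⟩ := mergeI_exp hc hEa hEb
  refine ⟨⟨lev_merge hL hc hl ha hb hab, ?_⟩, ?_, ?_⟩
  · intro x hx
    rcases List.mem_cons.mp hx with rfl | hx
    · exact h1
    · exact (hI.2 x (List.mem_of_mem_erase (List.mem_of_mem_erase hx))).mono hcl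
  · have g1 := gap_erase ha
    have g2 := gap_erase ((List.mem_erase_of_ne hab.symm).mpr hb)
    have la := hEa.2.2
    have lb := hEb.2.2
    simp only [stMerge, gap, List.map_cons, List.sum_cons] at g1 g2 ⊢
    omega
  · rintro s ⟨x, hx, hs⟩
    by_cases e1 : x = a
    · subst e1
      exact ⟨_, List.mem_cons_self, hs.trans h2.isInfix⟩
    by_cases e2 : x = b
    · subst e2
      exact ⟨_, List.mem_cons_self, hs.trans h3.isInfix⟩
    · refine ⟨x, List.mem_cons_of_mem _ ?_, hs⟩
      exact (List.mem_erase_of_ne e2).mpr ((List.mem_erase_of_ne e1).mpr hx)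

/-- The invariant after a closure. -/
lemma inv_close {L : List (Item β)} {x : Item β} {c l : ℕ} (hI : Inv l L)
    (hcl : c ≤ l) (hc : (bord x.1).length = c) (hl : Lev c L) (hx : x ∈ L) :
    Inv c (stClose L x) ∧ gap (stClose L x) = gap L + (x.1.length - c) ∧
      (∀ s : List β, (∃ y ∈ L, s <:+: y.2) → ∃ y ∈ stClose L x, s <:+: y.2) := by
  have hEx := (hI.2 x hx).mono hcl
  refine ⟨⟨lev_close hc hl, ?_⟩, ?_, ?_⟩
  · intro y hy
    rcases List.mem_cons.mp hy with rfl | hy
    · exact close_exp hc hEx
    · exact (hI.2 y (List.mem_of_mem_erase hy)).mono hcl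
  · have g1 := gap_erase hx
    have h2 : c ≤ x.1.length := by
      rw [← hc]
      exact ((bord_suffix _).trans (List.tail_suffix _)).length_le
    have h3 := hEx.2.2
    simp only [stClose, gap, List.map_cons, List.sum_cons] at g1 ⊢
    rw [hc]
    omega
  · rintro s ⟨y, hy, hs⟩
    by_cases e1 : y = x
    · subst e1
      exact ⟨_, List.mem_cons_self, hs⟩
    · exact ⟨y, List.mem_cons_of_mem _ ((List.mem_erase_of_ne e1).mpr hy), hs⟩

/-- The hypotheses on a potential: `Φ` may use any ghost state through `Good`. -/
structure Pot (S : List (List β)) (Φ : List (Item β) → ℕ) (Good : List (Item β) → Prop) : Prop where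
  /-- the first state is good -/
  start : Good (init S)
  /-- removing exact duplicates -/
  dedup : ∀ L, Good L → Good L.dedup ∧ Φ L.dedup ≤ Φ L
  /-- a merge at the top level, duplicate free state -/
  merge : ∀ L a b c, Good L → L.Nodup → a ∈ L → b ∈ L → a ≠ b → 0 < c → (ovl a.1 b.1).length = c → Lev c L →
    Good (stMerge L a b) ∧ Φ (stMerge L a b) ≤ Φ L
  /-- a closure at the top level (all overlaps smaller, merge first), paying the period -/
  close : ∀ L x c, Good L → L.Nodup → x ∈ L → 0 < c → (bord x.1).length = c → Lev c L →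
    (∀ a ∈ L, ∀ b ∈ L, a ≠ b → (ovl a.1 b.1).length < c) →
    Good (stClose L x) ∧ Φ (stClose L x) + (x.1.length - c) ≤ Φ L
  /-- at the end the potential pays the rest -/
  fix : ∀ L, Good L → L.Nodup → Fixed L → wlen L ≤ Φ L

/-- The state along the run. -/
def RunOK (S : List (List β)) (Φ : List (Item β) → ℕ) (Good : List (Item β) → Prop) (L : List (Item β)) : Prop :=
  (∃ l, Inv l L) ∧ Keeps S L ∧ Good L ∧ gap L + Φ L ≤ Φ (init S)

lemma inv_dedup {l : ℕ} {L : List (Item β)} (h : Inv l L) : Inv l L.dedup :=
  ⟨h.1.sublist fun _ hx => List.mem_dedup.mp hx, fun x hx => h.2 x (List.mem_dedup.mp hx)⟩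

/-- One step keeps everything. -/
theorem runOK_step {S : List (List β)} {Φ : List (Item β) → ℕ} {Good : List (Item β) → Prop}
    (hP : Pot S Φ Good) {L : List (Item β)} (h : RunOK S Φ Good L) : RunOK S Φ Good (oStep L) := by
  obtain ⟨⟨l, hI⟩, hK, hG, hJ⟩ := h
  have hI' := inv_dedup hI
  have hK' : Keeps S L.dedup := fun s hs => by
    obtain ⟨x, hx, h3⟩ := hK s hs
    exact ⟨x, List.mem_dedup.mpr hx, h3⟩
  obtain ⟨hG', hΦ⟩ := hP.dedup L hG
  have hJ' : gap L.dedup + Φ L.dedup ≤ Φ (init S) := by
    have := gap_sublist (List.dedup_sublist L)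
    omega
  have hnd := List.nodup_dedup L
  rw [oStep]
  -- the level: the top of the state is at most `l`
  rcases oStep0_cases L.dedup with ⟨h1, -⟩ | ⟨a, b, c, ha, hb, hab, hc0, hc, hl, h⟩ |
    ⟨x, c, hx, hc0, hc, hl, hlt, h⟩
  · rw [h1]
    exact ⟨⟨l, hI'⟩, hK', hG', hJ'⟩
  · rw [h]
    have hcl : c ≤ l := by rw [← hc]; exact hI'.1.1 a ha b hb hab
    obtain ⟨i1, i2, i3⟩ := inv_merge hnd hI' hcl hc hl ha hb hab
    obtain ⟨g1, g2⟩ := hP.merge _ a b c hG' hnd ha hb hab hc0 hc hl
    refine ⟨⟨c, i1⟩, fun s hs => i3 s (hK' s hs), g1, ?_⟩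
    rw [i2]
    omega
  · rw [h]
    have hcl : c ≤ l := by rw [← hc]; exact hI'.1.2 x hx
    obtain ⟨i1, i2, i3⟩ := inv_close hI' hcl hc hl hx
    obtain ⟨g1, g2⟩ := hP.close _ x c hG' hnd hx hc0 hc hl hlt
    refine ⟨⟨c, i1⟩, fun s hs => i3 s (hK' s hs), g1, ?_⟩
    rw [i2]
    omega

lemma runOK_iter {γ : Type} {S : List (List β)} {Φ : List (Item β) → ℕ} {Good : List (Item β) → Prop}
    (hP : Pot S Φ Good) (r : List γ) {L : List (Item β)} (h : RunOK S Φ Good L) :
    RunOK S Φ Good (iter r L) := by
  induction r generalizing L with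
  | nil => exact h
  | cons x r ih => exact ih (runOK_step hP h)

omit [DecidableEq β] in
lemma keeps_flatten {S : List (List β)} {L : List (Item β)} (h : ∀ s ∈ S, ∃ x ∈ L, s <:+: x.2) :
    ∀ s ∈ S, s <:+: (L.map Prod.snd).flatten := by
  intro s hs
  obtain ⟨x, hx, h1⟩ := h s hs
  refine h1.trans ?_
  obtain ⟨t, u, e⟩ := List.append_of_mem (List.mem_map.mpr ⟨x, hx, rfl⟩ : x.2 ∈ L.map Prod.snd)
  rw [e]
  simp only [List.flatten_append, List.flatten_cons]
  exact ⟨t.flatten, u.flatten, by simp [List.append_assoc]⟩

omit [DecidableEq β] in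
lemma length_flatten_elen (L : List (Item β)) : ((L.map Prod.snd).flatten).length = (L.map fun x => x.2.length).sum := by
  induction L with
  | nil => simp
  | cons a L ih => simp [ih]

/-- The first state satisfies the run invariant. -/
lemma runOK_init {S : List (List β)} {Φ : List (Item β) → ℕ} {Good : List (Item β) → Prop}
    (hP : Pot S Φ Good) : RunOK S Φ Good (init S) := by
  refine ⟨⟨S.flatten.length, ?_, ?_⟩, ?_, hP.start, ?_⟩
  · have hmem : ∀ x ∈ init S, x.1 ∈ S ∧ x.2 = x.1 := by
      intro x hx
      obtain ⟨s, hs, rfl⟩ := List.mem_map.mp hx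
      exact ⟨hs, rfl⟩
    have hlen : ∀ x ∈ init S, x.1.length ≤ S.flatten.length := by
      intro x hx
      obtain ⟨h1, -⟩ := hmem x hx
      obtain ⟨t, u, e⟩ := List.append_of_mem h1
      rw [e]
      simp
      omega
    refine ⟨fun a ha b _ _ => ((ovl_suffix _ _).length_le).trans (hlen a ha), fun a ha => ?_⟩
    have := (bord_suffix a.1).length_le
    have h2 := hlen a ha
    simp only [List.length_tail] at this
    omega
  · intro x hx
    obtain ⟨s, hs, rfl⟩ := List.mem_map.mp hx
    exact ⟨List.take_prefix _ _, List.drop_suffix _ _, le_rfl⟩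
  · intro s hs
    exact ⟨(s, s), List.mem_map.mpr ⟨s, hs, rfl⟩, List.infix_rfl⟩
  · have : gap (init S) = 0 := by
      have : ∀ (S : List (List β)), gap (init S) = 0 := by
        intro S
        induction S with
        | nil => simp [gap, init]
        | cons s S ih =>
          simp only [gap, init, List.map_cons, List.sum_cons, List.map_map] at ih ⊢
          simp only [Nat.sub_self, zero_add]
          exact ih
      exact this S
    omega

/-- **The potential bound.**  Given a potential, the output of the algorithm contains the strings and its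
length is at most the potential of the first state. -/
theorem orcc_le {S : List (List β)} {Φ : List (Item β) → ℕ} {Good : List (Item β) → Prop}
    (hP : Pot S Φ Good) : (orcc S).length ≤ Φ (init S) := by
  have hrun : RunOK S Φ Good (finalSt S) := by
    rw [finalSt_eq]
    exact runOK_iter hP _ (runOK_init hP)
  obtain ⟨⟨l, hI⟩, -, hG, hJ⟩ := hrun
  obtain ⟨hn, hf⟩ := finalSt_stable S
  have h1 := hP.fix _ hG hn hf
  have h2 := elen_eq (L := finalSt S) fun x hx => (hI.2 x hx).2.2
  have h3 := length_flatten_elen (finalSt S)
  unfold orcc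
  unfold elen at h2
  omega

/-- The trivial potential, for containment. -/
theorem orcc_infix (S : List (List β)) : ∀ s ∈ S, s <:+: orcc S := by
  have hP : ∀ L : List (Item β), (∃ l, Inv l L) ∧ Keeps S L → (∃ l, Inv l (oStep L)) ∧ Keeps S (oStep L) := by
    rintro L ⟨⟨l, hI⟩, hK⟩
    have hI' := inv_dedup hI
    have hK' : Keeps S L.dedup := fun s hs => by
      obtain ⟨x, hx, h3⟩ := hK s hs
      exact ⟨x, List.mem_dedup.mpr hx, h3⟩
    have hnd := List.nodup_dedup L
    rw [oStep]
    rcases oStep0_cases L.dedup with ⟨h1, -⟩ | ⟨a, b, c, ha, hb, hab, hc0, hc, hl, h⟩ |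
      ⟨x, c, hx, hc0, hc, hl, hlt, h⟩
    · rw [h1]
      exact ⟨⟨l, hI'⟩, hK'⟩
    · rw [h]
      have hcl : c ≤ l := by rw [← hc]; exact hI'.1.1 a ha b hb hab
      obtain ⟨i1, -, i3⟩ := inv_merge hnd hI' hcl hc hl ha hb hab
      exact ⟨⟨c, i1⟩, fun s hs => i3 s (hK' s hs)⟩
    · rw [h]
      have hcl : c ≤ l := by rw [← hc]; exact hI'.1.2 x hx
      obtain ⟨i1, -, i3⟩ := inv_close hI' hcl hc hl hx
      exact ⟨⟨c, i1⟩, fun s hs => i3 s (hK' s hs)⟩
  have hit : ∀ (r : List Unit) (L : List (Item β)), (∃ l, Inv l L) ∧ Keeps S L →
      (∃ l, Inv l (iter r L)) ∧ Keeps S (iter r L) := by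
    intro r
    induction r with
    | nil => exact fun L h => h
    | cons x r ih => exact fun L h => ih _ (hP L h)
  have h0 : (∃ l, Inv l (init S)) ∧ Keeps S (init S) := by
    refine ⟨⟨S.flatten.length, ?_, ?_⟩, ?_⟩
    · have hlen : ∀ x ∈ init S, x.1.length ≤ S.flatten.length := by
        intro x hx
        obtain ⟨s, hs, rfl⟩ := List.mem_map.mp hx
        obtain ⟨t, u, e⟩ := List.append_of_mem hs
        rw [e]
        simp
        omega
      refine ⟨fun a ha b _ _ => ((ovl_suffix _ _).length_le).trans (hlen a ha), fun a ha => ?_⟩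
      have := (bord_suffix a.1).length_le
      have h2 := hlen a ha
      simp only [List.length_tail] at this
      omega
    · intro x hx
      obtain ⟨s, hs, rfl⟩ := List.mem_map.mp hx
      exact ⟨List.take_prefix _ _, List.drop_suffix _ _, le_rfl⟩
    · intro s hs
      exact ⟨(s, s), List.mem_map.mpr ⟨s, hs, rfl⟩, List.infix_rfl⟩
  have h1 := hit (S.flatten.map (fun _ => ()) ++ S.map (fun _ => ())) _ h0
  rw [← finalSt_eq] at h1
  exact keeps_flatten h1.2

end Crest.Agent.SS.Orcc
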