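/-
S0432: the statement follows from any polynomial time superstring algorithm on lists of letters
(here letters are bit strings) whose output only uses input letters, contains all inputs, and is
within a factor two of every superstring.  No equivariance of the algorithm is needed.
-/
import Crest.Agent.SS.GreedyPT
import Crest.Agent.PolyLib.Codes

set_option autoImplicit false

namespace Crest.Agent.SS

open Crest.Agent.PolyLib Crest.Enc

theorem superstring_of_alg (alg : List (List (List Bool)) → List (List Bool)) (hpt : PT alg)
    (hlet : ∀ (L : List (List (List Bool))) (x : List Bool), x ∈ alg L → ∃ s ∈ L, x ∈ s)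
    (hsup : ∀ L : List (List (List Bool)), ∀ s ∈ L, s <:+: alg L)
    (hratio : ∀ (L : List (List (List Bool))) (T' : List (List Bool)),
      (∀ s ∈ L, s <:+: T') → (alg L).length ≤ 2 * T'.length) :
    ∃ f : List Bool → List Bool, Crest.Complexity.PolyTime f ∧
      ∀ S : List (List ℕ), ∃ T : List ℕ,
        f (natCode S.length ++ (S.map listCode).flatten) = listCode T ∧
        (∀ s ∈ S, s <:+: T) ∧
        ∀ T' : List ℕ, (∀ s ∈ S, s <:+: T') → T.length ≤ 2 * T'.length := by
  refine ⟨fun x => printList (alg (decode x)), PT.polyTime (pt_printList (hpt.comp pt_decode)), ?_⟩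
  intro S
  set L : List (List (List Bool)) := S.map (List.map Nat.bits) with hL
  set T : List ℕ := (alg L).map bval with hT
  have hU : T.map Nat.bits = alg L := by
    rw [hT, List.map_map]
    conv_rhs => rw [← List.map_id (alg L)]
    refine List.map_congr_left fun x hx => ?_
    obtain ⟨s, hs, hxs⟩ := hlet L x hx
    rw [hL, List.mem_map] at hs
    obtain ⟨s', _, rfl⟩ := hs
    rw [List.mem_map] at hxs
    obtain ⟨n, _, rfl⟩ := hxs
    simp [bval_bits]
  refine ⟨T, ?_, ?_, ?_⟩
  · show printList (alg (decode _)) = _
    rw [decode_code, ← printList_map, hU]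
  · intro s hs
    have h1 : s.map Nat.bits <:+: T.map Nat.bits := by
      rw [hU]
      exact hsup L _ (List.mem_map.mpr ⟨s, hs, rfl⟩)
    have h3 := h1.map bval
    have hb : ∀ l : List ℕ, (l.map Nat.bits).map bval = l := by
      intro l
      simp [List.map_map, Function.comp_def, bval_bits]
    rwa [hb, hb] at h3
  · intro T' hT'
    have h2 := hratio L (T'.map Nat.bits) (by
      intro s hs
      rw [hL, List.mem_map] at hs
      obtain ⟨s', hs', rfl⟩ := hs
      exact (hT' s' hs').map _)
    simpa [hT] using h2

end Crest.Agent.SS

namespace Crest.Agent.SS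

open Crest.Agent.PolyLib Crest.Agent.PolyLib.Enc Crest.Enc Polynomial

/-! ### The letters as natural numbers: no translation of alphabets -/

lemma PT.of_enc_congr {α β γ : Type} [Enc α] [Enc β] [Enc γ] {f : α → β} {g : α → γ} (hf : PT f)
    (h : ∀ a, enc (f a) = enc (g a)) : PT g := by
  obtain ⟨c, p, hc⟩ := hf
  refine ⟨c, p, fun a => ?_⟩
  rw [← h a]
  exact hc a

/-- The canonical form of a little-endian bit list. -/
def stripBits (l : List Bool) : List Bool :=
  l.foldr (fun b s => if b || !s.isEmpty then b :: s else []) []

lemma bval_bits_eq_strip (l : List Bool) : (bval l).bits = stripBits l := by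
  induction l with
  | nil => simp [bval, stripBits]
  | cons b r ih =>
    have e : stripBits (b :: r) = if b || !(stripBits r).isEmpty then b :: stripBits r else [] := rfl
    rw [e, ← ih]
    have e2 : bval (b :: r) = Nat.bit b (bval r) := by
      cases b <;> simp [bval, Nat.bit] <;> omega
    rw [e2]
    by_cases h : (bval r) = 0
    · cases b
      · simp [h]
      · simp [h]
    · have h2 : (bval r).bits ≠ [] := by
        intro h3
        have h5 := congrArg bval h3
        rw [bval_bits] at h5
        exact h (by simpa [bval] using h5)
      have h4 : (!((bval r).bits.isEmpty)) = true := by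
        cases hh : (bval r).bits with
        | nil => exact absurd hh h2
        | cons _ _ => rfl
      rw [Nat.bits_append_bit _ _ (fun h3 => absurd h3 h)]
      simp [h4]

lemma pt_stripBits : PT stripBits := by
  unfold stripBits
  refine PT.foldr_glob (step := fun _ b s => if b || !s.isEmpty then b :: s else [])
    (init := fun _ => []) PT.id (PT.const _) ?_ X ?_
  · refine PT.ite (PT.or (PT.fst' PT.snd) (PT.not (PT.isEmpty.comp (PT.snd' PT.snd))))
      (PT.cons (PT.fst' PT.snd) (PT.snd' PT.snd)) (PT.const _)
  · intro a r
    have h : size (enc (r.foldr (fun b s => if b || !s.isEmpty then b :: s else []) [])) ≤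
        size (enc r) := by
      induction r with
      | nil => exact le_rfl
      | cons b r ih =>
        simp only [List.foldr_cons]
        split_ifs
        · simp only [size_enc_cons]
          omega
        · have := size_pos (enc (b :: r))
          simpa using this
    simp only [eval_X]
    omega

lemma pt_bval : PT bval := PT.of_enc_congr pt_stripBits fun l => by
  show enc (stripBits l) = enc ((bval l).bits)
  rw [bval_bits_eq_strip]

lemma pt_natBits : PT Nat.bits := PT.of_enc_congr PT.id fun _ => rfl

instance : PTEq ℕ where
  pt := by
    have h : PT (fun p : ℕ × ℕ => decide (p.1.bits = p.2.bits)) :=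
      PT.decEq (pt_natBits.comp PT.fst) (pt_natBits.comp PT.snd)
    refine h.congr fun p => ?_
    have : p.1.bits = p.2.bits ↔ p.1 = p.2 := by
      constructor
      · intro h
        have := congrArg bval h
        rwa [bval_bits, bval_bits] at this
      · intro h
        rw [h]
    simp [this]

/-- The statement from a polynomial time algorithm on lists of natural numbers: here no alphabet
translation is needed. -/
theorem superstring_of_algN (alg : List (List ℕ) → List ℕ) (hpt : PT alg)
    (hsup : ∀ S : List (List ℕ), ∀ s ∈ S, s <:+: alg S)
    (hratio : ∀ (S : List (List ℕ)) (T' : List ℕ),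
      (∀ s ∈ S, s <:+: T') → (alg S).length ≤ 2 * T'.length) :
    ∃ f : List Bool → List Bool, Crest.Complexity.PolyTime f ∧
      ∀ S : List (List ℕ), ∃ T : List ℕ,
        f (natCode S.length ++ (S.map listCode).flatten) = listCode T ∧
        (∀ s ∈ S, s <:+: T) ∧
        ∀ T' : List ℕ, (∀ s ∈ S, s <:+: T') → T.length ≤ 2 * T'.length := by
  have hdec : PT (fun x : List Bool => (decode x).map (List.map bval)) := by
    refine PT.map pt_decode ?_
    refine PT.map PT.snd ?_
    exact pt_bval.comp PT.snd
  have hT : PT (fun x : List Bool => (alg ((decode x).map (List.map bval))).map Nat.bits) := by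
    refine PT.map (hpt.comp hdec) ?_
    exact pt_natBits.comp PT.snd
  refine ⟨fun x => printList ((alg ((decode x).map (List.map bval))).map Nat.bits),
    PT.polyTime (pt_printList hT), ?_⟩
  intro S
  have e : (decode (natCode S.length ++ (S.map listCode).flatten)).map (List.map bval) = S := by
    rw [decode_code, List.map_map]
    conv_rhs => rw [← List.map_id S]
    refine List.map_congr_left fun s _ => ?_
    simp [List.map_map, Function.comp_def, bval_bits]
  refine ⟨alg S, ?_, hsup S, hratio S⟩
  show printList ((alg _).map Nat.bits) = _
  rw [e, printList_map]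

end Crest.Agent.SS
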