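/-
S0432: the ORCC machine of `SS/Orcc.lean` runs in polynomial time, and the statement follows from any potential
in the sense of `Orcc.Pot` with start value at most twice the optimum.
-/
import Crest.Agent.SS.Wrap
import Crest.Agent.SS.Orcc

set_option autoImplicit false

namespace Crest.Agent.SS.Orcc

open Crest.Agent.PolyLib Polynomial Enc Crest.Agent.SS

variable {α β : Type} [Enc α] [Enc β] [DecidableEq β] [Inhabited β] [PTEq β]

instance instPTEqItem : PTEq (List β × List β) where
  pt := by
    have h : PT (fun p : (List β × List β) × (List β × List β) =>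
        decide (p.1.1 = p.2.1) && decide (p.1.2 = p.2.2)) :=
      PT.and (PT.decEq (PT.fst' PT.fst) (PT.fst' PT.snd)) (PT.decEq (PT.snd' PT.fst) (PT.snd' PT.snd))
    refine h.congr fun p => ?_
    rcases p with ⟨⟨a, b⟩, ⟨c, d⟩⟩
    rw [Bool.eq_iff_iff]
    simp

lemma pt_bord {f : α → List β} (hf : PT f) : PT (fun a => bord (f a)) := by
  unfold bord
  exact pt_ovl (PT.tail.comp hf) hf

lemma pt_dpairs {f : α → List (Item β)} (hf : PT f) : PT (fun a => dpairs (f a)) := by
  refine PT.filter (l := fun a => (f a).flatMap fun x => (f a).map fun y => (x, y))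
    (p := fun _ q => !decide (q.1 = q.2)) (PT.product hf hf) ?_
  exact PT.not (PT.decEq (PT.fst' PT.snd) (PT.snd' PT.snd))

lemma pt_mv {f : α → Item β × Item β} (hf : PT f) :
    PT (fun a => ovl (f a).1.1 (f a).2.1) :=
  pt_ovl (PT.fst' (PT.fst' hf)) (PT.fst' (PT.snd' hf))

lemma pt_betterP {f g : α → Item β × Item β} (hf : PT f) (hg : PT g) :
    PT (fun a => betterP (f a) (g a)) := by
  unfold betterP mv
  exact PT.ite' (PT.lengthLt (pt_mv hf) (pt_mv hg)) hg hf

lemma betterP_eq (s b : Item β × Item β) : betterP s b = s ∨ betterP s b = b := by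
  unfold betterP
  split_ifs <;> simp

lemma betterB_eq (s b : Item β) : betterB s b = s ∨ betterB s b = b := by
  unfold betterB
  split_ifs <;> simp

lemma pt_bestP {f : α → List (Item β)} (hf : PT f) : PT (fun a => bestP (f a)) := by
  have hp := pt_dpairs (α := α) (β := β) hf
  obtain ⟨_, pP, hP⟩ := _root_.id hp
  unfold bestP
  refine PT.foldl_inv (init := fun a => (dpairs (f a)).headD (([], []), ([], [])))
    (PT.tail.comp hp)
    ((PT.headD _).comp hp) (step := fun _ s b => betterP s b) ?_ (pP + C 9)
    (fun a s => size (enc s) ≤ size (enc (dpairs (f a))) + 9) ?_ ?_ ?_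
  · exact pt_betterP (PT.fst' PT.snd) (PT.snd' PT.snd)
  · intro a
    cases hh : dpairs (f a) with
    | nil =>
      simp only [List.headD_nil]
      have : size (enc ((([], []), ([], [])) : (List β × List β) × (List β × List β))) ≤ 9 := by
        simp
      omega
    | cons x r =>
      have := size_enc_cons x r
      simp only [List.headD_cons]
      omega
  · intro a s b hb hs
    rcases betterP_eq s b with h | h
    · rw [h]; exact hs
    · rw [h]
      have h1 := size_enc_mem hb
      have h2 := size_enc_tail (dpairs (f a))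
      omega
  · intro a s hs
    have : size (enc (dpairs (f a))) ≤ pP.eval (size (enc a)) := (hP a).1
    simp only [eval_add, eval_C]
    omega

lemma pt_betterB {f g : α → Item β} (hf : PT f) (hg : PT g) :
    PT (fun a => betterB (f a) (g a)) := by
  unfold betterB
  exact PT.ite' (PT.lengthLt (pt_bord (PT.fst' hf)) (pt_bord (PT.fst' hg))) hg hf

lemma pt_bestB {f : α → List (Item β)} (hf : PT f) : PT (fun a => bestB (f a)) := by
  obtain ⟨_, pP, hP⟩ := _root_.id hf
  unfold bestB
  refine PT.foldl_inv (init := fun a => (f a).headD ([], []))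
    (PT.tail.comp hf)
    ((PT.headD _).comp hf) (step := fun _ s b => betterB s b) ?_ (pP + C 5)
    (fun a s => size (enc s) ≤ size (enc (f a)) + 5) ?_ ?_ ?_
  · exact pt_betterB (PT.fst' PT.snd) (PT.snd' PT.snd)
  · intro a
    cases hh : f a with
    | nil =>
      simp only [List.headD_nil]
      have : size (enc (([], []) : (List β × List β))) ≤ 5 := by
        simp
      omega
    | cons x r =>
      have := size_enc_cons x r
      simp only [List.headD_cons]
      omega
  · intro a s b hb hs
    rcases betterB_eq s b with h | h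
    · rw [h]; exact hs
    · rw [h]
      have h1 := size_enc_mem hb
      have h2 := size_enc_tail (f a)
      omega
  · intro a s hs
    have : size (enc (f a)) ≤ pP.eval (size (enc a)) := (hP a).1
    simp only [eval_add, eval_C]
    omega

lemma pt_mergeI {f g : α → Item β} (hf : PT f) (hg : PT g) : PT (fun a => mergeI (f a) (g a)) := by
  unfold mergeI
  exact PT.pair (pt_merge (PT.fst' hf) (PT.fst' hg))
    (PT.append (PT.snd' hf) (PT.dropLen (pt_ovl (PT.fst' hf) (PT.fst' hg)) (PT.snd' hg)))

lemma pt_stMerge {f : α → List (Item β)} {g h : α → Item β} (hf : PT f) (hg : PT g) (hh : PT h) :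
    PT (fun a => stMerge (f a) (g a) (h a)) := by
  unfold stMerge
  exact PT.cons (pt_mergeI hg hh) (pt_erase (pt_erase hf hg) hh)

lemma pt_stClose {f : α → List (Item β)} {g : α → Item β} (hf : PT f) (hg : PT g) :
    PT (fun a => stClose (f a) (g a)) := by
  unfold stClose
  exact PT.cons (PT.pair (pt_bord (PT.fst' hg)) (PT.snd' hg)) (pt_erase hf hg)

lemma pt_oStep0 {f : α → List (Item β)} (hf : PT f) : PT (fun a => oStep0 (f a)) := by
  unfold oStep0 mv
  have hP := pt_bestP (α := α) (β := β) hf
  have hB := pt_bestB (α := α) (β := β) hf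
  refine PT.ite' (PT.lengthLe (pt_bord (PT.fst' hB)) (pt_mv hP)) ?_ (pt_stClose hf hB)
  have h0 : PT (fun a => (ovl (bestP (f a)).1.1 (bestP (f a)).2.1).isEmpty) :=
    PT.isEmpty.comp (pt_mv hP)
  refine (PT.ite h0 hf (pt_stMerge hf (PT.fst' hP) (PT.snd' hP))).congr fun a => ?_
  cases hh : ovl (bestP (f a)).1.1 (bestP (f a)).2.1 with
  | nil => simp [hh]
  | cons x r => simp [hh]

lemma pt_oStep {f : α → List (Item β)} (hf : PT f) : PT (fun a => oStep (f a)) := by
  unfold oStep
  exact pt_oStep0 (pt_dedup hf)

omit [Inhabited β] [PTEq β] in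
lemma size_stMerge_le {L : List (Item β)} {a b : Item β} (ha : a ∈ L) (hb : b ∈ L) (hab : a ≠ b) :
    size (enc (stMerge L a b)) ≤ size (enc L) := by
  unfold stMerge
  rw [size_enc_cons]
  have h5 : b ∈ L.erase a := (List.mem_erase_of_ne hab.symm).mpr hb
  have h6 := size_enc_erase ha
  have h7 := size_enc_erase h5
  have h8 := size_enc_merge a.1 b.1
  have h9 := size_enc_append a.2 (b.2.drop (ovl a.1 b.1).length)
  have h10 := size_enc_drop b.2 (ovl a.1 b.1).length
  have e1 : size (enc a) = size (enc a.1) + size (enc a.2) + 1 := size_enc_pair a.1 a.2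
  have e2 : size (enc b) = size (enc b.1) + size (enc b.2) + 1 := size_enc_pair b.1 b.2
  have e3 : size (enc (mergeI a b)) = size (enc (merge a.1 b.1)) +
      size (enc (a.2 ++ b.2.drop (ovl a.1 b.1).length)) + 1 := size_enc_pair _ _
  omega

omit [Inhabited β] [PTEq β] in
lemma size_stClose_le {L : List (Item β)} {x : Item β} (hx : x ∈ L) :
    size (enc (stClose L x)) ≤ size (enc L) := by
  unfold stClose
  rw [size_enc_cons]
  have h6 := size_enc_erase hx
  have h8 : size (enc (bord x.1)) ≤ size (enc x.1) :=
    size_enc_suffix ((bord_suffix x.1).trans (List.tail_suffix x.1))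
  have e1 : size (enc x) = size (enc x.1) + size (enc x.2) + 1 := size_enc_pair x.1 x.2
  have e3 : size (enc ((bord x.1, x.2) : Item β)) = size (enc (bord x.1)) + size (enc x.2) + 1 :=
    size_enc_pair _ _
  omega

omit [Inhabited β] [PTEq β] in
lemma size_oStep0_le (L : List (Item β)) : size (enc (oStep0 L)) ≤ size (enc L) := by
  unfold oStep0
  split_ifs with h1 h2
  · exact le_rfl
  · by_cases hd : dpairs L = []
    · exact absurd (mv_eq_zero_of_dpairs_nil hd) h2
    · obtain ⟨h3, -⟩ := bestP_spec hd
      obtain ⟨h4, h5, h6⟩ := mem_dpairs.mp h3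
      exact size_stMerge_le h4 h5 h6
  · have hne : L ≠ [] := by
      rintro rfl
      apply h1
      simp [bestB, bord, ovl]
    exact size_stClose_le (bestB_spec hne).1

omit [Inhabited β] [PTEq β] in
lemma size_oStep_le (L : List (Item β)) : size (enc (oStep L)) ≤ size (enc L) :=
  (size_oStep0_le _).trans (size_enc_sublist (List.dedup_sublist L))

lemma pt_finalSt : PT (fun S : List (List β) => finalSt S) := by
  unfold finalSt
  have hinit : PT (fun S : List (List β) => init S) := by
    unfold init
    exact PT.map PT.id (PT.pair PT.snd PT.snd)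
  have h1 : PT (fun S : List (List β) => S.flatten.foldl (fun s _ => oStep s) (init S)) := by
    refine PT.foldl_add (step := fun _ s _ => oStep s) (PT.flatten PT.id) hinit ?_ 0 ?_
    · exact pt_oStep (PT.fst' PT.snd)
    · intro a s b _
      have := size_oStep_le s
      simp only [eval_zero]
      omega
  refine PT.foldl_add (step := fun _ s _ => oStep s) PT.id h1 ?_ 0 ?_
  · exact pt_oStep (PT.fst' PT.snd)
  · intro a s b _
    have := size_oStep_le s
    simp only [eval_zero]
    omega

/-- The machine runs in polynomial time. -/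
theorem pt_orcc : PT (fun S : List (List β) => orcc S) := by
  unfold orcc
  exact PT.flatten (PT.map pt_finalSt (PT.snd' PT.snd))

end Crest.Agent.SS.Orcc

namespace Crest.Agent.SS.Orcc

open Crest.Agent.PolyLib Crest.Agent.SS

/-- **The statement from a potential**: S0432 follows as soon as for every instance `S` and every superstring
`T'` the ORCC machine has a potential `Φ` in the sense of `Pot` whose start value is at most `2 |T'|`.  `Φ` and
`Good` may be anything (ghost layouts, chain partitions, infima over families, ...). -/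
theorem superstring_of_potential
    (hpot : ∀ (S : List (List ℕ)) (T' : List ℕ), (∀ s ∈ S, s <:+: T') →
      ∃ (Φ : List (Item ℕ) → ℕ) (Good : List (Item ℕ) → Prop), Pot S Φ Good ∧ Φ (init S) ≤ 2 * T'.length) :
    ∃ f : List Bool → List Bool, Crest.Complexity.PolyTime f ∧
      ∀ S : List (List ℕ), ∃ T : List ℕ,
        f (Crest.Enc.natCode S.length ++ (S.map Crest.Enc.listCode).flatten) = Crest.Enc.listCode T ∧
        (∀ s ∈ S, s <:+: T) ∧
        ∀ T' : List ℕ, (∀ s ∈ S, s <:+: T') → T.length ≤ 2 * T'.length := by
  refine superstring_of_algN (fun S => orcc S) pt_orcc orcc_infix ?_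
  intro S T' hT'
  obtain ⟨Φ, Good, h1, h2⟩ := hpot S T' hT'
  exact (orcc_le h1).trans h2

/-- The same with the pre-filter to the maximal strings: the potential is only needed on duplicate free, substring
free families. -/
theorem superstring_of_potentialR
    (hpot : ∀ (S : List (List ℕ)) (T' : List ℕ), (∀ s ∈ S, s <:+: T') → S.Nodup →
      (∀ a ∈ S, ∀ b ∈ S, a <:+: b → a = b) →
      ∃ (Φ : List (Item ℕ) → ℕ) (Good : List (Item ℕ) → Prop), Pot S Φ Good ∧ Φ (init S) ≤ 2 * T'.length) :
    ∃ f : List Bool → List Bool, Crest.Complexity.PolyTime f ∧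
      ∀ S : List (List ℕ), ∃ T : List ℕ,
        f (Crest.Enc.natCode S.length ++ (S.map Crest.Enc.listCode).flatten) = Crest.Enc.listCode T ∧
        (∀ s ∈ S, s <:+: T) ∧
        ∀ T' : List ℕ, (∀ s ∈ S, s <:+: T') → T.length ≤ 2 * T'.length := by
  refine superstring_of_algN (fun S => orcc (reduce S)) (pt_orcc.comp (pt_reduce PT.id)) ?_ ?_
  · intro S s hs
    obtain ⟨t, ht, hst⟩ := reduce_contains hs
    exact hst.trans (orcc_infix _ t ht)
  · intro S T' hT'
    have hmem : ∀ a ∈ reduce S, a ∈ S := by
      intro a ha
      simp only [reduce, List.mem_filter, List.mem_dedup] at ha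
      exact ha.1
    have hnd : (reduce S).Nodup := by
      unfold reduce
      exact (List.nodup_dedup S).filter _
    have hfree : ∀ a ∈ reduce S, ∀ b ∈ reduce S, a <:+: b → a = b := by
      intro a ha b hb hab
      by_contra hne
      simp only [reduce, List.mem_filter, List.mem_dedup, Bool.not_eq_true', List.any_eq_false,
        Bool.and_eq_true, Bool.not_eq_true, decide_eq_false_iff_not, decide_eq_true_eq, not_and] at ha hb
      exact ha.2 b hb.1 hne hab
    obtain ⟨Φ, Good, h1, h2⟩ := hpot (reduce S) T' (fun s hs => hT' s (hmem s hs)) hnd hfree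
    exact (orcc_le h1).trans h2

end Crest.Agent.SS.Orcc
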