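/-
S0432: rotated passes (helper65 H1, helper95 #2162 (1), helper25 #2148 (1)).  A ring is cut into consecutive
blocks `C j = I j ++ G j` (`I j` a chosen strand, `G j` the other strands up to the next chosen one).  The passes
`C j ++ I (j+1)` keep the head of `I j` and the tail of `I (j+1)`, and they cost exactly one lap more than the
chosen strands:  `Σ |chain (C j ++ I (j+1))| = p + Σ |chain (I j)|`.
-/
import Crest.Agent.SS.Open2

set_option autoImplicit false

namespace Crest.Agent.SS.Alg

open Crest.Agent.SS Finset

section pass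

variable (C I : ℕ → List Str) (hd tl : ℕ → Str)

/-- Concatenation of `m` consecutive blocks. -/
def blocks : ℕ → ℕ → List Str
  | _, 0 => []
  | b, m + 1 => C b ++ blocks (b + 1) m

lemma blocks_head {b m : ℕ} (hC : ∀ j, (C j).head? = some (hd j)) :
    (blocks C b (m + 1)).head? = some (hd b) :=
  head?_append_of_head (hC b)

lemma blocks_last {b m : ℕ} (hC : ∀ j, (C j).head? = some (hd j))
    (hL : ∀ j, (C j).getLast? = some (tl j)) :
    (blocks C b (m + 1)).getLast? = some (tl (b + m)) := by
  induction m generalizing b with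
  | zero => simpa [blocks] using hL b
  | succ m ih =>
    have h := ih (b := b + 1)
    rw [show b + 1 + m = b + (m + 1) by omega] at h
    exact getLast?_append_of_last h

/-- The chain of consecutive blocks. -/
theorem chain_blocks (hC : ∀ j, (C j).head? = some (hd j))
    (hL : ∀ j, (C j).getLast? = some (tl j)) (b m : ℕ) :
    (chain (blocks C b (m + 1))).length + ∑ j ∈ range m, ov (tl (b + j)) (hd (b + j + 1)) =
      ∑ j ∈ range (m + 1), (chain (C (b + j))).length := by
  induction m generalizing b with
  | zero => simp [blocks]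
  | succ m ih =>
    have h1 := ih (b + 1)
    have h2 := cost_append (L₁ := C b) (L₂ := blocks C (b + 1) (m + 1)) (hL b)
      (blocks_head C hd hC)
    have e : blocks C b (m + 1 + 1) = C b ++ blocks C (b + 1) (m + 1) := rfl
    rw [e, Finset.sum_range_succ', Finset.sum_range_succ' _ (m + 1)]
    have s1 : ∑ j ∈ range m, ov (tl (b + (j + 1))) (hd (b + (j + 1) + 1)) =
        ∑ j ∈ range m, ov (tl (b + 1 + j)) (hd (b + 1 + j + 1)) :=
      Finset.sum_congr rfl fun j _ => by rw [show b + (j + 1) = b + 1 + j by omega]
    have s2 : ∑ j ∈ range (m + 1), (chain (C (b + (j + 1)))).length =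
        ∑ j ∈ range (m + 1), (chain (C (b + 1 + j))).length :=
      Finset.sum_congr rfl fun j _ => by rw [show b + (j + 1) = b + 1 + j by omega]
    rw [s1, s2]
    simp only [Nat.add_zero]
    omega

/-- The sum of the passes. -/
theorem pass_sum {m : ℕ} (hC : ∀ j, (C j).head? = some (hd j))
    (hL : ∀ j, (C j).getLast? = some (tl j)) (hI : ∀ j, (I j).head? = some (hd j)) :
    ∑ j ∈ range m, (chain (C j ++ I (j + 1))).length + ∑ j ∈ range m, ov (tl j) (hd (j + 1)) =
      ∑ j ∈ range m, (chain (C j)).length + ∑ j ∈ range m, (chain (I (j + 1))).length := by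
  rw [← Finset.sum_add_distrib, ← Finset.sum_add_distrib]
  exact Finset.sum_congr rfl fun j _ => cost_append (hL j) (hI (j + 1))

/-- **A lap.**  If the blocks `C 0, …, C (m-1)` are the cycle `ringList L x` (`m ≥ 1`, family periodic with
period `m`, closing overlap the declared one), the passes cost one lap more than the chosen strands. -/
theorem pass_sum_ring {L : List Str} (hfree : ∀ a ∈ L, ∀ b ∈ L, a ≠ b → ¬ a <:+: b) {x z : Str} {m : ℕ}
    (hx : x ∈ L) (hC : ∀ j, (C j).head? = some (hd j))
    (hL : ∀ j, (C j).getLast? = some (tl j)) (hI : ∀ j, (I j).head? = some (hd j))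
    (hIp : ∀ j, I (j + (m + 1)) = I j) (hdp : ∀ j, hd (j + (m + 1)) = hd j)
    (hR : blocks C 0 (m + 1) = ringList L x) (hzx : z ≠ x)
    (hz : (ringList L x).getLast? = some z) (hd0 : hd 0 = x) :
    ∑ j ∈ range (m + 1), (chain (C j ++ I (j + 1))).length =
      ringP L x + ∑ j ∈ range (m + 1), (chain (I j)).length := by
  obtain ⟨z', -, hz', -, hzL, hlen⟩ := ringList_cost hfree hx
  have ezz : z' = z := by rw [hz] at hz'; exact (Option.some.inj hz').symm
  subst ezz
  have hb := chain_blocks C hd tl hC hL 0 m
  have hp := pass_sum (m := m + 1) C I hd tl hC hL hI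
  have hlast := blocks_last (b := 0) (m := m) C hd tl hC hL
  rw [hR, hz'] at hlast
  have etl : tl m = z' := by
    have := Option.some.inj hlast
    simpa using this.symm
  rw [hR, hlen] at hb
  simp only [zero_add] at hb
  -- the arcs
  have hsum : ∑ j ∈ range (m + 1), ov (tl j) (hd (j + 1)) =
      ∑ j ∈ range m, ov (tl j) (hd (j + 1)) + ov z' x := by
    rw [Finset.sum_range_succ, etl]
    congr 2
    have := hdp 0
    simp only [zero_add] at this
    rw [this, hd0]
  have hxz : ov z' x = ovLen (z', x) := ov_eq_ovLen hfree hzL hx hzx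
  -- the shifted sum of the chosen strands
  have hIs : ∑ j ∈ range (m + 1), (chain (I (j + 1))).length = ∑ j ∈ range (m + 1), (chain (I j)).length := by
    have h : ∑ i ∈ range (m + 1), (chain (I (1 + i))).length = ∑ i ∈ range (m + 1), (chain (I i)).length :=
      sum_shift (fun j => (chain (I j)).length) (m + 1) (fun j => by simp only [hIp]) 1
    rw [← h]
    exact Finset.sum_congr rfl fun j _ => by rw [add_comm]
  rw [hIs] at hp
  omega

end pass

end Crest.Agent.SS.Alg
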